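import Mathlib

/-!
The Fock bimodule over the group algebra: a free product of a group factor and semicircular
operators, realised on `ℓ²` of `G × List (J × G)`.
-/

noncomputable section

namespace Vale.Agent.P087.Fock

open scoped InnerProductSpace Classical

variable {G : Type*} [Group G] {J : Type*}

abbrev Bas (G : Type*) (J : Type*) := G × List (J × G)

abbrev FH (G : Type*) (J : Type*) := lp (fun _ : Bas G J => ℂ) 2

/-! ### Operators from partial injections -/

/-- Composition with a partial injection. -/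
def pullFun (f : Bas G J ≃. Bas G J) (x : Bas G J → ℂ) : Bas G J → ℂ :=
  fun b => (f b).elim 0 x

lemma sum_pullFun_le (f : Bas G J ≃. Bas G J) (x : FH G J) (s : Finset (Bas G J)) :
    ∑ b ∈ s, ‖pullFun f (⇑x) b‖ ^ 2 ≤ ‖x‖ ^ 2 := by
  have h1 : ∑ b ∈ s, ‖pullFun f (⇑x) b‖ ^ 2 =
      ∑ b ∈ s.filter (fun b => (f b).isSome), ‖x ((f b).getD (1, []))‖ ^ 2 := by
    rw [Finset.sum_filter]
    refine Finset.sum_congr rfl fun b _ => ?_
    unfold pullFun
    cases f b <;> simp
  have hinj : Set.InjOn (fun b => (f b).getD (1, []))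
      ↑(s.filter (fun b => (f b).isSome)) := by
    intro a ha b hb hab
    simp only [Finset.coe_filter, Set.mem_setOf_eq] at ha hb
    obtain ⟨a', ha'⟩ := Option.isSome_iff_exists.mp ha.2
    obtain ⟨b', hb'⟩ := Option.isSome_iff_exists.mp hb.2
    simp only [ha', hb', Option.getD_some] at hab
    subst hab
    have e1 := (f.eq_some_iff).2 ha'
    have e2 := (f.eq_some_iff).2 hb'
    exact Option.some_injective _ (e1.symm.trans e2)
  rw [h1, ← Finset.sum_image (f := fun c => ‖x c‖ ^ 2) hinj]
  have := lp.sum_rpow_le_norm_rpow (p := 2) (by norm_num) x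
    ((s.filter (fun b => (f b).isSome)).image fun b => (f b).getD (1, []))
  simpa using this

lemma memℓp_pullFun (f : Bas G J ≃. Bas G J) (x : FH G J) : Memℓp (pullFun f (⇑x)) 2 := by
  refine memℓp_gen ?_
  refine summable_of_sum_le (c := ‖x‖ ^ 2) (fun b => by positivity) fun s => ?_
  simpa using sum_pullFun_le f x s

def opLin (f : Bas G J ≃. Bas G J) : FH G J →ₗ[ℂ] FH G J where
  toFun x := ⟨pullFun f (⇑x), memℓp_pullFun f x⟩
  map_add' x y := by
    apply lp.ext; funext b
    change pullFun f (⇑(x + y)) b = pullFun f (⇑x) b + pullFun f (⇑y) b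
    unfold pullFun
    cases f b with
    | none => exact (add_zero (0 : ℂ)).symm
    | some c => rfl
  map_smul' c x := by
    apply lp.ext; funext b
    change pullFun f (⇑(c • x)) b = c • pullFun f (⇑x) b
    unfold pullFun
    cases f b <;> simp

/-- The partial isometry attached to a partial injection. -/
def op (f : Bas G J ≃. Bas G J) : FH G J →L[ℂ] FH G J :=
  (opLin f).mkContinuous 1 fun x => by
    rw [one_mul]
    refine lp.norm_le_of_forall_sum_le (by norm_num) (norm_nonneg x) fun s => ?_
    simpa [opLin] using sum_pullFun_le f x s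

@[simp] lemma op_apply (f : Bas G J ≃. Bas G J) (x : FH G J) (b : Bas G J) :
    op f x b = (f b).elim 0 (fun c => x c) := rfl

lemma norm_op_le (f : Bas G J ≃. Bas G J) : ‖op f‖ ≤ 1 :=
  (opLin f).mkContinuous_norm_le zero_le_one _

/-- Basis vectors. -/
def bv (b : Bas G J) : FH G J := lp.single 2 b (1 : ℂ)

lemma bv_apply (b c : Bas G J) : bv b c = if c = b then (1 : ℂ) else 0 := by
  simp [bv, Pi.single_apply]

lemma inner_bv_left (b : Bas G J) (x : FH G J) : ⟪bv b, x⟫_ℂ = x b := by
  simp [bv, lp.inner_single_left]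

lemma inner_bv_bv (b c : Bas G J) : ⟪bv b, bv c⟫_ℂ = if b = c then (1 : ℂ) else 0 := by
  rw [inner_bv_left, bv_apply]

lemma norm_bv (b : Bas G J) : ‖bv b‖ = 1 := by simp [bv]

lemma smul_bv (b : Bas G J) (a : ℂ) : a • bv b = lp.single 2 b a := by
  apply lp.ext; funext c
  by_cases h : c = b <;> simp [bv, h, Pi.single_apply]

lemma hasSum_bv (x : FH G J) : HasSum (fun b => x b • bv b) x := by
  simpa [smul_bv] using lp.hasSum_single (p := 2) (by norm_num) x

lemma clm_ext_bv {A B : FH G J →L[ℂ] FH G J} (h : ∀ b, A (bv b) = B (bv b)) : A = B := by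
  ext1 x
  have h1 := (hasSum_bv x).mapL A
  have h2 := (hasSum_bv x).mapL B
  simp only [map_smul, h] at h1 h2
  exact h1.unique h2

lemma op_bv (f : Bas G J ≃. Bas G J) (a : Bas G J) :
    op f (bv a) = (f.symm a).elim 0 bv := by
  apply lp.ext; funext b
  rw [op_apply]
  cases hfa : f.symm a with
  | none =>
      cases hfb : f b with
      | none => simp
      | some c =>
          have : c ≠ a := by
            intro h; subst h
            rw [(f.eq_some_iff).2 hfb] at hfa
            simp at hfa
          simp [bv_apply, this]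
  | some d =>
      have hd : f d = some a := (f.eq_some_iff).1 hfa
      by_cases hbd : b = d
      · subst hbd; simp [hd, bv_apply]
      · simp only [Option.elim_some, bv_apply, if_neg hbd]
        cases hfb : f b with
        | none => simp
        | some c =>
            have : c ≠ a := by
              intro h; subst h
              rw [(f.eq_some_iff).2 hfb] at hfa
              exact hbd (Option.some_injective _ hfa)
            simp [bv_apply, this]

lemma star_op (f : Bas G J ≃. Bas G J) : star (op f) = op f.symm := by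
  refine clm_ext_bv fun b => ?_
  apply lp.ext; funext a
  have h1 : (star (op f) (bv b)) a = ⟪op f (bv a), bv b⟫_ℂ := by
    rw [← inner_bv_left a, ContinuousLinearMap.star_eq_adjoint,
      ContinuousLinearMap.adjoint_inner_right]
  rw [h1, ← inner_conj_symm, inner_bv_left, op_apply, op_apply]
  cases hfb : f b with
  | none =>
      cases hfa : f.symm a with
      | none => simp
      | some d =>
          have : d ≠ b := by
            intro h; subst h
            rw [(f.eq_some_iff).1 hfa] at hfb
            simp at hfb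
          simp [bv_apply, this]
  | some c =>
      by_cases hca : c = a
      · subst hca; simp [bv_apply, (f.eq_some_iff).2 hfb]
      · cases hfa : f.symm a with
        | none => simp [bv_apply, hca]
        | some d =>
            have : d ≠ b := by
              intro h; subst h
              rw [(f.eq_some_iff).1 hfa] at hfb
              exact hca (Option.some_injective _ hfb).symm
            simp [bv_apply, hca, this]

/-! ### Left translations and semicircular operators -/

def lmulP (h : G) : Bas G J ≃. Bas G J :=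
  (Equiv.prodCongr (Equiv.mulLeft h⁻¹) (Equiv.refl (List (J × G)))).toPEquiv

/-- Left translation by `h`. -/
def lmul (h : G) : FH G J →L[ℂ] FH G J := op (lmulP h)

@[simp] lemma lmul_apply (h : G) (x : FH G J) (b : Bas G J) :
    lmul h x b = x (h⁻¹ * b.1, b.2) := rfl

lemma lmul_mul (g h : G) : (lmul (g * h) : FH G J →L[ℂ] FH G J) = lmul g * lmul h := by
  ext1 x; apply lp.ext; funext b
  simp [mul_assoc]

lemma lmul_one : (lmul (1 : G) : FH G J →L[ℂ] FH G J) = 1 := by
  ext1 x; apply lp.ext; funext b
  simp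

lemma lmul_bv (h : G) (b : Bas G J) : lmul h (bv b) = bv (h * b.1, b.2) := by
  apply lp.ext; funext c
  simp only [lmul_apply, bv_apply]
  refine if_congr ?_ rfl rfl
  simp [Prod.ext_iff, inv_mul_eq_iff_eq_mul]

lemma star_lmul (h : G) : star (lmul h : FH G J →L[ℂ] FH G J) = lmul h⁻¹ := by
  rw [lmul, star_op, lmul, lmulP, lmulP, ← Equiv.toPEquiv_symm]
  congr 2
  simp [Equiv.ext_iff]

lemma norm_lmul_le (h : G) : ‖(lmul h : FH G J →L[ℂ] FH G J)‖ ≤ 1 := norm_op_le _

def dnFun (j : J) : Bas G J → Option (Bas G J)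
  | (_, []) => none
  | (g, (k, h) :: L) => if g = 1 ∧ k = j then some (h, L) else none

def upFun (j : J) (c : Bas G J) : Option (Bas G J) := some (1, (j, c.1) :: c.2)

def dnP (j : J) : Bas G J ≃. Bas G J where
  toFun := dnFun j
  invFun := upFun j
  inv a b := by
    obtain ⟨g, L⟩ := a
    cases L with
    | nil => simp [upFun, dnFun]
    | cons kh L =>
        obtain ⟨k, h⟩ := kh
        obtain ⟨g', L'⟩ := b
        simp only [upFun, dnFun]
        constructor
        · intro hh
          simp only [Option.some.injEq, Prod.mk.injEq, List.cons.injEq] at hh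
          obtain ⟨rfl, ⟨rfl, rfl⟩, rfl⟩ := hh
          simp
        · intro hh
          split_ifs at hh with hc
          · simp only [Option.some.injEq, Prod.mk.injEq] at hh
            obtain ⟨rfl, rfl⟩ := hh
            simp [hc.1, hc.2]

/-- The semicircular operator of index `j`. -/
def semi (j : J) : FH G J →L[ℂ] FH G J := op (dnP j) + op (dnP j).symm

lemma semi_apply_nil (j : J) (x : FH G J) (g : G) :
    semi j x (g, []) = x (1, [(j, g)]) := by
  simp only [semi, add_apply, lp.coeFn_add, Pi.add_apply, op_apply]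
  change (dnFun j (g, [])).elim 0 (fun c => x c) + (upFun j (g, [])).elim 0 (fun c => x c) = _
  simp [dnFun, upFun]

lemma semi_apply_cons (j : J) (x : FH G J) (g : G) (k : J) (h : G) (L : List (J × G)) :
    semi j x (g, (k, h) :: L) =
      (if g = 1 ∧ k = j then x (h, L) else 0) + x (1, (j, g) :: (k, h) :: L) := by
  simp only [semi, add_apply, lp.coeFn_add, Pi.add_apply, op_apply]
  change (dnFun j (g, (k, h) :: L)).elim 0 (fun c => x c) +
    (upFun j (g, (k, h) :: L)).elim 0 (fun c => x c) = _
  simp only [dnFun, upFun]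
  split_ifs <;> simp

lemma semi_apply (j : J) (x : FH G J) (b : Bas G J) :
    semi j x b = (dnFun j b).elim 0 (fun c => x c) + x (1, (j, b.1) :: b.2) := by
  simp only [semi, add_apply, lp.coeFn_add, Pi.add_apply, op_apply]
  rfl

lemma semi_bv (j : J) (b : Bas G J) :
    semi j (bv b) = bv (1, (j, b.1) :: b.2) + (dnFun j b).elim 0 bv := by
  simp only [semi, add_apply, op_bv, PEquiv.symm_symm]
  rfl

lemma star_semi (j : J) : star (semi j : FH G J →L[ℂ] FH G J) = semi j := by
  simp [semi, star_add, star_op, add_comm]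

lemma norm_semi_le (j : J) : ‖(semi j : FH G J →L[ℂ] FH G J)‖ ≤ 2 :=
  (norm_add_le _ _).trans (by
    have h1 := norm_op_le (dnP (G := G) j)
    have h2 := norm_op_le (dnP (G := G) j).symm
    linarith)

/-- The vacuum vector. -/
def vac : FH G J := bv (1, [])

/-! ### The reversal and the right operators -/

def snoc (b : Bas G J) (p : J × G) : Bas G J := (b.1, b.2 ++ [p])

def revB : G → List (J × G) → Bas G J
  | g, [] => (g⁻¹, [])
  | g, (k, h) :: L => snoc (revB h L) (k, g⁻¹)

def rev (b : Bas G J) : Bas G J := revB b.1 b.2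

@[simp] lemma rev_nil (g : G) : rev ((g, []) : Bas G J) = (g⁻¹, []) := rfl

@[simp] lemma rev_cons (g : G) (k : J) (h : G) (L : List (J × G)) :
    rev (g, (k, h) :: L) = snoc (rev (h, L)) (k, g⁻¹) := rfl

lemma revB_snoc (g : G) (L : List (J × G)) (k : J) (h : G) :
    revB g (L ++ [(k, h)]) = (h⁻¹, (k, (revB g L).1) :: (revB g L).2) := by
  induction L generalizing g with
  | nil => rfl
  | cons p L ih =>
      obtain ⟨l, m⟩ := p
      simp only [List.cons_append, revB, ih, snoc]

@[simp] lemma rev_snoc (b : Bas G J) (k : J) (h : G) :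
    rev (snoc b (k, h)) = (h⁻¹, (k, (rev b).1) :: (rev b).2) := revB_snoc b.1 b.2 k h

lemma rev_rev (b : Bas G J) : rev (rev b) = b := by
  obtain ⟨g, L⟩ := b
  induction L generalizing g with
  | nil => simp
  | cons p L ih =>
      obtain ⟨k, h⟩ := p
      simp [ih]

lemma basis_cases (b : Bas G J) :
    (∃ g, b = (g, [])) ∨ ∃ (c : Bas G J) (k : J) (h : G), b = snoc c (k, h) := by
  obtain ⟨g, L⟩ := b
  rcases List.eq_nil_or_concat L with rfl | ⟨M, ⟨k, h⟩, rfl⟩
  · exact Or.inl ⟨g, rfl⟩
  · exact Or.inr ⟨(g, M), k, h, by simp [snoc]⟩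

lemma memℓp_conjRev (x : FH G J) :
    Memℓp (fun b => (starRingEnd ℂ) (x (rev b))) 2 := by
  refine memℓp_gen ?_
  have := (lp.memℓp x).summable (by norm_num : 0 < (2 : ENNReal).toReal)
  simpa [Function.comp_def] using
    this.comp_injective (Function.Involutive.injective (rev_rev (G := G) (J := J)))

/-- The modular conjugation. -/
def Jc (x : FH G J) : FH G J := ⟨fun b => (starRingEnd ℂ) (x (rev b)), memℓp_conjRev x⟩

@[simp] lemma Jc_apply (x : FH G J) (b : Bas G J) : Jc x b = (starRingEnd ℂ) (x (rev b)) := rfl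

lemma Jc_Jc (x : FH G J) : Jc (Jc x) = x := by
  apply lp.ext; funext b; simp [rev_rev]

lemma Jc_add (x y : FH G J) : Jc (x + y) = Jc x + Jc y := by
  apply lp.ext; funext b; simp

lemma Jc_smul (c : ℂ) (x : FH G J) : Jc (c • x) = (starRingEnd ℂ c) • Jc x := by
  apply lp.ext; funext b; simp

lemma inner_Jc_Jc (x y : FH G J) : ⟪Jc x, Jc y⟫_ℂ = ⟪y, x⟫_ℂ := by
  rw [lp.inner_eq_tsum, lp.inner_eq_tsum]
  refine Eq.trans ?_ ((Function.Involutive.toPerm rev (rev_rev (G := G) (J := J))).tsum_eq
    (fun i => ⟪y i, x i⟫_ℂ))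
  refine tsum_congr fun b => ?_
  simp [RCLike.inner_apply, mul_comm]
  rfl

lemma norm_Jc (x : FH G J) : ‖Jc x‖ = ‖x‖ := by
  have h := inner_Jc_Jc x x
  rw [inner_self_eq_norm_sq_to_K, inner_self_eq_norm_sq_to_K] at h
  have h' : ‖Jc x‖ ^ 2 = ‖x‖ ^ 2 := by exact_mod_cast h
  exact (pow_left_inj₀ (norm_nonneg _) (norm_nonneg _) two_ne_zero).mp h'

lemma Jc_bv (b : Bas G J) : Jc (bv b) = bv (rev b) := by
  apply lp.ext; funext c
  simp only [Jc_apply, bv_apply]
  have : rev c = b ↔ c = rev b :=
    ⟨fun h => by rw [← h, rev_rev], fun h => by rw [h, rev_rev]⟩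
  by_cases h : rev c = b
  · rw [if_pos h, if_pos (this.1 h)]; simp
  · rw [if_neg h, if_neg (fun h' => h (this.2 h'))]; simp

lemma Jc_vac : Jc (vac : FH G J) = vac := by simp [vac, Jc_bv]

/-- `x ↦ J T J x`. -/
def rop (T : FH G J →L[ℂ] FH G J) : FH G J →L[ℂ] FH G J :=
  LinearMap.mkContinuous
    { toFun := fun x => Jc (T (Jc x))
      map_add' := fun x y => by simp [Jc_add]
      map_smul' := fun c x => by simp [Jc_smul] }
    ‖T‖ (fun x => by
      simp only [LinearMap.coe_mk, AddHom.coe_mk, norm_Jc]
      calc ‖T (Jc x)‖ ≤ ‖T‖ * ‖Jc x‖ := T.le_opNorm _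
        _ = ‖T‖ * ‖x‖ := by rw [norm_Jc])

@[simp] lemma rop_apply (T : FH G J →L[ℂ] FH G J) (x : FH G J) : rop T x = Jc (T (Jc x)) := rfl

lemma rop_rop (T : FH G J →L[ℂ] FH G J) : rop (rop T) = T := by
  ext1 x; simp [Jc_Jc]

lemma rop_mul (S T : FH G J →L[ℂ] FH G J) : rop (S * T) = rop S * rop T := by
  ext1 x; simp [Jc_Jc]

lemma rop_add (S T : FH G J →L[ℂ] FH G J) : rop (S + T) = rop S + rop T := by
  ext1 x; simp [Jc_add]

lemma rop_smul (c : ℂ) (T : FH G J →L[ℂ] FH G J) :
    rop (c • T) = (starRingEnd ℂ c) • rop T := by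
  ext1 x; simp [Jc_smul]

lemma star_rop (T : FH G J →L[ℂ] FH G J) : star (rop T) = rop (star T) := by
  rw [ContinuousLinearMap.star_eq_adjoint]
  refine ((ContinuousLinearMap.eq_adjoint_iff _ _).mpr fun x y => ?_).symm
  rw [rop_apply, rop_apply]
  conv_lhs => rw [← Jc_Jc y, inner_Jc_Jc, ContinuousLinearMap.star_eq_adjoint,
    ContinuousLinearMap.adjoint_inner_right]
  conv_rhs => rw [← Jc_Jc x, inner_Jc_Jc]

lemma rop_lmul_nil (h : G) (x : FH G J) (g : G) :
    rop (lmul h) x (g, []) = x (g * h, []) := by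
  simp

lemma rop_lmul_snoc (h : G) (x : FH G J) (c : Bas G J) (k : J) (m : G) :
    rop (lmul h) x (snoc c (k, m)) = x (snoc c (k, m * h)) := by
  simp [rev_rev]

lemma rop_semi_nil (j : J) (x : FH G J) (g : G) :
    rop (semi j) x (g, []) = x (g, [(j, 1)]) := by
  simp [semi_apply_nil, snoc]

lemma rop_semi_snoc (j : J) (x : FH G J) (c : Bas G J) (k : J) (m : G) :
    rop (semi j) x (snoc c (k, m)) =
      (if m = 1 ∧ k = j then x c else 0) + x (snoc (snoc c (k, m)) (j, 1)) := by
  simp only [rop_apply, Jc_apply, rev_snoc, semi_apply_cons, map_add]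
  congr 1
  · by_cases hc : m = 1 ∧ k = j
    · simp [hc, rev_rev]
    · have : ¬(m⁻¹ = 1 ∧ k = j) := by simpa using hc
      simp [hc, this]
  · simp [rev_rev]

lemma snoc_fst (c : Bas G J) (p : J × G) : (snoc c p).1 = c.1 := rfl

lemma lmul_comm_rop_lmul (a h : G) :
    Commute (lmul a : FH G J →L[ℂ] FH G J) (rop (lmul h)) := by
  ext1 x; apply lp.ext; funext b
  simp only [mul_apply_eq_comp, lmul_apply]
  rcases basis_cases b with ⟨g, rfl⟩ | ⟨c, k, m, rfl⟩
  · rw [rop_lmul_nil, rop_lmul_nil, lmul_apply, mul_assoc]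
  · rw [show (a⁻¹ * (snoc c (k, m)).1, (snoc c (k, m)).2) = snoc (a⁻¹ * c.1, c.2) (k, m) from rfl,
      rop_lmul_snoc, rop_lmul_snoc, lmul_apply]
    rfl

lemma lmul_comm_rop_semi (a : G) (j : J) :
    Commute (lmul a : FH G J →L[ℂ] FH G J) (rop (semi j)) := by
  ext1 x; apply lp.ext; funext b
  simp only [mul_apply_eq_comp, lmul_apply]
  rcases basis_cases b with ⟨g, rfl⟩ | ⟨c, k, m, rfl⟩
  · rw [rop_semi_nil, rop_semi_nil, lmul_apply]
  · rw [show (a⁻¹ * (snoc c (k, m)).1, (snoc c (k, m)).2) = snoc (a⁻¹ * c.1, c.2) (k, m) from rfl,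
      rop_semi_snoc, rop_semi_snoc, lmul_apply, lmul_apply]
    rfl

lemma semi_comm_rop_semi (i j : J) :
    Commute (semi i : FH G J →L[ℂ] FH G J) (rop (semi j)) := by
  ext1 x; apply lp.ext; funext b
  simp only [mul_apply_eq_comp]
  rcases basis_cases b with ⟨g, rfl⟩ | ⟨⟨g, L⟩, k, m, rfl⟩
  · rw [semi_apply_nil, rop_semi_nil]
    rw [show ((1 : G), [(i, g)]) = snoc (1, []) (i, g) from rfl, rop_semi_snoc]
    rw [semi_apply_cons]
    congr 1
    exact if_congr (and_congr Iff.rfl eq_comm) rfl rfl
  · cases L with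
    | nil =>
        rw [show snoc ((g, []) : Bas G J) (k, m) = (g, [(k, m)]) from rfl, semi_apply_cons]
        rw [show ((1 : G), [(i, g), (k, m)]) = snoc (1, [(i, g)]) (k, m) from rfl]
        rw [rop_semi_snoc, rop_semi_nil]
        rw [show ((g : G), [(k, m)]) = snoc ((g, []) : Bas G J) (k, m) from rfl, rop_semi_snoc,
          semi_apply_nil]
        simp only [snoc, List.nil_append, List.cons_append]
        rw [semi_apply_cons]
        ring
    | cons p L =>
        obtain ⟨l, h⟩ := p
        have e1 : snoc ((g, (l, h) :: L) : Bas G J) (k, m) = (g, (l, h) :: (L ++ [(k, m)])) := rfl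
        have e2 : ((1 : G), (i, g) :: (l, h) :: (L ++ [(k, m)])) =
            snoc (1, (i, g) :: (l, h) :: L) (k, m) := rfl
        have e3 : ((h : G), L ++ [(k, m)]) = snoc (h, L) (k, m) := rfl
        rw [rop_semi_snoc, semi_apply_cons]
        rw [e1, semi_apply_cons, e2, e3, rop_semi_snoc, rop_semi_snoc]
        simp only [snoc, List.cons_append, List.append_assoc]
        rw [semi_apply_cons]
        split_ifs <;> ring

lemma commute_rop_of_commute {S T : FH G J →L[ℂ] FH G J} (h : Commute S (rop T)) :
    Commute T (rop S) := by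
  have := congrArg rop h.eq
  rw [rop_mul, rop_mul, rop_rop] at this
  exact this.symm

/-- Left generators. -/
def leftGens : Set (FH G J →L[ℂ] FH G J) := Set.range lmul ∪ Set.range semi

lemma commute_left_right {S T : FH G J →L[ℂ] FH G J} (hS : S ∈ leftGens) (hT : T ∈ leftGens) :
    Commute S (rop T) := by
  rcases hS with ⟨a, rfl⟩ | ⟨i, rfl⟩ <;> rcases hT with ⟨b, rfl⟩ | ⟨j, rfl⟩
  · exact lmul_comm_rop_lmul a b
  · exact lmul_comm_rop_semi a j
  · exact commute_rop_of_commute (lmul_comm_rop_semi b i)
  · exact semi_comm_rop_semi i j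

lemma star_mem_leftGens {S : FH G J →L[ℂ] FH G J} (hS : S ∈ leftGens) :
    star S ∈ leftGens := by
  rcases hS with ⟨a, rfl⟩ | ⟨i, rfl⟩
  · exact Or.inl ⟨a⁻¹, (star_lmul a).symm⟩
  · exact Or.inr ⟨i, (star_semi i).symm⟩

/-! ### The von Neumann algebra -/

/-- The commutant of the right operators. -/
def vna : VonNeumannAlgebra (FH G J) where
  toStarSubalgebra := StarSubalgebra.centralizer ℂ (rop '' leftGens)
  centralizer_centralizer' := by
    exact Set.centralizer_centralizer_centralizer _

lemma mem_vna_iff {z : FH G J →L[ℂ] FH G J} :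
    z ∈ (vna : VonNeumannAlgebra (FH G J)) ↔
      ∀ g ∈ (rop '' leftGens : Set (FH G J →L[ℂ] FH G J)), g * z = z * g ∧ star g * z = z * star g :=
  StarSubalgebra.mem_centralizer_iff ℂ

lemma leftGens_mem_vna {S : FH G J →L[ℂ] FH G J} (hS : S ∈ leftGens) :
    S ∈ (vna : VonNeumannAlgebra (FH G J)) := by
  rw [mem_vna_iff]
  rintro _ ⟨T, hT, rfl⟩
  exact ⟨(commute_left_right hS hT).eq.symm,
    by rw [star_rop]; exact (commute_left_right hS (star_mem_leftGens hT)).eq.symm⟩

/-- Elements of the algebra compatible with the modular conjugation. -/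
def Good (T : FH G J →L[ℂ] FH G J) : Prop :=
  T ∈ (vna : VonNeumannAlgebra (FH G J)) ∧
    (∀ a ∈ (vna : VonNeumannAlgebra (FH G J)), Commute a (rop T)) ∧
    rop T vac = star T vac

lemma good_lmul (h : G) : Good (lmul h : FH G J →L[ℂ] FH G J) := by
  refine ⟨leftGens_mem_vna (Or.inl ⟨h, rfl⟩), fun a ha => ?_, ?_⟩
  · exact ((mem_vna_iff.mp ha _ ⟨_, Or.inl ⟨h, rfl⟩, rfl⟩).1).symm
  · rw [star_lmul, rop_apply, Jc_vac]
    simp [vac, lmul_bv, Jc_bv]

lemma good_semi (j : J) : Good (semi j : FH G J →L[ℂ] FH G J) := by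
  refine ⟨leftGens_mem_vna (Or.inr ⟨j, rfl⟩), fun a ha => ?_, ?_⟩
  · exact ((mem_vna_iff.mp ha _ ⟨_, Or.inr ⟨j, rfl⟩, rfl⟩).1).symm
  · rw [star_semi, rop_apply, Jc_vac]
    simp [vac, semi_bv, dnFun, Jc_bv, Jc_add, snoc]

lemma Good.mul {S T : FH G J →L[ℂ] FH G J} (hS : Good S) (hT : Good T) : Good (S * T) := by
  refine ⟨mul_mem hS.1 hT.1, fun a ha => ?_, ?_⟩
  · rw [rop_mul]; exact (hS.2.1 a ha).mul_right (hT.2.1 a ha)
  · rw [rop_mul, star_mul, mul_apply_eq_comp,
      mul_apply_eq_comp, hT.2.2, ← hS.2.2]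
    have h := (hS.2.1 (star T) (star_mem hT.1)).eq
    exact (DFunLike.congr_fun h vac).symm

lemma Good.add {S T : FH G J →L[ℂ] FH G J} (hS : Good S) (hT : Good T) : Good (S + T) := by
  refine ⟨add_mem hS.1 hT.1, fun a ha => ?_, ?_⟩
  · rw [rop_add]; exact (hS.2.1 a ha).add_right (hT.2.1 a ha)
  · rw [rop_add, star_add, add_apply, add_apply,
      hS.2.2, hT.2.2]

lemma Good.smul {T : FH G J →L[ℂ] FH G J} (c : ℂ) (hT : Good T) : Good (c • T) := by
  refine ⟨(vna : VonNeumannAlgebra (FH G J)).toStarSubalgebra.toSubalgebra.smul_mem hT.1 c,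
    fun a ha => ?_, ?_⟩
  · rw [rop_smul]; exact (hT.2.1 a ha).smul_right _
  · rw [rop_smul, star_smul, smul_apply, smul_apply,
      hT.2.2]
    rfl

lemma exists_good (b : Bas G J) : ∃ T : FH G J →L[ℂ] FH G J, Good T ∧ T vac = bv b := by
  obtain ⟨g, L⟩ := b
  induction hn : L.length using Nat.strong_induction_on generalizing g L with
  | h n ih =>
    cases L with
    | nil => exact ⟨lmul g, good_lmul g, by simp [vac, lmul_bv]⟩
    | cons p L =>
        obtain ⟨k, h⟩ := p
        simp only [List.length_cons] at hn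
        obtain ⟨T, hT, hTv⟩ := ih L.length (by omega) h L rfl
        cases hd : dnFun k ((h, L) : Bas G J) with
        | none =>
            refine ⟨lmul g * (semi k * T), (good_lmul g).mul ((good_semi k).mul hT), ?_⟩
            simp [hTv, semi_bv, hd, lmul_bv]
        | some c =>
            have hc : c.2.length < n := by
              cases L with
              | nil => simp [dnFun] at hd
              | cons q L' =>
                  obtain ⟨k', h'⟩ := q
                  simp only [dnFun] at hd
                  split_ifs at hd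
                  · simp only [Option.some.injEq] at hd
                    subst hd
                    simp only [List.length_cons] at hn
                    simp; omega
            obtain ⟨T', hT', hT'v⟩ := ih _ hc c.1 c.2 rfl
            refine ⟨lmul g * (semi k * T + (-1 : ℂ) • T'),
              (good_lmul g).mul (((good_semi k).mul hT).add (hT'.smul _)), ?_⟩
            simp [hTv, hT'v, semi_bv, hd, lmul_bv]

lemma star_apply_vac {a : FH G J →L[ℂ] FH G J} (ha : a ∈ (vna : VonNeumannAlgebra (FH G J))) :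
    star a vac = Jc (a vac) := by
  apply lp.ext; funext b
  obtain ⟨T, hT, hTv⟩ := exists_good (rev b)
  have hb : bv b = rop T vac := by rw [rop_apply, Jc_vac, hTv, Jc_bv, rev_rev]
  have h2 : star (rop T) vac = bv (rev b) := by
    rw [star_rop, rop_apply, Jc_vac, ← hT.2.2, rop_apply, Jc_Jc, Jc_vac, hTv]
  rw [← inner_bv_left b (star a vac), hb, ContinuousLinearMap.star_eq_adjoint,
    ContinuousLinearMap.adjoint_inner_right]
  have hcomm : a (rop T vac) = rop T (a vac) := DFunLike.congr_fun (hT.2.1 a ha).eq vac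
  rw [hcomm, ← ContinuousLinearMap.adjoint_inner_right, ← ContinuousLinearMap.star_eq_adjoint,
    h2, ← inner_conj_symm, inner_bv_left, Jc_apply]

lemma vac_trace {a b : FH G J →L[ℂ] FH G J} (ha : a ∈ (vna : VonNeumannAlgebra (FH G J)))
    (hb : b ∈ (vna : VonNeumannAlgebra (FH G J))) :
    ⟪vac, (a * b) vac⟫_ℂ = ⟪(vac : FH G J), (b * a) vac⟫_ℂ := by
  have e1 : ⟪vac, (a * b) vac⟫_ℂ = ⟪star a vac, b vac⟫_ℂ := by
    rw [ContinuousLinearMap.star_eq_adjoint, ContinuousLinearMap.adjoint_inner_left]; rfl
  have e2 : ⟪vac, (b * a) vac⟫_ℂ = ⟪star b vac, a vac⟫_ℂ := by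
    rw [ContinuousLinearMap.star_eq_adjoint, ContinuousLinearMap.adjoint_inner_left]; rfl
  rw [e1, e2, star_apply_vac ha]
  conv_lhs => rw [← Jc_Jc (b vac), inner_Jc_Jc, ← star_apply_vac hb]

lemma eq_zero_of_apply_vac {a : FH G J →L[ℂ] FH G J}
    (ha : a ∈ (vna : VonNeumannAlgebra (FH G J))) (h : a vac = 0) : a = 0 := by
  refine clm_ext_bv fun b => ?_
  obtain ⟨T, hT, hTv⟩ := exists_good (rev b)
  have hb : bv b = rop T vac := by rw [rop_apply, Jc_vac, hTv, Jc_bv, rev_rev]
  have hcomm : a (rop T vac) = rop T (a vac) := DFunLike.congr_fun (hT.2.1 a ha).eq vac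
  rw [hb, hcomm, h, map_zero]
  rfl

/-! ### The splitting identity -/

section Split

variable [Fintype J] {A : Type*} (al : A → ℂ) (y : A → G) (coef : A → J → ℂ)

/-- A letter: a multiple of a translation plus a combination of semicirculars. -/
def letter (a : A) : FH G J →L[ℂ] FH G J := al a • lmul (y a) + ∑ k, coef a k • semi k

/-- The vector of a word. -/
def wordVec (w : List A) : FH G J := (w.map (letter al y coef)).prod vac

lemma letter_apply (a : A) (x : FH G J) (b : Bas G J) :
    letter al y coef a x b = al a * x ((y a)⁻¹ * b.1, b.2) +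
      ∑ k, coef a k * ((dnFun k b).elim 0 (fun c => x c) + x (1, (k, b.1) :: b.2)) := by
  simp only [letter, add_apply, smul_apply, sum_apply, lp.coeFn_add, lp.coeFn_smul,
    lp.coeFn_sum, Pi.add_apply, Pi.smul_apply, Finset.sum_apply, smul_eq_mul, lmul_apply, semi_apply]

lemma wordVec_cons (a : A) (w : List A) :
    wordVec al y coef (a :: w) = letter al y coef a (wordVec al y coef w) := by
  simp [wordVec]

theorem wordVec_snoc (w : List A) (c : Bas G J) (k : J) (g : G) :
    wordVec al y coef w (snoc c (k, g)) =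
      ∑ l : Fin w.length, coef (w.get l) k * wordVec al y coef (w.take l.val) c *
        wordVec al y coef (w.drop (l.val + 1)) (g, []) := by
  induction w generalizing c with
  | nil => simp [wordVec, vac, bv_apply, snoc, Prod.ext_iff]
  | cons a w ih =>
      rw [wordVec_cons, letter_apply]
      simp only [List.length_cons]
      rw [Fin.sum_univ_succ]
      simp only [List.get_eq_getElem, Fin.val_zero, List.getElem_cons_zero, List.take_zero,
        Fin.val_succ, List.getElem_cons_succ, List.take_succ_cons, List.drop_succ_cons,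
        List.drop_zero, zero_add]
      have e1 : (((y a)⁻¹ * (snoc c (k, g)).1, (snoc c (k, g)).2) : Bas G J) =
          snoc ((y a)⁻¹ * c.1, c.2) (k, g) := rfl
      have e2 : ∀ m : J, (((1 : G), (m, (snoc c (k, g)).1) :: (snoc c (k, g)).2) : Bas G J) =
          snoc (1, (m, c.1) :: c.2) (k, g) := fun _ => rfl
      rw [e1, ih]
      simp_rw [e2, ih]
      set u := wordVec al y coef w with hu
      set U : Fin w.length → FH G J := fun l => wordVec al y coef (w.take l.val) with hU
      set V : Fin w.length → ℂ := fun l => wordVec al y coef (w.drop (l.val + 1)) (g, []) with hV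
      set C : Fin w.length → ℂ := fun l => coef (w.get l) k with hC
      have hget : ∀ l : Fin w.length, coef w[l.val] k = C l := fun l => rfl
      have hR : ∀ l : Fin w.length, wordVec al y coef (a :: w.take l.val) c =
          al a * U l ((y a)⁻¹ * c.1, c.2) +
            ∑ m, coef a m * ((dnFun m c).elim 0 (fun d => U l d) + U l (1, (m, c.1) :: c.2)) := by
        intro l; rw [wordVec_cons, letter_apply]
      simp only [hR, hget]
      have hdn : ∀ m : J, (dnFun m (snoc c (k, g))).elim 0 (fun d => u d) =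
          (if c = (1, []) ∧ k = m then u (g, []) else 0) +
            ∑ l, C l * ((dnFun m c).elim 0 (fun d => U l d)) * V l := by
        intro m
        obtain ⟨c1, c2⟩ := c
        cases c2 with
        | nil =>
            by_cases hc : c1 = 1 ∧ k = m <;> simp [snoc, dnFun, hc]
        | cons q L =>
            obtain ⟨k', h'⟩ := q
            by_cases hc : c1 = 1 ∧ k' = m
            · have : snoc ((h', L) : Bas G J) (k, g) = (h', L ++ [(k, g)]) := rfl
              simp only [snoc, List.cons_append, dnFun, if_pos hc, Option.elim_some]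
              rw [← this, hu, ih]
              simp [hC, hU, hV]
            · simp [snoc, dnFun, hc]
      simp only [hdn]
      have hvac : wordVec al y coef ([] : List A) c = if c = (1, []) then (1 : ℂ) else 0 := by
        simp [wordVec, vac, bv_apply]
      rw [hvac]
      have hsum : ∑ m, coef a m * (if c = (1, []) ∧ k = m then u (g, []) else 0) =
          coef a k * (if c = (1, []) then (1 : ℂ) else 0) * u (g, []) := by
        rw [Finset.sum_eq_single k]
        · by_cases h1 : c = (1, [])
          · rw [if_pos ⟨h1, rfl⟩, if_pos h1]; ring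
          · rw [if_neg (fun h => h1 h.1), if_neg h1]; ring
        · intro m _ hm
          rw [if_neg (fun h => hm h.2.symm), mul_zero]
        · simp
      simp only [mul_add, add_mul, Finset.sum_add_distrib, Finset.mul_sum, Finset.sum_mul, hsum,
        hC, hU, hV]
      rw [Finset.sum_comm (s := (Finset.univ : Finset J)),
        Finset.sum_comm (s := (Finset.univ : Finset J)) (f := fun m l =>
          coef a m * (coef (w.get l) k * wordVec al y coef (w.take l.val) (1, (m, c.1) :: c.2) *
            wordVec al y coef (w.drop (l.val + 1)) (g, [])))]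
      simp only [List.get_eq_getElem, mul_comm, mul_left_comm, mul_assoc]
      ring

end Split

end Vale.Agent.P087.Fock
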