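import Mathlib

/-!
Microstates and non-microstates free entropy for a tuple of bounded operators on a Hilbert space,
with respect to a tracial vector state.
-/

noncomputable section

namespace Vale.Agent.P087

open MeasureTheory Filter Set
open scoped InnerProductSpace ENNReal

variable {H : Type*} [NormedAddCommGroup H] [InnerProductSpace ℂ H] [CompleteSpace H]
variable {N : ℕ}

/-- The vector functional `a ↦ ⟪Ω, a Ω⟫`. -/
def vecState (Ω : H) (a : H →L[ℂ] H) : ℂ := ⟪Ω, a Ω⟫_ℂ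

/-- The monomial `X_{w_1} ⋯ X_{w_p}`. -/
def monomialOp (X : Fin N → H →L[ℂ] H) (w : List (Fin N)) : H →L[ℂ] H := (w.map X).prod

/-- `Ω` is a unit vector whose vector state is a faithful trace on `M`. -/
def IsFaithfulTrace (M : VonNeumannAlgebra H) (Ω : H) : Prop :=
  ‖Ω‖ = 1 ∧ (∀ a ∈ M, ∀ b ∈ M, vecState Ω (a * b) = vecState Ω (b * a)) ∧
    (∀ a ∈ M, a Ω = 0 → a = 0)

/-- All moments of `s` are those of the standard semicircle law. -/
def IsSemicircular (Ω : H) (s : H →L[ℂ] H) : Prop :=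
  ∀ p : ℕ, vecState Ω (s ^ p) = if Even p then (catalan (p / 2) : ℂ) else 0

/-- Freeness of a family of subalgebras: an alternating product of centred elements has state 0. -/
def IsFreeFamily {ι : Type*} (Ω : H) (A : ι → Subalgebra ℂ (H →L[ℂ] H)) : Prop :=
  ∀ l : List (ι × (H →L[ℂ] H)), l ≠ [] →
    (∀ p ∈ l, p.2 ∈ A p.1 ∧ vecState Ω p.2 = 0) →
    (l.map Prod.fst).IsChain (· ≠ ·) →
    vecState Ω ((l.map Prod.snd).prod) = 0

/-- The algebra generated by all `X_j`, and, for each `j`, the one generated by `S_j`. -/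
def algebrasOf (X S : Fin N → H →L[ℂ] H) : Option (Fin N) → Subalgebra ℂ (H →L[ℂ] H)
  | none => Algebra.adjoin ℂ (Set.range X)
  | some j => Algebra.adjoin ℂ {S j}

/-- The self-adjoint `k × k` matrix with coordinates `x` in the standard orthonormal basis. -/
def hermMat {k : ℕ} (x : Fin k → Fin k → ℝ) : Matrix (Fin k) (Fin k) ℂ :=
  Matrix.of fun a b =>
    if a = b then (x a a : ℂ)
    else if a < b then ((x a b : ℂ) + Complex.I * (x b a : ℂ)) / (Real.sqrt 2 : ℂ)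
    else ((x b a : ℂ) - Complex.I * (x a b : ℂ)) / (Real.sqrt 2 : ℂ)

/-- The microstate set, written in these orthonormal coordinates. -/
def microstates (Ω : H) (X : Fin N → H →L[ℂ] H) (R : ℝ) (m k : ℕ) (ε : ℝ) :
    Set (Fin N → Fin k → Fin k → ℝ) :=
  {x | (∀ j, ‖Matrix.toEuclideanCLM (𝕜 := ℂ) (hermMat (x j))‖ ≤ R) ∧
    ∀ w : List (Fin N), 1 ≤ w.length → w.length ≤ m →
      ‖((w.map fun j => hermMat (x j)).prod).trace / (k : ℂ) - vecState Ω (monomialOp X w)‖ < ε}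

/-- `χ_R`. -/
def chiR (Ω : H) (X : Fin N → H →L[ℂ] H) (R : ℝ) : EReal :=
  ⨅ (m : ℕ) (ε : Set.Ioi (0 : ℝ)),
    Filter.limsup (fun k : ℕ =>
      ((((k : ℝ) ^ 2)⁻¹ : ℝ) : EReal) * ENNReal.log (volume (microstates Ω X R m k ε)) +
        (((N : ℝ) / 2 * Real.log k : ℝ) : EReal)) atTop

/-- Microstates free entropy `χ`. -/
def chi (Ω : H) (X : Fin N → H →L[ℂ] H) : EReal :=
  ⨆ R : Set.Ioi (0 : ℝ), chiR Ω X R

/-- The closure in `H` of `{P(X) Ω}`, a copy of `L²(W*(X))`. -/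
def polyClosure (Ω : H) (X : Fin N → H →L[ℂ] H) : Submodule ℂ H :=
  (Submodule.span ℂ (Set.range fun w => monomialOp X w Ω)).topologicalClosure

/-- `(τ ⊗ τ)(∂_j w)` for a word `w`. -/
def splitSum (Ω : H) (X : Fin N → H →L[ℂ] H) (j : Fin N) (w : List (Fin N)) : ℂ :=
  ∑ l : Fin w.length, if w.get l = j then
    vecState Ω (monomialOp X (w.take l.val)) * vecState Ω (monomialOp X (w.drop (l.val + 1)))
    else 0

/-- `ξ` is the `j`-th conjugate variable of `X`. -/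
def IsConjugate (Ω : H) (X : Fin N → H →L[ℂ] H) (j : Fin N) (ξ : H) : Prop :=
  ξ ∈ polyClosure Ω X ∧ ∀ w : List (Fin N), ⟪ξ, monomialOp X w Ω⟫_ℂ = splitSum Ω X j w

/-- Free Fisher information `Φ*`; it is `∞` if there are no conjugate variables. -/
def fisher (Ω : H) (X : Fin N → H →L[ℂ] H) : ℝ≥0∞ :=
  ⨅ (ξ : Fin N → H) (_ : ∀ j, IsConjugate Ω X j (ξ j)), ∑ j, ENNReal.ofReal (‖ξ j‖ ^ 2)

/-- `X + √t S`. -/
def perturb (X S : Fin N → H →L[ℂ] H) (t : ℝ) : Fin N → H →L[ℂ] H :=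
  fun j => X j + (Real.sqrt t : ℂ) • S j

/-- Non-microstates free entropy `χ*`, as positive part minus negative part of the integral. -/
def chiStar (Ω : H) (X S : Fin N → H →L[ℂ] H) : EReal :=
  ((1 / 2 : ℝ) : EReal) *
    (((∫⁻ t in Set.Ioi (0 : ℝ),
        (ENNReal.ofReal ((N : ℝ) / (1 + t)) - fisher Ω (perturb X S t))) : EReal) -
     ((∫⁻ t in Set.Ioi (0 : ℝ),
        (fisher Ω (perturb X S t) - ENNReal.ofReal ((N : ℝ) / (1 + t)))) : EReal)) +
  (((N : ℝ) / 2 * Real.log (2 * Real.pi * Real.exp 1) : ℝ) : EReal)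

end Vale.Agent.P087
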