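import Mathlib
import Vale.Agent.P087.Defs

/-!
Gaussian integration by parts on polynomials, and the Schwinger-Dyson equation for traces of
words in deterministic matrices and independent GUE matrices.
-/

noncomputable section

namespace Vale.Agent.P087.Gauss

open MeasureTheory ProbabilityTheory Filter
open scoped NNReal Topology

/-! ### One variable -/

/-- Moments of the centred Gaussian. -/
def mom (v : ℝ≥0) (p : ℕ) : ℝ := ∫ x, x ^ p ∂gaussianReal 0 v

lemma integrable_pow_gaussian (v : ℝ≥0) (p : ℕ) :
    Integrable (fun x : ℝ => x ^ p) (gaussianReal 0 v) := by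
  rcases Nat.eq_zero_or_pos p with rfl | hp
  · simp
  · have h := (memLp_id_gaussianReal (μ := 0) (v := v) (p : ℝ≥0)).integrable_norm_pow (by omega)
    refine h.mono' (by fun_prop) (ae_of_all _ fun x => ?_)
    simp

lemma integrable_pdf_pow {v : ℝ≥0} (hv : v ≠ 0) (p : ℕ) :
    Integrable fun x : ℝ => x ^ p * gaussianPDFReal 0 v x := by
  have h := integrable_pow_gaussian v p
  rw [gaussianReal_of_var_ne_zero 0 hv] at h
  have h' := (integrable_withDensity_iff (measurable_gaussianPDF 0 v)
    (ae_of_all _ fun _ => gaussianPDF_lt_top)).mp h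
  simpa [toReal_gaussianPDF] using h'

lemma hasDerivAt_pdf (v : ℝ≥0) (x : ℝ) :
    HasDerivAt (gaussianPDFReal 0 v) (-(x / v) * gaussianPDFReal 0 v x) x := by
  unfold gaussianPDFReal
  have h : HasDerivAt (fun y : ℝ => -(y - 0) ^ 2 / (2 * (v : ℝ))) (-(x / v)) x := by
    have h1 := ((((hasDerivAt_id x).sub_const 0).pow 2).neg.div_const (2 * (v : ℝ)))
    refine h1.congr_deriv ?_
    simp only [id_eq, sub_zero]
    push_cast
    ring
  refine (h.exp.const_mul _).congr_deriv ?_
  ring

lemma mom_zero (v : ℝ≥0) : mom v 0 = 1 := by simp [mom]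

lemma mom_succ {v : ℝ≥0} (hv : v ≠ 0) (p : ℕ) :
    mom v (p + 1) = p * v * mom v (p - 1) := by
  have hv' : (v : ℝ) ≠ 0 := by exact_mod_cast hv
  simp only [mom, integral_gaussianReal_eq_integral_smul hv, smul_eq_mul]
  set g := gaussianPDFReal 0 v with hg
  have e1 : (fun x : ℝ => x ^ p) * (fun x => -(x / v) * g x) =
      fun x => -(1 / (v : ℝ)) * (x ^ (p + 1) * g x) := by
    funext x; simp only [Pi.mul_apply]; ring
  have e2 : (fun x : ℝ => (p : ℝ) * x ^ (p - 1)) * g = fun x => (p : ℝ) * (x ^ (p - 1) * g x) := by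
    funext x; simp only [Pi.mul_apply]; ring
  have h := integral_mul_deriv_eq_deriv_mul_of_integrable
    (u := fun x : ℝ => x ^ p) (v := g) (u' := fun x => (p : ℝ) * x ^ (p - 1))
    (v' := fun x => -(x / v) * g x)
    (fun x _ => by simpa using hasDerivAt_pow p x) (fun x _ => hasDerivAt_pdf v x)
    (by rw [e1]; exact (integrable_pdf_pow hv (p + 1)).const_mul _)
    (by rw [e2]; exact (integrable_pdf_pow hv (p - 1)).const_mul _)
    (integrable_pdf_pow hv p)
  have f1 : (fun x : ℝ => x ^ p * (-(x / v) * g x)) =
      fun x => -(1 / (v : ℝ)) * (g x * x ^ (p + 1)) := by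
    funext x; ring
  have f2 : (fun x : ℝ => (p : ℝ) * x ^ (p - 1) * g x) =
      fun x => (p : ℝ) * (g x * x ^ (p - 1)) := by
    funext x; ring
  rw [f1, f2, integral_const_mul, integral_const_mul] at h
  field_simp at h
  linarith

/-! ### Polynomials in several variables -/

variable {σ : Type*} [Fintype σ] (v : ℝ≥0)

/-- The product Gaussian measure. -/
def gaussPi (σ : Type*) [Fintype σ] (v : ℝ≥0) : Measure (σ → ℝ) :=
  Measure.pi fun _ => gaussianReal 0 v

instance : IsProbabilityMeasure (gaussPi σ v) := by unfold gaussPi; infer_instance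

/-- Evaluation of a complex polynomial at a real point. -/
def polyEval (x : σ → ℝ) : MvPolynomial σ ℂ →ₐ[ℂ] ℂ := MvPolynomial.aeval fun i => (x i : ℂ)

lemma polyEval_monomial (x : σ → ℝ) (s : σ →₀ ℕ) (a : ℂ) :
    polyEval x (MvPolynomial.monomial s a) = a * ∏ i, (x i : ℂ) ^ s i := by
  rw [polyEval, MvPolynomial.aeval_monomial, Finsupp.prod_fintype _ _ (fun _ => by simp)]
  rfl

lemma integrable_polyEval (p : MvPolynomial σ ℂ) :
    Integrable (fun x => polyEval x p) (gaussPi σ v) := by
  induction p using MvPolynomial.induction_on' with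
  | monomial s a =>
      simp only [polyEval_monomial]
      refine Integrable.const_mul ?_ a
      exact Integrable.fintype_prod (f := fun i (y : ℝ) => (y : ℂ) ^ s i) fun i => by
        simpa using (integrable_pow_gaussian v (s i)).ofReal (𝕜 := ℂ)
  | add p q hp hq =>
      simp only [map_add]
      exact hp.add hq

/-- The expectation. -/
def expect : MvPolynomial σ ℂ →ₗ[ℂ] ℂ where
  toFun p := ∫ x, polyEval x p ∂gaussPi σ v
  map_add' p q := by
    simp only [map_add]
    exact integral_add (integrable_polyEval v p) (integrable_polyEval v q)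
  map_smul' a p := by
    simp only [map_smul, smul_eq_mul, RingHom.id_apply]
    exact integral_const_mul a _

lemma expect_monomial (s : σ →₀ ℕ) (a : ℂ) :
    expect v (MvPolynomial.monomial s a) = a * ∏ i, (mom v (s i) : ℂ) := by
  simp only [expect, LinearMap.coe_mk, AddHom.coe_mk, polyEval_monomial, integral_const_mul]
  congr 1
  rw [gaussPi, integral_fintype_prod_eq_prod (fun i (y : ℝ) => (y : ℂ) ^ s i)]
  refine Finset.prod_congr rfl fun i _ => ?_
  simp only [← Complex.ofReal_pow]
  exact integral_ofReal

lemma expect_C (a : ℂ) : expect v (MvPolynomial.C a : MvPolynomial σ ℂ) = a := by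
  simp [expect, polyEval]

/-- Gaussian integration by parts. -/
theorem expect_X_mul {v : ℝ≥0} (hv : v ≠ 0) (j : σ) (p : MvPolynomial σ ℂ) :
    expect v (MvPolynomial.X j * p) = (v : ℂ) * expect v (MvPolynomial.pderiv j p) := by
  classical
  induction p using MvPolynomial.induction_on' with
  | monomial s a =>
      rw [MvPolynomial.pderiv_monomial, MvPolynomial.X, MvPolynomial.monomial_mul, one_mul,
        expect_monomial, expect_monomial]
      rw [← Finset.mul_prod_erase _ _ (Finset.mem_univ j),
        ← Finset.mul_prod_erase _ _ (Finset.mem_univ j)]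
      have h1 : ∏ i ∈ Finset.univ.erase j, (mom v ((Finsupp.single j 1 + s : σ →₀ ℕ) i) : ℂ) =
          ∏ i ∈ Finset.univ.erase j, (mom v ((s - Finsupp.single j 1 : σ →₀ ℕ) i) : ℂ) := by
        refine Finset.prod_congr rfl fun i hi => ?_
        have := Finset.ne_of_mem_erase hi
        simp [this]
      rw [h1]
      simp only [Finsupp.add_apply, Finsupp.single_eq_same, Finsupp.tsub_apply]
      rw [Nat.add_comm 1, mom_succ hv]
      push_cast
      ring
  | add p q hp hq =>
      rw [mul_add, map_add, map_add, map_add, hp, hq]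
      ring

/-! ### Matrices of polynomials -/

variable {N k : ℕ}

abbrev Coord (N k : ℕ) := Fin N × Fin k × Fin k

/-- The coefficient of the coordinate `e` in the entry `(a, b)` of a self-adjoint matrix. -/
def entryCoef (a b : Fin k) (e : Fin k × Fin k) : ℂ :=
  (if e = (a, b) then
      (if a = b then 1 else if a < b then 1 / (Real.sqrt 2 : ℂ)
        else -Complex.I / (Real.sqrt 2 : ℂ)) else 0) +
  (if e = (b, a) then
      (if a = b then 0 else if a < b then Complex.I / (Real.sqrt 2 : ℂ)
        else 1 / (Real.sqrt 2 : ℂ)) else 0)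

lemma hermMat_eq_sum (x : Fin k → Fin k → ℝ) (a b : Fin k) :
    hermMat x a b = ∑ e : Fin k × Fin k, entryCoef a b e * (x e.1 e.2 : ℂ) := by
  simp only [entryCoef, add_mul, Finset.sum_add_distrib, ite_mul, zero_mul, Finset.sum_ite_eq',
    Finset.mem_univ, if_true, hermMat, Matrix.of_apply]
  split_ifs with h1 h2
  · subst h1; simp
  · ring
  · ring

lemma sum_entryCoef_mul (a b c d : Fin k) :
    ∑ e : Fin k × Fin k, entryCoef a b e * entryCoef c d e =
      if c = b ∧ d = a then 1 else 0 := by
  simp only [entryCoef, add_mul, ite_mul, zero_mul, Finset.sum_add_distrib,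
    Finset.sum_ite_eq', Finset.mem_univ, if_true]
  have hs : (Real.sqrt 2 : ℂ) * (Real.sqrt 2 : ℂ) = 2 := by
    rw [← Complex.ofReal_mul, Real.mul_self_sqrt (by norm_num)]; norm_num
  have hs0 : (Real.sqrt 2 : ℂ) ≠ 0 := by
    intro h; rw [h] at hs; norm_num at hs
  have hI := Complex.I_mul_I
  by_cases h : c = b ∧ d = a
  · obtain ⟨rfl, rfl⟩ := h
    rcases lt_trichotomy d c with h | h | h
    · have hne := ne_of_lt h
      have hn : ¬ c < d := not_lt.mpr h.le
      simp [h, hne, Ne.symm hne, hn]
      field_simp
      linear_combination (-1 : ℂ) * hI - hs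
    · subst h; simp
    · have hne := ne_of_lt h
      have hn : ¬ d < c := not_lt.mpr h.le
      simp [h, hne, Ne.symm hne, hn]
      field_simp
      linear_combination (-1 : ℂ) * hI - hs
  · rw [if_neg h]
    by_cases h' : c = a ∧ d = b
    · obtain ⟨rfl, rfl⟩ := h'
      have hne : c ≠ d := fun e => h ⟨e, e.symm⟩
      rcases lt_or_gt_of_ne hne with hlt | hlt
      · simp [hne, Ne.symm hne, hlt, not_lt.mpr hlt.le]
        field_simp
        linear_combination hI
      · simp [hne, Ne.symm hne, hlt, not_lt.mpr hlt.le]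
        field_simp
        linear_combination hI
    · have e1 : (a, b) ≠ (c, d) := fun e => h' ⟨(Prod.mk.inj e).1.symm, (Prod.mk.inj e).2.symm⟩
      have e2 : (b, a) ≠ (c, d) := fun e => h ⟨(Prod.mk.inj e).1.symm, (Prod.mk.inj e).2.symm⟩
      have e3 : (a, b) ≠ (d, c) := fun e => h ⟨(Prod.mk.inj e).2.symm, (Prod.mk.inj e).1.symm⟩
      have e4 : (b, a) ≠ (d, c) := fun e => h' ⟨(Prod.mk.inj e).2.symm, (Prod.mk.inj e).1.symm⟩
      simp [e1, e2, e3, e4]

/-- The GUE matrix of polynomials. -/
def gue (i : Fin N) : Matrix (Fin k) (Fin k) (MvPolynomial (Coord N k) ℂ) :=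
  Matrix.of fun a b => ∑ e : Fin k × Fin k, entryCoef a b e • MvPolynomial.X (i, e)

/-- The derivation dual to the entry `(a, b)` of the `i`-th matrix. -/
def dual (i : Fin N) (a b : Fin k) :
    Derivation ℂ (MvPolynomial (Coord N k) ℂ) (MvPolynomial (Coord N k) ℂ) :=
  ∑ e : Fin k × Fin k, entryCoef a b e • MvPolynomial.pderiv (i, e)

lemma dual_apply (i : Fin N) (a b : Fin k) (p : MvPolynomial (Coord N k) ℂ) :
    dual i a b p = ∑ e : Fin k × Fin k, entryCoef a b e • MvPolynomial.pderiv (i, e) p := by
  simp only [dual]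
  rw [← Derivation.coeFnAddMonoidHom_apply, map_sum, Finset.sum_apply]
  rfl

lemma dual_gue (i j : Fin N) (a b c d : Fin k) :
    dual i a b (gue j c d) = if i = j ∧ c = b ∧ d = a then 1 else 0 := by
  classical
  simp only [dual_apply, gue, Matrix.of_apply, map_sum, Derivation.map_smul,
    MvPolynomial.pderiv_X, Pi.single_apply, Finset.smul_sum, smul_smul, Prod.mk.injEq]
  by_cases hij : i = j
  · subst hij
    simp only [true_and, smul_ite, smul_zero, Finset.sum_ite_eq, Finset.sum_ite_eq',
      Finset.mem_univ, if_true]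
    rw [← Finset.sum_smul, sum_entryCoef_mul]
    split_ifs <;> simp_all
  · simp [hij, Ne.symm hij]

lemma expect_gue_mul {v : ℝ≥0} (hv : v ≠ 0) (i : Fin N) (a b : Fin k)
    (p : MvPolynomial (Coord N k) ℂ) :
    expect v (gue i a b * p) = (v : ℂ) * expect v (dual i a b p) := by
  simp only [gue, Matrix.of_apply, dual_apply, Finset.sum_mul, map_sum, smul_mul_assoc,
    map_smul, expect_X_mul hv, Finset.mul_sum, smul_eq_mul]
  exact Finset.sum_congr rfl fun e _ => by ring

lemma polyEval_gue (x : Coord N k → ℝ) (i : Fin N) :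
    (gue i).map (polyEval x) = hermMat fun a b => x (i, a, b) := by
  ext a b
  simp only [Matrix.map_apply, gue, Matrix.of_apply, map_sum, map_smul, hermMat_eq_sum]
  simp [polyEval]

variable {A : Type*} (U : A → Matrix (Fin k) (Fin k) ℂ)

/-- The matrix of a letter. -/
def letterMat : A ⊕ Fin N → Matrix (Fin k) (Fin k) (MvPolynomial (Coord N k) ℂ)
  | Sum.inl a => (U a).map MvPolynomial.C
  | Sum.inr i => gue i

/-- The matrix of a word. -/
def wordMat (w : List (A ⊕ Fin N)) : Matrix (Fin k) (Fin k) (MvPolynomial (Coord N k) ℂ) :=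
  (w.map (letterMat U)).prod

lemma wordMat_cons (l : A ⊕ Fin N) (w : List (A ⊕ Fin N)) :
    wordMat U (l :: w) = letterMat U l * wordMat U w := by simp [wordMat]

lemma wordMat_append (u w : List (A ⊕ Fin N)) :
    wordMat U (u ++ w) = wordMat U u * wordMat U w := by simp [wordMat]

/-- The normalised trace of a word. -/
def trN (w : List (A ⊕ Fin N)) : MvPolynomial (Coord N k) ℂ :=
  ((k : ℂ)⁻¹) • (wordMat U w).trace

lemma trN_comm (u w : List (A ⊕ Fin N)) : trN U (u ++ w) = trN U (w ++ u) := by
  rw [trN, trN, wordMat_append, wordMat_append, Matrix.trace_mul_comm]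

variable [DecidableEq A]

lemma dual_wordMat (i : Fin N) (a b : Fin k) (w : List (A ⊕ Fin N)) (e f : Fin k) :
    dual i a b (wordMat U w e f) = ∑ l : Fin w.length,
      if w.get l = Sum.inr i then
        wordMat U (w.take l.val) e b * wordMat U (w.drop (l.val + 1)) a f else 0 := by
  induction w generalizing e with
  | nil =>
      simp only [wordMat, List.map_nil, List.prod_nil, List.length_nil, Finset.univ_eq_empty,
        Finset.sum_empty, Matrix.one_apply]
      split_ifs <;> simp
  | cons l w ih =>
      rw [wordMat_cons, Matrix.mul_apply, map_sum]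
      simp only [Derivation.leibniz, smul_eq_mul, ih, Finset.sum_add_distrib]
      simp only [List.length_cons, Fin.sum_univ_succ, List.get_eq_getElem, Fin.val_zero,
        List.getElem_cons_zero, List.take_zero, Fin.val_succ, List.getElem_cons_succ,
        List.take_succ_cons, List.drop_succ_cons, List.drop_zero, zero_add]
      rw [add_comm]
      congr 1
      · cases l with
        | inl u => simp [letterMat]
        | inr j =>
            simp only [letterMat, dual_gue, Sum.inr.injEq, mul_ite, mul_one, mul_zero]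
            by_cases hij : i = j
            · subst hij
              simp only [true_and, if_true]
              by_cases he : e = b
              · subst he
                simp [wordMat]
              · simp [he, wordMat, Ne.symm he]
            · simp [hij, Ne.symm hij]
      · simp only [Finset.mul_sum, mul_ite, mul_zero]
        rw [Finset.sum_comm]
        refine Finset.sum_congr rfl fun m _ => ?_
        by_cases hm : w[m.val] = Sum.inr i
        · simp only [if_pos hm, wordMat_cons, Matrix.mul_apply, Finset.sum_mul, mul_assoc]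
        · simp only [if_neg hm, Finset.sum_const_zero]

lemma dual_trN (i : Fin N) (a b : Fin k) (w : List (A ⊕ Fin N)) :
    dual i a b (trN U w) = ∑ l : Fin w.length, if w.get l = Sum.inr i then
      ((k : ℂ)⁻¹) • wordMat U (w.drop (l.val + 1) ++ w.take l.val) a b else 0 := by
  simp only [trN, Derivation.map_smul, Matrix.trace, Matrix.diag_apply, map_sum, dual_wordMat]
  rw [Finset.smul_sum]
  simp only [Finset.smul_sum]
  rw [Finset.sum_comm]
  refine Finset.sum_congr rfl fun l _ => ?_
  split_ifs with h
  · rw [wordMat_append, Matrix.mul_apply, Finset.smul_sum]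
    exact Finset.sum_congr rfl fun e _ => by rw [mul_comm]
  · simp

/-- The product of traces. -/
def trProd (ls : List (List (A ⊕ Fin N))) : MvPolynomial (Coord N k) ℂ := (ls.map (trN U)).prod

lemma dual_trProd (i : Fin N) (a b : Fin k) (ls : List (List (A ⊕ Fin N))) :
    dual i a b (trProd U ls) = ∑ m : Fin ls.length,
      dual i a b (trN U (ls.get m)) * trProd U (ls.eraseIdx m.val) := by
  induction ls with
  | nil => simp [trProd]
  | cons w ls ih =>
      simp only [List.length_cons, Fin.sum_univ_succ, List.get_eq_getElem, Fin.val_zero,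
        List.getElem_cons_zero, List.eraseIdx_cons_zero, Fin.val_succ, List.getElem_cons_succ,
        List.eraseIdx_cons_succ]
      have : trProd U (w :: ls) = trN U w * trProd U ls := by simp [trProd]
      rw [this, Derivation.leibniz, ih]
      simp only [smul_eq_mul, Finset.mul_sum]
      rw [add_comm]
      refine congrArg₂ (· + ·) ?_ ?_
      · exact mul_comm _ _
      · refine Finset.sum_congr rfl fun m _ => ?_
        simp only [trProd, List.map_cons, List.prod_cons, List.get_eq_getElem]
        exact mul_left_comm _ _ _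

/-- The Schwinger-Dyson equation. -/
theorem schwinger_dyson (hk : k ≠ 0) {v : ℝ≥0} (hv : (v : ℝ) = (k : ℝ)⁻¹) (i : Fin N)
    (w : List (A ⊕ Fin N)) (ls : List (List (A ⊕ Fin N))) :
    expect v (trProd U ((Sum.inr i :: w) :: ls)) =
      (∑ l : Fin w.length, if w.get l = Sum.inr i then
        expect v (trProd U (w.take l.val :: w.drop (l.val + 1) :: ls)) else 0) +
      ((k : ℂ) ^ 2)⁻¹ * ∑ m : Fin ls.length, ∑ l : Fin (ls.get m).length,
        if (ls.get m).get l = Sum.inr i then
          expect v (trProd U ((w ++ ((ls.get m).drop (l.val + 1) ++ (ls.get m).take l.val)) ::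
            ls.eraseIdx m.val)) else 0 := by
  have hv0 : v ≠ 0 := by
    intro h; rw [h] at hv
    simp at hv; exact hk (by exact_mod_cast hv.symm)
  have hvc : (v : ℂ) = (k : ℂ)⁻¹ := by
    have : ((v : ℝ) : ℂ) = (((k : ℝ)⁻¹ : ℝ) : ℂ) := by rw [hv]
    simpa using this
  have h0 : trProd U ((Sum.inr i :: w) :: ls) =
      ∑ a, ∑ b, ((k : ℂ)⁻¹) • (gue i a b * (wordMat U w b a * trProd U ls)) := by
    simp only [trProd, List.map_cons, List.prod_cons, trN, wordMat_cons, letterMat, Matrix.trace,
      Matrix.diag_apply, Matrix.mul_apply, Finset.smul_sum, Finset.sum_mul, smul_mul_assoc,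
      mul_assoc]
  have h1 : ∀ l : Fin w.length, ∑ a, ∑ b, ((k : ℂ)⁻¹) • ((v : ℂ) •
      ((wordMat U (w.take l.val) b b * wordMat U (w.drop (l.val + 1)) a a) * trProd U ls)) =
      trProd U (w.take l.val :: w.drop (l.val + 1) :: ls) := by
    intro l
    simp only [trProd, List.map_cons, List.prod_cons, trN, Matrix.trace, Matrix.diag_apply,
      hvc, smul_smul, ← Finset.smul_sum]
    rw [smul_mul_assoc, smul_mul_assoc, mul_smul_comm, smul_smul]
    congr 1
    simp only [Finset.sum_mul, Finset.mul_sum, mul_assoc]
  have h2 : ∀ (m : Fin ls.length) (l : Fin (ls.get m).length),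
      ∑ a, ∑ b, ((k : ℂ)⁻¹) • ((v : ℂ) • (wordMat U w b a * (((k : ℂ)⁻¹) •
        wordMat U ((ls.get m).drop (l.val + 1) ++ (ls.get m).take l.val) a b *
          trProd U (ls.eraseIdx m.val)))) =
      ((k : ℂ) ^ 2)⁻¹ • trProd U ((w ++ ((ls.get m).drop (l.val + 1) ++ (ls.get m).take l.val)) ::
        ls.eraseIdx m.val) := by
    intro m l
    simp only [trProd, List.map_cons, List.prod_cons, trN, Matrix.trace, Matrix.diag_apply,
      wordMat_append U w, Matrix.mul_apply, hvc, smul_mul_assoc, mul_smul_comm, smul_smul,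
      Finset.sum_mul, Finset.smul_sum, mul_assoc]
    rw [Finset.sum_comm]
    refine Finset.sum_congr rfl fun a _ => Finset.sum_congr rfl fun b _ => ?_
    congr 1
    ring
  rw [h0]
  simp only [map_sum, map_smul, expect_gue_mul hv0, Derivation.leibniz]
  have h3 : ∑ a, ∑ b, ((k : ℂ)⁻¹) • ((v : ℂ) * expect v
        (wordMat U w b a • dual i a b (trProd U ls) +
          trProd U ls • dual i a b (wordMat U w b a))) =
      expect v ((∑ l : Fin w.length, if w.get l = Sum.inr i then
        trProd U (w.take l.val :: w.drop (l.val + 1) :: ls) else 0) +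
        ∑ m : Fin ls.length, ∑ l : Fin (ls.get m).length,
        if (ls.get m).get l = Sum.inr i then
          ((k : ℂ) ^ 2)⁻¹ • trProd U ((w ++ ((ls.get m).drop (l.val + 1) ++
            (ls.get m).take l.val)) :: ls.eraseIdx m.val) else 0) := by
    simp only [← smul_eq_mul (α := ℂ) (v : ℂ), ← map_smul, ← map_sum]
    congr 1
    simp only [smul_eq_mul, dual_trProd, dual_trN, dual_wordMat, Finset.mul_sum, Finset.sum_mul,
      smul_add, Finset.sum_add_distrib, Finset.smul_sum]
    rw [add_comm]
    congr 1
    · conv_lhs => enter [2, a]; rw [Finset.sum_comm]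
      rw [Finset.sum_comm]
      refine Finset.sum_congr rfl fun l _ => ?_
      split_ifs with h
      · rw [← h1 l]
        refine Finset.sum_congr rfl fun a _ => Finset.sum_congr rfl fun b _ => ?_
        congr 2
        ring
      · simp
    · conv_lhs => enter [2, a]; rw [Finset.sum_comm]
      rw [Finset.sum_comm]
      refine Finset.sum_congr rfl fun m _ => ?_
      conv_lhs => enter [2, a]; rw [Finset.sum_comm]
      rw [Finset.sum_comm]
      refine Finset.sum_congr rfl fun l _ => ?_
      split_ifs with h
      · exact h2 m l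
      · simp
  rw [h3]
  simp only [map_add, map_sum, Finset.mul_sum]
  congr 1
  · refine Finset.sum_congr rfl fun l _ => ?_
    split_ifs <;> simp
  · refine Finset.sum_congr rfl fun m _ => Finset.sum_congr rfl fun l _ => ?_
    split_ifs <;> simp

end Vale.Agent.P087.Gauss
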