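import Mathlib
import Vale.Agent.P087.Gauss

/-!
Asymptotic freeness of deterministic matrices and GUE matrices, in expectation and in probability.
-/

noncomputable section

namespace Vale.Agent.P087.Limit

open MeasureTheory ProbabilityTheory Filter Gauss
open scoped NNReal Topology

variable {A : Type*} [DecidableEq A] {N : ℕ}

/-- Number of Gaussian letters. -/
def gcount (w : List (A ⊕ Fin N)) : ℕ := w.countP Sum.isRight

/-- Total number of Gaussian letters. -/
def gtot (ls : List (List (A ⊕ Fin N))) : ℕ := (ls.map gcount).sum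

/-- Total length. -/
def ltot (ls : List (List (A ⊕ Fin N))) : ℕ := (ls.map List.length).sum

lemma split_at_index {β : Type*} (w : List β) (l : Fin w.length) :
    w = w.take l.val ++ w.get l :: w.drop (l.val + 1) := by
  conv_lhs => rw [← List.take_append_drop l.val w, List.drop_eq_getElem_cons l.isLt]
  rfl

lemma gcount_split (w : List (A ⊕ Fin N)) (l : Fin w.length) {i : Fin N}
    (h : w.get l = Sum.inr i) :
    gcount w = gcount (w.take l.val) + gcount (w.drop (l.val + 1)) + 1 ∧
      w.length = (w.take l.val).length + (w.drop (l.val + 1)).length + 1 := by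
  have hw := split_at_index w l
  rw [h] at hw
  constructor
  · conv_lhs => rw [hw]
    simp [gcount, List.countP_append, List.countP_cons]
    omega
  · conv_lhs => rw [hw]
    simp only [List.length_append, List.length_cons]
    omega

lemma tot_erase (ls : List (List (A ⊕ Fin N))) (m : Fin ls.length) :
    gtot ls = gcount (ls.get m) + gtot (ls.eraseIdx m.val) ∧
      ltot ls = (ls.get m).length + ltot (ls.eraseIdx m.val) := by
  have hp : (ls.get m :: ls.eraseIdx m.val).Perm ls := List.getElem_cons_eraseIdx_perm m.isLt
  exact ⟨by simpa [gtot] using ((hp.map gcount).sum_eq).symm,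
    by simpa [ltot] using ((hp.map List.length).sum_eq).symm⟩

lemma trProd_perm {k : ℕ} (U : A → Matrix (Fin k) (Fin k) ℂ)
    {ls ls' : List (List (A ⊕ Fin N))} (h : ls.Perm ls') : trProd U ls = trProd U ls' :=
  (h.map (trN U)).prod_eq

lemma exists_inl_or_inr (w : List (A ⊕ Fin N)) :
    (∃ u : List A, w = u.map Sum.inl) ∨
      ∃ (p : List (A ⊕ Fin N)) (i : Fin N) (q : List (A ⊕ Fin N)), w = p ++ Sum.inr i :: q := by
  induction w with
  | nil => exact Or.inl ⟨[], rfl⟩
  | cons l w ih =>
      cases l with
      | inr i => exact Or.inr ⟨[], i, w, rfl⟩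
      | inl a =>
          rcases ih with ⟨u, rfl⟩ | ⟨p, i, q, rfl⟩
          · exact Or.inl ⟨a :: u, rfl⟩
          · exact Or.inr ⟨Sum.inl a :: p, i, q, rfl⟩

lemma trN_inl {k : ℕ} (U : A → Matrix (Fin k) (Fin k) ℂ) (u : List A) :
    trN (N := N) U (u.map Sum.inl) = MvPolynomial.C ((k : ℂ)⁻¹ * ((u.map U).prod).trace) := by
  have h : wordMat (N := N) U (u.map Sum.inl) = ((u.map U).prod).map MvPolynomial.C := by
    induction u with
    | nil =>
        simp only [wordMat, List.map_nil, List.prod_nil]
        exact (Matrix.map_one _ (map_zero _) (map_one _)).symm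
    | cons a u ih =>
        rw [List.map_cons, wordMat_cons, ih, List.map_cons, List.prod_cons, Matrix.map_mul]
        rfl
  rw [trN, h, ← MvPolynomial.C_mul', map_mul]
  congr 1
  simp [Matrix.trace, map_sum]

variable (τ : List (A ⊕ Fin N) → ℂ)
  (hcyc : ∀ u w, τ (u ++ w) = τ (w ++ u))
  (hsd : ∀ i w, τ (Sum.inr i :: w) = ∑ l : Fin w.length,
    if w.get l = Sum.inr i then τ (w.take l.val) * τ (w.drop (l.val + 1)) else 0)
  (kk : ℕ → ℕ) (hk0 : ∀ q, kk q ≠ 0) (hkk : Tendsto kk atTop atTop)
  (U : ∀ q, A → Matrix (Fin (kk q)) (Fin (kk q)) ℂ) (L : ℕ)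
  (hU : ∀ q (u : List A), u.length ≤ L →
    (kk q : ℂ)⁻¹ * ((u.map (U q)).prod).trace = τ (u.map Sum.inl))

/-- The variance `1/k`. -/
def var (k : ℕ) : ℝ≥0 := (k : ℝ≥0)⁻¹

lemma var_coe (k : ℕ) : ((var k : ℝ≥0) : ℝ) = (k : ℝ)⁻¹ := by simp [var]

include hcyc hsd hk0 hkk hU in
theorem tendsto_trProd (ls : List (List (A ⊕ Fin N))) (hls : ltot ls ≤ L) :
    Tendsto (fun q => expect (var (kk q)) (trProd (U q) ls)) atTop (𝓝 (ls.map τ).prod) := by
  induction hg : gtot ls using Nat.strong_induction_on generalizing ls with
  | h g ih =>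
    by_cases hall : ∀ w ∈ ls, ∃ u : List A, w = u.map Sum.inl
    · have : ∀ q, trProd (U q) ls = MvPolynomial.C (ls.map τ).prod := by
        intro q
        clear ih hg
        induction ls with
        | nil => simp [trProd]
        | cons w ls ihl =>
            obtain ⟨u, rfl⟩ := hall w List.mem_cons_self
            simp only [ltot, List.map_cons, List.sum_cons, List.length_map] at hls
            simp only [trProd, List.map_cons, List.prod_cons, map_mul]
            rw [trN_inl, hU q u (by omega)]
            congr 1
            exact ihl (by simp only [ltot]; omega) fun v hv => hall v (List.mem_cons_of_mem _ hv)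
      simp only [this, expect_C]
      exact tendsto_const_nhds
    · push Not at hall
      obtain ⟨w0, hw0, hne⟩ := hall
      obtain ⟨m, hm⟩ := List.get_of_mem hw0
      rcases exists_inl_or_inr w0 with ⟨u, hu⟩ | ⟨p, i, r, hr⟩
      · exact absurd hu (hne u)
      set w := r ++ p with hw
      set rest := ls.eraseIdx m.val with hrest
      obtain ⟨hgt, hlt⟩ := tot_erase ls m
      rw [hm, hr] at hgt hlt
      have hgw : gcount (p ++ Sum.inr i :: r) = gcount w + 1 := by
        simp [gcount, hw, List.countP_append, List.countP_cons]; omega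
      have hlw : (p ++ Sum.inr i :: r).length = w.length + 1 := by simp [hw]; omega
      rw [hgw, hg] at hgt
      rw [hlw] at hlt
      rw [← hrest] at hgt hlt
      have hperm : (w0 :: rest).Perm ls := by
        rw [← hm]; exact List.getElem_cons_eraseIdx_perm m.isLt
      have hval : (ls.map τ).prod = τ (Sum.inr i :: w) * (rest.map τ).prod := by
        rw [← (hperm.map τ).prod_eq, List.map_cons, List.prod_cons, hr, hcyc]
        rfl
      have hseq : ∀ q, trProd (U q) ls = trProd (U q) ((Sum.inr i :: w) :: rest) := by
        intro q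
        rw [← trProd_perm (U q) hperm]
        simp only [trProd, List.map_cons, List.prod_cons, hr]
        rw [trN_comm]
        rfl
      simp only [hseq]
      rw [hval, hsd, Finset.sum_mul]
      have hsdq : ∀ q, expect (var (kk q)) (trProd (U q) ((Sum.inr i :: w) :: rest)) = _ :=
        fun q => schwinger_dyson (U q) (hk0 q) (var_coe (kk q)) i w rest
      simp only [hsdq]
      rw [← add_zero (∑ l : Fin w.length, (if w.get l = Sum.inr i then
        τ (w.take l.val) * τ (w.drop (l.val + 1)) else 0) * (rest.map τ).prod)]
      refine Tendsto.add (tendsto_finsetSum _ fun l _ => ?_) ?_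
      · by_cases h : w.get l = Sum.inr i
        · simp only [if_pos h]
          obtain ⟨h1, h2⟩ := gcount_split w l h
          have := ih (gtot (w.take l.val :: w.drop (l.val + 1) :: rest))
            (by simp only [gtot, List.map_cons, List.sum_cons] at hgt ⊢; omega)
            (w.take l.val :: w.drop (l.val + 1) :: rest)
            (by simp only [ltot, List.map_cons, List.sum_cons] at hlt hls ⊢; omega) rfl
          simpa [List.map_cons, mul_assoc] using this
        · simp only [if_neg h, zero_mul]; exact tendsto_const_nhds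
      · have hk2 : Tendsto (fun q => ((kk q : ℂ) ^ 2)⁻¹) atTop (𝓝 0) := by
          have h1 : Tendsto (fun q => ((kk q : ℝ) ^ 2)⁻¹) atTop (𝓝 0) :=
            tendsto_inv_atTop_zero.comp ((tendsto_pow_atTop two_ne_zero).comp
              (tendsto_natCast_atTop_atTop.comp hkk))
          have h2 := (Complex.continuous_ofReal.tendsto 0).comp h1
          simpa [Function.comp_def] using h2
        obtain ⟨C, hC⟩ : ∃ C, Tendsto (fun q => ∑ m' : Fin rest.length,
            ∑ l : Fin (rest.get m').length, if (rest.get m').get l = Sum.inr i then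
              expect (var (kk q)) (trProd (U q) ((w ++ ((rest.get m').drop (l.val + 1) ++
                (rest.get m').take l.val)) :: rest.eraseIdx m'.val)) else 0) atTop (𝓝 C) := by
          refine ⟨∑ m' : Fin rest.length, ∑ l : Fin (rest.get m').length,
            if (rest.get m').get l = Sum.inr i then
              (List.map τ ((w ++ ((rest.get m').drop (l.val + 1) ++
                (rest.get m').take l.val)) :: rest.eraseIdx m'.val)).prod else 0,
            tendsto_finsetSum _ fun m' _ => tendsto_finsetSum _ fun l _ => ?_⟩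
          by_cases h : (rest.get m').get l = Sum.inr i
          · simp only [if_pos h]
            obtain ⟨h1, h2⟩ := gcount_split _ l h
            obtain ⟨h3, h4⟩ := tot_erase rest m'
            refine ih _ ?_ _ ?_ rfl
            · simp only [gtot, gcount, List.map_cons, List.sum_cons, List.countP_append]
                at hgt h1 h3 ⊢
              omega
            · simp only [ltot, List.map_cons, List.sum_cons, List.length_append] at hlt hls h4 ⊢
              omega
          · simp only [if_neg h]; exact tendsto_const_nhds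
        simpa using hk2.mul hC

lemma map_wordMat {k : ℕ} (U : A → Matrix (Fin k) (Fin k) ℂ) (x : Coord N k → ℝ)
    (w : List (A ⊕ Fin N)) :
    (wordMat U w).map (polyEval x) =
      (w.map (Sum.elim U fun i => hermMat fun a b => x (i, a, b))).prod := by
  induction w with
  | nil => simp [wordMat, Matrix.map_one]
  | cons l w ih =>
      rw [wordMat_cons, Matrix.map_mul, ih, List.map_cons, List.prod_cons]
      congr 1
      cases l with
      | inl a =>
          ext a' b'
          simp [letterMat, polyEval]
      | inr i => simp [letterMat, polyEval_gue]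

lemma polyEval_trN {k : ℕ} (U : A → Matrix (Fin k) (Fin k) ℂ) (x : Coord N k → ℝ)
    (w : List (A ⊕ Fin N)) :
    polyEval x (trN U w) =
      (k : ℂ)⁻¹ * ((w.map (Sum.elim U fun i => hermMat fun a b => x (i, a, b))).prod).trace := by
  rw [← map_wordMat, trN, map_smul, smul_eq_mul]
  simp [Matrix.trace, map_sum]

omit [DecidableEq A] in
lemma hermMat_isHermitian {k : ℕ} (x : Fin k → Fin k → ℝ) : (hermMat x).IsHermitian := by
  refine Matrix.IsHermitian.ext fun a b => ?_
  simp only [hermMat, Matrix.of_apply]
  rcases lt_trichotomy a b with h | h | h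
  · simp [h, h.ne, h.ne', not_lt.mpr h.le]
  · subst h; simp
  · simp [h, h.ne, h.ne', not_lt.mpr h.le]
    ring

lemma conj_polyEval_trN {k : ℕ} (U : A → Matrix (Fin k) (Fin k) ℂ)
    (hUh : ∀ a, (U a).IsHermitian) (x : Coord N k → ℝ) (w : List (A ⊕ Fin N)) :
    (starRingEnd ℂ) (polyEval x (trN U w)) = polyEval x (trN U w.reverse) := by
  rw [polyEval_trN, polyEval_trN, map_mul]
  congr 1
  · simp
  · rw [starRingEnd_apply, ← Matrix.trace_conjTranspose, Matrix.conjTranspose_list_prod]
    congr 2
    rw [List.map_map, ← List.map_reverse]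
    refine List.map_congr_left fun l _ => ?_
    cases l with
    | inl a => exact hUh a
    | inr i => exact hermMat_isHermitian _

include hcyc hsd hk0 hkk hU in
theorem tendsto_prob (hUh : ∀ q a, (U q a).IsHermitian) (w : List (A ⊕ Fin N))
    (hw : 2 * w.length ≤ L) {ε : ℝ} (hε : 0 < ε) :
    Tendsto (fun q => (gaussPi (Coord N (kk q)) (var (kk q))).real
      {x | ε ≤ ‖polyEval x (trN (U q) w) - τ w‖}) atTop (𝓝 0) := by
  set c := τ w
  have hE : Tendsto (fun q => ∫ x, ‖polyEval x (trN (U q) w) - c‖ ^ 2
      ∂gaussPi (Coord N (kk q)) (var (kk q))) atTop (𝓝 0) := by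
    have h1 := tendsto_trProd τ hcyc hsd kk hk0 hkk U L hU [w, w.reverse]
      (by simp [ltot]; omega)
    have h2 := tendsto_trProd τ hcyc hsd kk hk0 hkk U L hU [w] (by simp [ltot]; omega)
    have h3 := tendsto_trProd τ hcyc hsd kk hk0 hkk U L hU [w.reverse] (by simp [ltot]; omega)
    simp only [List.map_cons, List.map_nil, List.prod_cons, List.prod_nil, mul_one, trProd]
      at h1 h2 h3
    have hlim := ((h1.sub (h2.const_mul ((starRingEnd ℂ) c))).sub (h3.const_mul c)).add
      (tendsto_const_nhds (x := c * (starRingEnd ℂ) c))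
    have hz : c * τ w.reverse - (starRingEnd ℂ) c * c - c * τ w.reverse +
        c * (starRingEnd ℂ) c = 0 := by ring
    rw [hz] at hlim
    have heq : ∀ q, expect (var (kk q)) (trN (U q) w * trN (U q) w.reverse) -
        (starRingEnd ℂ) c * expect (var (kk q)) (trN (U q) w) -
        c * expect (var (kk q)) (trN (U q) w.reverse) + c * (starRingEnd ℂ) c =
        ((∫ x, ‖polyEval x (trN (U q) w) - c‖ ^ 2
          ∂gaussPi (Coord N (kk q)) (var (kk q)) : ℝ) : ℂ) := by
      intro q
      rw [← integral_complex_ofReal, ← smul_eq_mul ((starRingEnd ℂ) c), ← map_smul,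
        ← smul_eq_mul c (expect _ _), ← map_smul, ← map_sub, ← map_sub,
        ← expect_C (σ := Coord N (kk q)) (var (kk q)) (c * (starRingEnd ℂ) c), ← map_add]
      refine integral_congr_ae (ae_of_all _ fun x => ?_)
      have hc : ∀ a, polyEval x (MvPolynomial.C a) = a := fun a => by simp [polyEval]
      beta_reduce
      rw [map_add, hc]
      simp only [map_sub, map_smul, map_mul, ← conj_polyEval_trN (U q) (hUh q) x w,
        smul_eq_mul]
      rw [Complex.ofReal_pow, ← Complex.mul_conj' (polyEval x (trN (U q) w) - c)]
      simp only [map_sub]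
      ring
    simp only [heq] at hlim
    simpa [Function.comp_def] using (Complex.continuous_re.tendsto 0).comp hlim
  refine squeeze_zero (fun q => measureReal_nonneg) (fun q => ?_)
    (by simpa using hE.div_const (ε ^ 2))
  rw [le_div_iff₀ (by positivity), mul_comm]
  have hint : Integrable (fun x => ‖polyEval x (trN (U q) w) - c‖ ^ 2)
      (gaussPi (Coord N (kk q)) (var (kk q))) := by
    have h := integrable_polyEval (var (kk q))
      ((trN (U q) w - MvPolynomial.C c) * (trN (U q) w.reverse -
        MvPolynomial.C ((starRingEnd ℂ) c)) : MvPolynomial (Coord N (kk q)) ℂ)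
    refine h.re.congr (ae_of_all _ fun x => ?_)
    simp only [map_mul, map_sub, ← conj_polyEval_trN (U q) (hUh q) x w]
    have hc : ∀ a, polyEval x (MvPolynomial.C a) = a := fun a => by simp [polyEval]
    rw [hc, hc, ← map_sub, Complex.mul_conj']
    simp [← Complex.ofReal_pow]
  calc ε ^ 2 * (gaussPi (Coord N (kk q)) (var (kk q))).real
        {x | ε ≤ ‖polyEval x (trN (U q) w) - c‖}
      ≤ ε ^ 2 * (gaussPi (Coord N (kk q)) (var (kk q))).real
        {x | ε ^ 2 ≤ ‖polyEval x (trN (U q) w) - c‖ ^ 2} := by
        refine mul_le_mul_of_nonneg_left (measureReal_mono fun x hx => ?_) (by positivity)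
        simp only [Set.mem_setOf_eq] at hx ⊢
        gcongr
    _ ≤ _ := mul_meas_ge_le_integral_of_nonneg (ae_of_all _ fun _ => by positivity) hint _

end Vale.Agent.P087.Limit
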