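import Mathlib
import Vale.Agent.P087.Fock

/-!
The cumulant recursion for translations plus semicircular noise and the resulting lower bound for
the free mean square error.
-/

noncomputable section

namespace Vale.Agent.P087.Cumulant

open Fock
open scoped InnerProductSpace Classical

variable {ι : Type*}

/-- Deconcatenation convolution. -/
def cv (f h : List ι → ℝ) (z : List ι) : ℝ :=
  ∑ l ∈ Finset.range (z.length + 1), f (z.take l) * h (z.drop l)

lemma cv_nil (f h : List ι → ℝ) : cv f h [] = f [] * h [] := by simp [cv]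

lemma cv_cons (f h : List ι → ℝ) (a : ι) (z : List ι) :
    cv f h (a :: z) = f [] * h (a :: z) + cv (fun u => f (a :: u)) h z := by
  simp only [cv, List.length_cons]
  rw [Finset.sum_range_succ']
  simp [add_comm]

lemma cv_assoc (f h k : List ι → ℝ) (z : List ι) : cv (cv f h) k z = cv f (cv h k) z := by
  induction z generalizing f h k with
  | nil => simp [cv_nil, mul_assoc]
  | cons a z ih =>
      rw [cv_cons, cv_cons f, cv_nil, cv_cons h]
      have : cv (fun u => cv f h (a :: u)) k z =
          f [] * cv (fun u => h (a :: u)) k z + cv (fun u => f (a :: u)) (cv h k) z := by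
        rw [← ih]
        simp only [cv_cons]
        simp [cv, add_mul, Finset.sum_add_distrib, Finset.mul_sum, mul_assoc]
      rw [this]; ring

lemma cv_delta (h : List ι → ℝ) (z : List ι) :
    cv (fun u => if u = [] then 1 else 0) h z = h z := by
  cases z with
  | nil => simp [cv_nil]
  | cons a z => rw [cv_cons]; simp [cv]

lemma cv_sub_left (f f' h : List ι → ℝ) (z : List ι) :
    cv (fun u => f u - f' u) h z = cv f h z - cv f' h z := by
  simp [cv, sub_mul, Finset.sum_sub_distrib]

/-- `hd j h (j :: w) = h w`, and zero on other words. -/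
def hd (j : ι) (h : List ι → ℝ) : List ι → ℝ
  | [] => 0
  | a :: w => if a = j then h w else 0

variable {G : Type*} [Group G] (y : ι → G)

/-- The operator valued cumulants. -/
def K : G → List ι → ℝ
  | g, [] => if g = 1 then 1 else 0
  | g, i :: z => K (y i * g) z -
      ∑ l ∈ Finset.range (z.length + 1), K (y i) (z.take l) * K g (z.drop l)
  termination_by _ z => z.length
  decreasing_by all_goals simp_wf

lemma K_nil (g : G) : K y g [] = if g = 1 then 1 else 0 := by rw [K]

lemma K_cons (g : G) (i : ι) (z : List ι) :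
    K y g (i :: z) = K y (y i * g) z - cv (K y (y i)) (K y g) z := by
  rw [K]; rfl

lemma K_one (z : List ι) : K y 1 z = if z = [] then 1 else 0 := by
  induction hn : z.length using Nat.strong_induction_on generalizing z with
  | h n ih =>
    cases z with
    | nil => simp [K_nil]
    | cons i z =>
        simp only [List.length_cons] at hn
        rw [K_cons, mul_one]
        have : cv (K y (y i)) (K y 1) z = K y (y i) z := by
          unfold cv
          rw [Finset.sum_eq_single z.length]
          · rw [List.drop_length, List.take_length, K_nil]; simp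
          · intro l hl hne
            rw [Finset.mem_range] at hl
            rw [ih _ (by simp; omega) (z.drop l) rfl, if_neg]
            · ring
            · simp; omega
          · intro h; simp at h
        simp [this]

variable (c : ι → Bool → ℝ)

/-- The coefficient pairing a basis vector with a cumulant word. -/
def Kext : G → List ((ι × Bool) × G) → List ι → ℝ
  | g, [] => K y g
  | g, (jσ, h) :: L => fun z => c jσ.1 jσ.2 * cv (K y g) (hd jσ.1 (Kext h L)) z

/-- The variance of the noise. -/
def vv (i : ι) : ℝ := ∑ σ, c i σ ^ 2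

/-- The action of a letter on cumulant words. -/
def Tb (i : ι) (z : List ι) : List ι →₀ ℝ :=
  Finsupp.single (i :: z) 1 +
    (match z with
      | [] => 0
      | a :: w => if a = i then Finsupp.single w (vv c i) else 0) +
    ∑ l ∈ Finset.range (z.length + 1), Finsupp.single (z.drop l) (K y (y i) (z.take l))

/-- The cumulant vector of a word. -/
def phi : List ι → (List ι →₀ ℝ)
  | [] => Finsupp.single [] 1
  | i :: Q => Finsupp.linearCombination ℝ (Tb y c i) (phi Q)

lemma key_identity (hy : ∀ i, y i * y i = 1) (i : ι) (b : Bas G (ι × Bool)) (z : List ι) :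
    Kext y c (y i * b.1) b.2 z +
      ∑ σ, c i σ * ((dnFun (i, σ) b).elim 0 (fun d => Kext y c d.1 d.2 z) +
        Kext y c 1 (((i, σ), b.1) :: b.2) z) =
    Finsupp.linearCombination ℝ (Kext y c b.1 b.2) (Tb y c i z) := by
  obtain ⟨g, L⟩ := b
  have hT : Finsupp.linearCombination ℝ (Kext y c g L) (Tb y c i z) =
      Kext y c g L (i :: z) + vv c i * hd i (Kext y c g L) z +
        cv (K y (y i)) (Kext y c g L) z := by
    simp only [Tb, map_add, map_sum, Finsupp.linearCombination_single, smul_eq_mul, one_mul]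
    congr 1
    congr 1
    cases z with
    | nil => simp [hd]
    | cons a w => by_cases h : a = i <;> simp [hd, h]
  have hup : ∀ σ, Kext y c 1 (((i, σ), g) :: L) z = c i σ * hd i (Kext y c g L) z := by
    intro σ
    simp only [Kext]
    rw [show K y 1 = fun u => if u = [] then 1 else 0 from funext (K_one y), cv_delta]
  rw [hT]
  simp only [hup, mul_add, Finset.sum_add_distrib]
  have hv : ∑ σ, c i σ * (c i σ * hd i (Kext y c g L) z) = vv c i * hd i (Kext y c g L) z := by
    simp only [vv, Finset.sum_mul]; exact Finset.sum_congr rfl fun σ _ => by ring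
  rw [hv]
  cases L with
  | nil =>
      simp only [Kext, K_cons, dnFun, Option.elim_none, mul_zero, Finset.sum_const_zero]
      ring
  | cons p L =>
      obtain ⟨⟨j, σ'⟩, h⟩ := p
      have hdn : ∑ σ, c i σ * ((dnFun (i, σ) ((g, ((j, σ'), h) :: L) : Bas G (ι × Bool))).elim 0
            (fun d => Kext y c d.1 d.2 z)) =
          if g = 1 ∧ j = i then c j σ' * Kext y c h L z else 0 := by
        rw [Finset.sum_eq_single σ']
        · by_cases hc : g = 1 ∧ j = i
          · simp [dnFun, hc.1, hc.2]
          · rw [if_neg hc]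
            have : ¬(g = 1 ∧ (j, σ') = (i, σ')) := fun h => hc ⟨h.1, (Prod.mk.inj h.2).1⟩
            simp only [dnFun, if_neg this, Option.elim_none, mul_zero]
        · intro σ _ hσ
          have : ¬(g = 1 ∧ (j, σ') = (i, σ)) := fun h => hσ (Prod.mk.inj h.2).2.symm
          simp only [dnFun, if_neg this, Option.elim_none, mul_zero]
        · simp
      rw [hdn]
      simp only [Kext]
      rw [cv_cons, show (fun u => K y g (i :: u)) =
        fun u => K y (y i * g) u - cv (K y (y i)) (K y g) u from funext (K_cons y g i),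
        cv_sub_left, cv_assoc, K_nil]
      have hmul : cv (K y (y i)) (fun z => c j σ' * cv (K y g) (hd j (Kext y c h L)) z) z =
          c j σ' * cv (K y (y i)) (cv (K y g) (hd j (Kext y c h L))) z := by
        simp only [cv, Finset.mul_sum]
        exact Finset.sum_congr rfl fun l _ => Finset.sum_congr rfl fun m _ => by ring
      rw [hmul]
      by_cases h1 : g = 1
      · by_cases h2 : j = i
        · subst h1; subst h2; simp [hd]; ring
        · rw [if_neg (fun h => h2 h.2), if_pos h1]
          simp [hd, Ne.symm h2]; ring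
      · rw [if_neg (fun h => h1 h.1), if_neg h1]; ring

variable [Fintype ι]

/-- The coefficient of the semicircular operators in a letter. -/
def coefC (i : ι) (k : ι × Bool) : ℂ := if k.1 = i then (c i k.2 : ℂ) else 0

/-- `X_i = u(y_i) + Σ_σ c_{iσ} S_{iσ}`. -/
def wv (w : List ι) : FH G (ι × Bool) :=
  wordVec (fun _ => (1 : ℂ)) y (coefC c) w

lemma wv_apply (hy : ∀ i, y i * y i = 1) (Q : List ι) (b : Bas G (ι × Bool)) :
    wv y c Q b = (Finsupp.linearCombination ℝ (Kext y c b.1 b.2) (phi y c Q) : ℝ) := by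
  induction Q generalizing b with
  | nil =>
      obtain ⟨g, L⟩ := b
      simp only [wv, wordVec, List.map_nil, List.prod_nil, phi, Finsupp.linearCombination_single,
        one_apply_eq_self, one_smul]
      cases L with
      | nil =>
          simp only [vac, bv_apply, Kext, K_nil, Prod.mk.injEq, and_true]
          split_ifs <;> simp
      | cons p L => obtain ⟨jσ, h⟩ := p; simp [vac, bv_apply, Kext, cv_nil, hd]
  | cons i Q ih =>
      have hyi : (y i)⁻¹ = y i := inv_eq_of_mul_eq_one_right (hy i)
      rw [wv, wordVec_cons, letter_apply, ← wv]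
      have hsum : ∀ F : ι × Bool → ℂ, ∑ k, coefC c i k * F k = ∑ σ, (c i σ : ℂ) * F (i, σ) := by
        intro F
        rw [Fintype.sum_prod_type, Finset.sum_eq_single i]
        · simp [coefC]
        · intro j _ hj; simp [coefC, hj]
        · simp
      rw [hsum, one_mul, hyi]
      simp only [ih]
      have helim : ∀ σ, (dnFun (i, σ) b).elim (0 : ℂ)
          (fun d => ((Finsupp.linearCombination ℝ (Kext y c d.1 d.2) (phi y c Q) : ℝ) : ℂ)) =
          (((dnFun (i, σ) b).elim 0
            (fun d => Finsupp.linearCombination ℝ (Kext y c d.1 d.2) (phi y c Q)) : ℝ) : ℂ) := by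
        intro σ; cases dnFun (i, σ) b <;> simp
      simp only [helim]
      norm_cast
      simp only [phi]
      rw [Finsupp.apply_linearCombination ℝ (Finsupp.linearCombination ℝ (Kext y c b.1 b.2))]
      simp only [Function.comp_def, ← key_identity y c hy i b]
      simp only [Finsupp.linearCombination_apply, Finsupp.sum, smul_eq_mul, mul_add,
        Finset.sum_add_distrib, Finset.mul_sum]
      congr 1
      congr 1
      · rw [Finset.sum_comm]
        refine Finset.sum_congr rfl fun σ _ => ?_
        cases dnFun (i, σ) b with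
        | none => simp
        | some d =>
            simp only [Option.elim_some, Finset.mul_sum]
            exact Finset.sum_congr rfl fun z _ => by ring
      · rw [Finset.sum_comm]
        exact Finset.sum_congr rfl fun σ _ => Finset.sum_congr rfl fun z _ => by ring

/-! ### Norm bounds for the cumulants -/

/-- Words of a given length. -/
def words : ℕ → Finset (List ι)
  | 0 => {[]}
  | p + 1 => ((Finset.univ : Finset ι) ×ˢ words p).image fun q => q.1 :: q.2

lemma mem_words : ∀ {p : ℕ} {z : List ι}, z ∈ words p ↔ z.length = p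
  | 0, z => by simp [words]
  | p + 1, [] => by simp [words]
  | p + 1, a :: z => by simp [words, mem_words (p := p) (z := z)]

lemma sum_words_succ (p : ℕ) (F : List ι → ℝ) :
    ∑ z ∈ words (p + 1), F z = ∑ i, ∑ z ∈ words p, F (i :: z) := by
  rw [words, Finset.sum_image (fun a _ b _ h => by
    obtain ⟨h1, h2⟩ := List.cons.inj h; exact Prod.ext h1 h2), Finset.sum_product]

lemma sum_words_split : ∀ (l p : ℕ), l ≤ p → ∀ f h : List ι → ℝ,
    ∑ z ∈ words p, f (z.take l) * h (z.drop l) =
      (∑ u ∈ words l, f u) * ∑ w ∈ words (p - l), h w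
  | 0, p, _, f, h => by simp [words, Finset.mul_sum]
  | l + 1, 0, hl, _, _ => absurd hl (by omega)
  | l + 1, p + 1, hl, f, h => by
      rw [sum_words_succ, sum_words_succ, Nat.succ_sub_succ, Finset.sum_mul]
      refine Finset.sum_congr rfl fun i _ => ?_
      simpa using sum_words_split l p (by omega) (fun u => f (i :: u)) h

lemma sqrt_sum_add_sq_le {α : Type*} (s : Finset α) (f h : α → ℝ) :
    Real.sqrt (∑ a ∈ s, (f a + h a) ^ 2) ≤
      Real.sqrt (∑ a ∈ s, f a ^ 2) + Real.sqrt (∑ a ∈ s, h a ^ 2) := by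
  rw [Real.sqrt_le_iff]
  refine ⟨by positivity, ?_⟩
  have h1 := Real.sum_mul_le_sqrt_mul_sqrt s f h
  have h2 := Real.sq_sqrt (Finset.sum_nonneg fun a (_ : a ∈ s) => sq_nonneg (f a))
  have h3 := Real.sq_sqrt (Finset.sum_nonneg fun a (_ : a ∈ s) => sq_nonneg (h a))
  simp only [add_sq, Finset.sum_add_distrib, h2, h3]
  have : ∑ a ∈ s, 2 * f a * h a = 2 * ∑ a ∈ s, f a * h a := by
    rw [Finset.mul_sum]; exact Finset.sum_congr rfl fun a _ => by ring
  rw [this]; linarith

lemma sqrt_sum_sum_sq_le {α β : Type*} (s : Finset α) (t : Finset β) (g : β → α → ℝ) :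
    Real.sqrt (∑ a ∈ s, (∑ b ∈ t, g b a) ^ 2) ≤
      ∑ b ∈ t, Real.sqrt (∑ a ∈ s, g b a ^ 2) := by
  induction t using Finset.induction_on with
  | empty => simp
  | insert b t hb ih =>
      simp only [Finset.sum_insert hb]
      exact (sqrt_sum_add_sq_le s _ _).trans (by linarith)

/-- The `ℓ²` norm of the cumulants of order `p`. -/
def kn (p : ℕ) (g : G) : ℝ := Real.sqrt (∑ z ∈ words p, K y g z ^ 2)

lemma kn_sq (p : ℕ) (g : G) : kn y p g ^ 2 = ∑ z ∈ words p, K y g z ^ 2 :=
  Real.sq_sqrt (Finset.sum_nonneg fun _ _ => sq_nonneg _)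

/-- The combinatorial majorant. -/
def cbd (p : ℕ) : ℝ := 2 ^ p * (catalan p : ℝ)

lemma catalan_le_succ (p : ℕ) : catalan p ≤ catalan (p + 1) := by
  rw [catalan_succ]
  refine le_trans ?_ (Finset.single_le_sum (f := fun i : Fin p.succ => catalan i * catalan (p - i))
    (fun _ _ => Nat.zero_le _) (Finset.mem_univ 0))
  simp

lemma cbd_rec (p : ℕ) :
    cbd p + ∑ l ∈ Finset.range (p + 1), cbd l * cbd (p - l) ≤ cbd (p + 1) := by
  have hs : ∑ l ∈ Finset.range (p + 1), cbd l * cbd (p - l) =
      2 ^ p * (catalan (p + 1) : ℝ) := by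
    rw [catalan_succ]
    push_cast
    rw [Finset.mul_sum, ← Fin.sum_univ_eq_sum_range (fun l => cbd l * cbd (p - l))]
    refine Finset.sum_congr rfl fun l _ => ?_
    unfold cbd
    have : (2 : ℝ) ^ (l : ℕ) * 2 ^ (p - l) = 2 ^ p := by
      rw [← pow_add]; congr 1; omega
    rw [← this]; ring
  have h1 : (catalan p : ℝ) ≤ catalan (p + 1) := by exact_mod_cast catalan_le_succ p
  rw [hs]; unfold cbd; rw [pow_succ]
  have : (0 : ℝ) ≤ 2 ^ p := by positivity
  nlinarith

lemma cbd_le (p : ℕ) : cbd p ≤ 8 ^ p := by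
  have h : catalan p ≤ 4 ^ p := by
    rw [catalan_eq_centralBinom_div]
    refine (Nat.div_le_self _ _).trans ?_
    have h2 : Nat.choose (2 * p) p ≤ 2 ^ (2 * p) := Nat.choose_le_two_pow _ _
    rw [pow_mul] at h2
    exact h2
  have h' : (catalan p : ℝ) ≤ 4 ^ p := by exact_mod_cast h
  unfold cbd
  calc (2 : ℝ) ^ p * catalan p ≤ 2 ^ p * 4 ^ p := by gcongr
    _ = 8 ^ p := by rw [← mul_pow]; norm_num

variable (w : G → ℝ) (lam : ℝ)

lemma sqrt_sum_words_succ_le (p : ℕ) (g : G) :
    kn y (p + 1) g ≤ Real.sqrt (∑ i, kn y p (y i * g) ^ 2) +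
      ∑ l ∈ Finset.range (p + 1), Real.sqrt (∑ i, kn y l (y i) ^ 2) * kn y (p - l) g := by
  have e : kn y (p + 1) g = Real.sqrt (∑ q ∈ (Finset.univ : Finset ι) ×ˢ words p,
      (K y (y q.1 * g) q.2 + ∑ l ∈ Finset.range (p + 1),
        -(K y (y q.1) (q.2.take l) * K y g (q.2.drop l))) ^ 2) := by
    rw [kn, sum_words_succ, Finset.sum_product]
    congr 1
    refine Finset.sum_congr rfl fun i _ => Finset.sum_congr rfl fun z hz => ?_
    rw [K_cons, cv, mem_words.mp hz, Finset.sum_neg_distrib, sub_eq_add_neg]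
  rw [e]
  refine (sqrt_sum_add_sq_le _ _ _).trans (add_le_add (le_of_eq ?_) ?_)
  · rw [Finset.sum_product]; simp only [kn_sq]
  · refine (sqrt_sum_sum_sq_le _ _ _).trans (Finset.sum_le_sum fun l hl => le_of_eq ?_)
    rw [Finset.mem_range] at hl
    have hi : ∀ i, ∑ z ∈ words p, (-(K y (y i) (z.take l) * K y g (z.drop l))) ^ 2 =
        kn y l (y i) ^ 2 * kn y (p - l) g ^ 2 := by
      intro i
      rw [kn_sq, kn_sq, ← sum_words_split l p (by omega)]
      exact Finset.sum_congr rfl fun z _ => by ring
    rw [Finset.sum_product]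
    simp only [hi, ← Finset.sum_mul]
    rw [Real.sqrt_mul (Finset.sum_nonneg fun _ _ => sq_nonneg _),
      Real.sqrt_sq (show 0 ≤ kn y (p - l) g from Real.sqrt_nonneg _)]

variable {y w lam}

lemma kn_le (hw : ∀ g, 0 ≤ w g) (hw1 : w 1 = 1) (hlam : 0 ≤ lam)
    (hschur : ∀ g, ∑ i, w (y i * g) ≤ lam * w g) (p : ℕ) (g : G) :
    kn y p g ≤ Real.sqrt lam ^ p * cbd p * Real.sqrt (w g) := by
  induction p using Nat.strong_induction_on generalizing g with
  | h p ih =>
    cases p with
    | zero =>
        simp only [kn, words, Finset.sum_singleton, K_nil, cbd, catalan_zero, pow_zero, Nat.cast_one,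
          one_mul]
        apply Real.sqrt_le_sqrt
        by_cases h : g = 1
        · subst h; simp [hw1]
        · simpa [h] using hw g
    | succ p =>
        have hcb : ∀ l, 0 ≤ cbd l := fun l => by unfold cbd; positivity
        have hsum : ∀ l, l < p + 1 → ∀ g, Real.sqrt (∑ i, kn y l (y i * g) ^ 2) ≤
            Real.sqrt lam ^ (l + 1) * cbd l * Real.sqrt (w g) := by
          intro l hl g
          rw [Real.sqrt_le_iff]
          refine ⟨by have := hcb l; positivity, ?_⟩
          calc ∑ i, kn y l (y i * g) ^ 2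
              ≤ ∑ i, (Real.sqrt lam ^ l * cbd l) ^ 2 * w (y i * g) := by
                refine Finset.sum_le_sum fun i _ => ?_
                have h1 := ih l hl (y i * g)
                have h0 : 0 ≤ kn y l (y i * g) := Real.sqrt_nonneg _
                calc kn y l (y i * g) ^ 2 ≤
                      (Real.sqrt lam ^ l * cbd l * Real.sqrt (w (y i * g))) ^ 2 := by gcongr
                  _ = _ := by rw [mul_pow, Real.sq_sqrt (hw _)]
            _ ≤ (Real.sqrt lam ^ l * cbd l) ^ 2 * (lam * w g) := by
                rw [← Finset.mul_sum]; exact mul_le_mul_of_nonneg_left (hschur g) (sq_nonneg _)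
            _ = _ := by
                rw [mul_pow, mul_pow, mul_pow, Real.sq_sqrt (hw _), pow_succ (Real.sqrt lam),
                  mul_pow, Real.sq_sqrt hlam]
                ring
        refine (sqrt_sum_words_succ_le y p g).trans ?_
        have h1 := hsum p (Nat.lt_succ_self p) g
        have h2 : ∀ l ∈ Finset.range (p + 1),
            Real.sqrt (∑ i, kn y l (y i) ^ 2) * kn y (p - l) g ≤
              Real.sqrt lam ^ (p + 1) * Real.sqrt (w g) * (cbd l * cbd (p - l)) := by
          intro l hl
          rw [Finset.mem_range] at hl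
          have ha := hsum l hl 1
          simp only [mul_one, hw1, Real.sqrt_one] at ha
          have hb := ih (p - l) (by omega) g
          have hpow : Real.sqrt lam ^ (l + 1) * Real.sqrt lam ^ (p - l) =
              Real.sqrt lam ^ (p + 1) := by rw [← pow_add]; congr 1; omega
          calc _ ≤ (Real.sqrt lam ^ (l + 1) * cbd l) *
                (Real.sqrt lam ^ (p - l) * cbd (p - l) * Real.sqrt (w g)) :=
                mul_le_mul ha hb (Real.sqrt_nonneg _) (by have := hcb l; positivity)
            _ = _ := by rw [← hpow]; ring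
        have h3 := Finset.sum_le_sum h2
        rw [← Finset.mul_sum] at h3
        have h4 := mul_le_mul_of_nonneg_left (cbd_rec p)
          (by positivity : (0 : ℝ) ≤ Real.sqrt lam ^ (p + 1) * Real.sqrt (w g))
        nlinarith [h1, h3, h4]

lemma sum_kn_le (hw : ∀ g, 0 ≤ w g) (hw1 : w 1 = 1) (hlam : 0 < lam)
    (hschur : ∀ g, ∑ i, w (y i * g) ≤ lam * w g) (hne : ∀ i, y i ≠ 1)
    {t : ℝ} (ht : 128 * lam ≤ t) (M : ℕ) :
    ∑ i, ∑ p ∈ Finset.range M, kn y p (y i) ^ 2 / t ^ p ≤ lam := by
  have ht0 : 0 < t := by linarith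
  rw [Finset.sum_comm]
  cases M with
  | zero => simp [hlam.le]
  | succ M =>
      rw [Finset.sum_range_succ']
      have h0 : ∑ i, kn y 0 (y i) ^ 2 / t ^ 0 = 0 := by
        refine Finset.sum_eq_zero fun i _ => ?_
        simp [kn, words, K_nil, hne i]
      rw [h0, add_zero]
      have hterm : ∀ p, ∑ i, kn y (p + 1) (y i) ^ 2 / t ^ (p + 1) ≤ lam * (1 / 2) ^ (p + 1) := by
        intro p
        rw [← Finset.sum_div, div_le_iff₀ (by positivity)]
        calc ∑ i, kn y (p + 1) (y i) ^ 2
            ≤ ∑ i, (Real.sqrt lam ^ (p + 1) * cbd (p + 1)) ^ 2 * w (y i) := by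
              refine Finset.sum_le_sum fun i _ => ?_
              have h1 := kn_le hw hw1 hlam.le hschur (p + 1) (y i)
              have h2 : 0 ≤ kn y (p + 1) (y i) := Real.sqrt_nonneg _
              calc _ ≤ (Real.sqrt lam ^ (p + 1) * cbd (p + 1) * Real.sqrt (w (y i))) ^ 2 := by
                    gcongr
                _ = _ := by rw [mul_pow, Real.sq_sqrt (hw _)]
          _ ≤ (Real.sqrt lam ^ (p + 1) * 8 ^ (p + 1)) ^ 2 * lam := by
              rw [← Finset.mul_sum]
              have hsc := hschur 1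
              simp only [mul_one, hw1] at hsc
              have hcb : 0 ≤ cbd (p + 1) := by unfold cbd; positivity
              refine mul_le_mul ?_ hsc (Finset.sum_nonneg fun i _ => hw _) (sq_nonneg _)
              gcongr; exact cbd_le _
          _ = lam * (64 * lam) ^ (p + 1) := by
              rw [mul_pow, ← pow_mul, mul_comm (p + 1) 2, pow_mul, Real.sq_sqrt hlam.le,
                ← pow_mul, mul_comm (p + 1) 2, pow_mul, mul_pow]
              norm_num; ring
          _ ≤ lam * ((1 / 2) * t) ^ (p + 1) :=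
              mul_le_mul_of_nonneg_left
                (pow_le_pow_left₀ (by positivity) (by linarith) _) hlam.le
          _ = _ := by rw [mul_pow]; ring
      refine (Finset.sum_le_sum fun p _ => hterm p).trans ?_
      have hg : ∀ n, ∑ p ∈ Finset.range n, (1 / 2 : ℝ) ^ (p + 1) = 1 - (1 / 2) ^ n := by
        intro n
        induction n with
        | zero => simp
        | succ n ih => rw [Finset.sum_range_succ, ih]; ring
      rw [← Finset.mul_sum, hg]
      have : (0 : ℝ) ≤ (1 / 2) ^ M := by positivity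
      nlinarith

/-! ### Conjugate variables -/

variable (y)

/-- The closed span of the words. -/
def KX : Submodule ℂ (FH G (ι × Bool)) :=
  (Submodule.span ℂ (Set.range (wv y c))).topologicalClosure

instance : CompleteSpace (KX y c) :=
  (Submodule.isClosed_topologicalClosure _).completeSpace_coe

/-- The vector of the normalised noise. -/
def Zv (i : ι) : FH G (ι × Bool) :=
  ∑ σ, ((c i σ / vv c i : ℝ) : ℂ) • bv (1, [((i, σ), 1)])

lemma norm_Zv_sq (i : ι) (hv : 0 < vv c i) : ‖(Zv c i : FH G (ι × Bool))‖ ^ 2 = 1 / vv c i := by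
  have h : ⟪(Zv c i : FH G (ι × Bool)), Zv c i⟫_ℂ =
      ((∑ σ, (c i σ / vv c i) ^ 2 : ℝ) : ℂ) := by
    simp only [Zv, sum_inner, inner_sum, inner_smul_left, inner_smul_right, inner_bv_bv,
      Complex.conj_ofReal, Prod.mk.injEq, List.cons.injEq, and_true, true_and, mul_ite, mul_one,
      mul_zero, Finset.sum_ite_eq, Finset.sum_ite_eq', Finset.mem_univ, if_true]
    push_cast
    exact Finset.sum_congr rfl fun σ _ => by ring
  rw [inner_self_eq_norm_sq_to_K] at h
  have h' : ‖(Zv c i : FH G (ι × Bool))‖ ^ 2 = ∑ σ, (c i σ / vv c i) ^ 2 :=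
    Complex.ofReal_injective (by rw [Complex.ofReal_pow]; exact h)
  rw [h']
  simp only [div_pow, ← Finset.sum_div, show ∑ σ, c i σ ^ 2 = vv c i from rfl]
  field_simp

lemma inner_Zv_wv (i : ι) (hv : 0 < vv c i) (Q : List ι) :
    ⟪Zv c i, wv y c Q⟫_ℂ = ∑ l : Fin Q.length, if Q.get l = i then
      wv y c (Q.take l.val) (1, []) * wv y c (Q.drop (l.val + 1)) (1, []) else 0 := by
  simp only [Zv, sum_inner, inner_smul_left, inner_bv_left, Complex.conj_ofReal]
  have : ∀ σ, wv y c Q (1, [((i, σ), 1)]) = wv y c Q (snoc (1, []) ((i, σ), 1)) := fun σ => rfl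
  rw [Finset.sum_congr rfl fun σ _ => by rw [this σ, wv, wordVec_snoc, Finset.mul_sum]]
  rw [Finset.sum_comm]
  simp only [wv]
  refine Finset.sum_congr rfl fun l _ => ?_
  by_cases h : Q.get l = i
  · rw [if_pos h]
    simp only [coefC, h, if_true]
    simp only [← mul_assoc, ← Complex.ofReal_mul, ← Finset.sum_mul, ← Complex.ofReal_sum]
    have : ∑ σ, c i σ / vv c i * c i σ = 1 := by
      simp only [div_mul_eq_mul_div, ← sq, ← Finset.sum_div,
        show ∑ σ, c i σ ^ 2 = vv c i from rfl]
      exact div_self hv.ne'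
    rw [this]; simp
  · rw [if_neg h]
    rw [List.get_eq_getElem] at h
    simp [coefC, Ne.symm h]

/-- The candidate conjugate variable. -/
def xi (i : ι) : FH G (ι × Bool) := (KX y c).starProjection (Zv c i)

lemma inner_xi_of_mem (i : ι) {ψ : FH G (ι × Bool)} (h : ψ ∈ KX y c) :
    ⟪xi y c i, ψ⟫_ℂ = ⟪Zv c i, ψ⟫_ℂ := by
  rw [xi, Submodule.inner_starProjection_left_eq_right,
    Submodule.starProjection_eq_self_iff.mpr h]

lemma norm_xi_sq_le (i : ι) (hv : 0 < vv c i) : ‖xi y c i‖ ^ 2 ≤ 1 / vv c i := by
  have h := (KX y c).norm_sq_eq_add_norm_sq_starProjection (Zv c i)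
  rw [norm_Zv_sq c i hv] at h
  rw [xi]; nlinarith [sq_nonneg ‖(KX y c)ᗮ.starProjection (Zv c i)‖]

/-- The conditional expectation of a translation. -/
def condE (i : ι) : FH G (ι × Bool) := (KX y c).starProjection (bv (y i, []))

lemma wv_singleton (i : ι) (hv : 0 < vv c i) :
    wv y c [i] = bv (y i, []) + (vv c i : ℂ) • Zv c i := by
  have h1 : wv y c [i] = letter (fun _ => (1 : ℂ)) y (coefC c) i vac := by simp [wv, wordVec]
  rw [h1, letter]
  simp only [add_apply, smul_apply, sum_apply, one_smul, vac, lmul_bv, mul_one, semi_bv, dnFun,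
    Option.elim_none, add_zero]
  congr 1
  rw [Fintype.sum_prod_type, Finset.sum_eq_single i]
  · simp only [Zv, Finset.smul_sum, smul_smul, coefC, if_true]
    refine Finset.sum_congr rfl fun σ _ => ?_
    rw [← Complex.ofReal_mul, mul_div_cancel₀ _ hv.ne']
  · intro j _ hj; simp [coefC, hj]
  · simp

lemma norm_xi_sq (i : ι) (hv : 0 < vv c i) :
    ‖xi y c i‖ ^ 2 = (vv c i - 1 + ‖condE y c i‖ ^ 2) / vv c i ^ 2 := by
  have hmem : wv y c [i] ∈ KX y c :=
    Submodule.le_topologicalClosure _ (Submodule.subset_span ⟨[i], rfl⟩)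
  set v : ℂ := (vv c i : ℂ) with hvdef
  set Y : FH G (ι × Bool) := bv (y i, [])
  set P := (KX y c).starProjection
  set Q := (KX y c)ᗮ.starProjection
  have hz : Q (wv y c [i]) = 0 := by
    simp only [Q, Submodule.starProjection_orthogonal_val]
    rw [Submodule.starProjection_eq_self_iff.mpr hmem, sub_self]
  rw [wv_singleton y c i hv, map_add, map_smul] at hz
  have h1 := (KX y c).norm_sq_eq_add_norm_sq_starProjection (v • Zv c i)
  have h2 := (KX y c).norm_sq_eq_add_norm_sq_starProjection Y
  have hQ : ‖Q (v • Zv c i)‖ = ‖Q Y‖ := by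
    rw [map_smul, eq_neg_of_add_eq_zero_right hz, norm_neg]
  simp only [norm_smul, mul_pow, map_smul] at h1
  rw [map_smul] at hQ
  rw [norm_smul] at hQ
  have hnv : ‖v‖ = vv c i := by simp [hvdef, abs_of_pos hv]
  rw [hnv] at h1 hQ
  rw [norm_Zv_sq c i hv] at h1
  rw [norm_bv] at h2
  have hQ2 : vv c i ^ 2 * ‖Q (Zv c i)‖ ^ 2 = ‖Q Y‖ ^ 2 := by rw [← mul_pow, hQ]
  rw [eq_div_iff (by positivity)]
  simp only [xi, condE]
  field_simp at h1
  nlinarith [h1, h2, hQ2]

/-- The all-`true` basis vector of a word. -/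
def eTrue (z : List ι) : Bas G (ι × Bool) := (1, z.map fun i => ((i, true), (1 : G)))

lemma eTrue_injective : Function.Injective (eTrue : List ι → Bas G (ι × Bool)) := by
  intro a b h
  have := (Prod.mk.inj h).2
  exact List.map_injective_iff.mpr (fun i j hij => (Prod.mk.inj (Prod.mk.inj hij).1).1) this

variable {s : ℝ}

lemma Kext_eTrue (hs : ∀ i, c i true = s) (z z' : List ι) :
    Kext y c 1 ((z.map fun i => ((i, true), (1 : G)))) z' =
      if z' = z then s ^ z.length else 0 := by
  induction z generalizing z' with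
  | nil => simp [Kext, K_one]
  | cons a z ih =>
      simp only [List.map_cons, Kext, hs]
      rw [show K y 1 = fun u => if u = [] then 1 else 0 from funext (K_one y), cv_delta]
      cases z' with
      | nil => simp [hd]
      | cons b w =>
          simp only [hd, ih, List.cons.injEq, List.length_cons]
          by_cases hb : b = a
          · by_cases hw : w = z <;> simp [hb, hw, pow_succ, mul_comm]
          · simp [hb]

/-- The reconstruction of the coefficient at `(g, [])` from the all-`true` coefficients. -/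
def Recon (g : G) (s : ℝ) (ψ : FH G (ι × Bool)) : Prop :=
  ∃ M, ∀ M', M ≤ M' → ψ (g, []) =
    ∑ p ∈ Finset.range M', ∑ z ∈ words p, ((K y g z / s ^ p : ℝ) : ℂ) * ψ (eTrue z)

lemma recon_span (hy : ∀ i, y i * y i = 1) (hs : ∀ i, c i true = s) (hs0 : s ≠ 0) (g : G)
    {ψ : FH G (ι × Bool)} (h : ψ ∈ Submodule.span ℂ (Set.range (wv y c))) : Recon y g s ψ := by
  induction h using Submodule.span_induction with
  | mem x hx =>
      obtain ⟨Q, rfl⟩ := hx
      refine ⟨(phi y c Q).support.sup List.length + 1, fun M' hM => ?_⟩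
      have he : ∀ z : List ι, wv y c Q (eTrue z) = ((s ^ z.length * phi y c Q z : ℝ) : ℂ) := by
        intro z
        rw [wv_apply y c hy]
        congr 1
        simp only [eTrue, Finsupp.linearCombination_apply, Finsupp.sum, Kext_eTrue y c hs,
          smul_eq_mul, mul_ite, mul_zero, Finset.sum_ite_eq', Finsupp.mem_support_iff]
        by_cases h0 : phi y c Q z = 0 <;> simp [h0, mul_comm]
      rw [wv_apply y c hy]
      simp only [he, Kext]
      norm_cast
      have hbu : (phi y c Q).support ⊆
          (Finset.range M').biUnion (fun p => words (ι := ι) p) := by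
        intro z hz
        rw [Finset.mem_biUnion]
        exact ⟨z.length, Finset.mem_range.mpr (by
          have := Finset.le_sup (f := List.length) hz; omega), mem_words.mpr rfl⟩
      have hdisj : Set.PairwiseDisjoint (↑(Finset.range M')) (fun p => words (ι := ι) p) := by
        intro p _ q _ hpq
        simp only [Finset.disjoint_left]
        intro z hp hq
        exact hpq ((mem_words.mp hp).symm.trans (mem_words.mp hq))
      calc Finsupp.linearCombination ℝ (K y g) (phi y c Q)
          = ∑ z ∈ (Finset.range M').biUnion (fun p => words p), phi y c Q z * K y g z := by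
            rw [Finsupp.linearCombination_apply, Finsupp.sum]
            exact Finset.sum_subset hbu fun z _ hz => by
              simp [Finsupp.notMem_support_iff.mp hz]
        _ = _ := by
            rw [Finset.sum_biUnion hdisj]
            refine Finset.sum_congr rfl fun p _ => Finset.sum_congr rfl fun z hz => ?_
            rw [mem_words.mp hz]
            field_simp
  | zero => exact ⟨0, fun M' _ => by simp⟩
  | add a b _ _ ha hb =>
      obtain ⟨M₁, h₁⟩ := ha
      obtain ⟨M₂, h₂⟩ := hb
      exact ⟨max M₁ M₂, fun M' hM => by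
        simp only [lp.coeFn_add, Pi.add_apply, mul_add, Finset.sum_add_distrib]
        rw [h₁ M' (le_of_max_le_left hM), h₂ M' (le_of_max_le_right hM)]⟩
  | smul r a _ ha =>
      obtain ⟨M₁, h₁⟩ := ha
      exact ⟨M₁, fun M' hM => by
        simp only [lp.coeFn_smul, Pi.smul_apply, smul_eq_mul, Finset.mul_sum]
        rw [h₁ M' hM, Finset.mul_sum]
        exact Finset.sum_congr rfl fun p _ => by
          rw [Finset.mul_sum]; exact Finset.sum_congr rfl fun z _ => by ring⟩

lemma norm_coeff_sq_le (g : G) {s : ℝ} {ψ : FH G (ι × Bool)} {M' : ℕ}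
    (h : ψ (g, []) =
      ∑ p ∈ Finset.range M', ∑ z ∈ words p, ((K y g z / s ^ p : ℝ) : ℂ) * ψ (eTrue z)) :
    ‖ψ (g, [])‖ ≤
      Real.sqrt (∑ p ∈ Finset.range M', kn y p g ^ 2 / (s ^ 2) ^ p) * ‖ψ‖ := by
  rw [h]
  set S := (Finset.range M').sigma fun p => words (ι := ι) p with hS
  have hsum : ∑ p ∈ Finset.range M', ∑ z ∈ words p, ((K y g z / s ^ p : ℝ) : ℂ) * ψ (eTrue z) =
      ∑ q ∈ S, ((K y g q.2 / s ^ q.1 : ℝ) : ℂ) * ψ (eTrue q.2) := by
    rw [hS, Finset.sum_sigma]
  rw [hsum]
  refine (norm_sum_le _ _).trans ?_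
  simp only [norm_mul, Complex.norm_real]
  refine (Real.sum_mul_le_sqrt_mul_sqrt S _ _).trans ?_
  refine mul_le_mul (le_of_eq ?_) ?_ (Real.sqrt_nonneg _) (Real.sqrt_nonneg _)
  · congr 1
    rw [hS, Finset.sum_sigma]
    refine Finset.sum_congr rfl fun p _ => ?_
    rw [kn_sq, Finset.sum_div]
    refine Finset.sum_congr rfl fun z _ => ?_
    rw [Real.norm_eq_abs, sq_abs, div_pow, ← pow_mul, ← pow_mul, mul_comm p 2]
  · rw [Real.sqrt_le_iff]
    refine ⟨norm_nonneg _, ?_⟩
    have hinj : Set.InjOn (fun q : (Σ _ : ℕ, List ι) => (eTrue q.2 : Bas G (ι × Bool))) ↑S := by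
      rintro ⟨p, z⟩ hp ⟨p', z'⟩ hp' he
      simp only [hS, Finset.coe_sigma, Set.mem_sigma_iff, Finset.mem_coe, mem_words] at hp hp'
      have := eTrue_injective he
      simp only at this
      subst this
      obtain rfl : p = p' := hp.2.symm.trans hp'.2
      rfl
    rw [← Finset.sum_image (f := fun b => ‖ψ b‖ ^ 2) hinj]
    have := lp.sum_rpow_le_norm_rpow (p := 2) (by norm_num) ψ
      (S.image fun q => eTrue q.2)
    simpa using this

variable {y c}

/-- **The free mean square error bound.** -/
theorem sum_norm_condE_sq_le (hy : ∀ i, y i * y i = 1) (hne : ∀ i, y i ≠ 1)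
    (hw : ∀ g, 0 ≤ w g) (hw1 : w 1 = 1) (hlam : 0 < lam)
    (hschur : ∀ g, ∑ i, w (y i * g) ≤ lam * w g)
    (hs : ∀ i, c i true = s) (hs0 : s ≠ 0) (ht : 128 * lam ≤ s ^ 2) :
    ∑ i, ‖condE y c i‖ ^ 2 ≤ lam := by
  set C : Set (ι → FH G (ι × Bool)) :=
    {ψ | ‖∑ i, ψ i (y i, [])‖ ≤ Real.sqrt lam * Real.sqrt (∑ i, ‖ψ i‖ ^ 2)} with hC
  have hclosed : IsClosed C := by
    refine isClosed_le ?_ ?_
    · refine continuous_norm.comp (continuous_finsetSum _ fun i _ => ?_)
      have : Continuous fun ψ : ι → FH G (ι × Bool) =>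
          ⟪(bv (y i, []) : FH G (ι × Bool)), ψ i⟫_ℂ :=
        continuous_const.inner (continuous_apply i)
      simpa [inner_bv_left] using this
    · fun_prop
  have hspan : Set.pi Set.univ
      (fun _ : ι => (Submodule.span ℂ (Set.range (wv y c)) : Set (FH G (ι × Bool)))) ⊆ C := by
    intro ψ hψ
    choose M hM using fun i => recon_span y c hy hs hs0 (y i) (hψ i trivial)
    set M' := Finset.univ.sup M with hM'
    have hi : ∀ i, ‖ψ i (y i, [])‖ ≤
        Real.sqrt (∑ p ∈ Finset.range M', kn y p (y i) ^ 2 / (s ^ 2) ^ p) * ‖ψ i‖ := fun i =>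
      norm_coeff_sq_le y (y i) (hM i M' (Finset.le_sup (Finset.mem_univ i)))
    simp only [hC, Set.mem_setOf_eq]
    calc ‖∑ i, ψ i (y i, [])‖ ≤ ∑ i, ‖ψ i (y i, [])‖ := norm_sum_le _ _
      _ ≤ ∑ i, Real.sqrt (∑ p ∈ Finset.range M', kn y p (y i) ^ 2 / (s ^ 2) ^ p) * ‖ψ i‖ :=
          Finset.sum_le_sum fun i _ => hi i
      _ ≤ Real.sqrt (∑ i, (Real.sqrt (∑ p ∈ Finset.range M',
            kn y p (y i) ^ 2 / (s ^ 2) ^ p)) ^ 2) * Real.sqrt (∑ i, ‖ψ i‖ ^ 2) :=
          Real.sum_mul_le_sqrt_mul_sqrt _ _ _
      _ ≤ _ := by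
          refine mul_le_mul_of_nonneg_right ?_ (Real.sqrt_nonneg _)
          apply Real.sqrt_le_sqrt
          have : ∀ i, (Real.sqrt (∑ p ∈ Finset.range M', kn y p (y i) ^ 2 / (s ^ 2) ^ p)) ^ 2 =
              ∑ p ∈ Finset.range M', kn y p (y i) ^ 2 / (s ^ 2) ^ p :=
            fun i => Real.sq_sqrt (Finset.sum_nonneg fun p _ => by positivity)
          simp only [this]
          exact sum_kn_le hw hw1 hlam hschur hne ht M'
  have hmem : (fun i => condE y c i) ∈ C := by
    refine (hclosed.closure_subset_iff.mpr hspan) ?_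
    rw [closure_pi_set]
    intro i _
    exact (KX y c).starProjection_apply_mem _
  have hval : ∀ i, condE y c i (y i, []) = ((‖condE y c i‖ ^ 2 : ℝ) : ℂ) := by
    intro i
    rw [← inner_bv_left (y i, []) (condE y c i)]
    have hfix : (KX y c).starProjection (condE y c i) = condE y c i :=
      Submodule.starProjection_eq_self_iff.mpr ((KX y c).starProjection_apply_mem _)
    conv_lhs => rw [← hfix, ← Submodule.inner_starProjection_left_eq_right]
    rw [← condE, inner_self_eq_norm_sq_to_K]
    norm_cast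
  simp only [hC, Set.mem_setOf_eq, hval, ← Complex.ofReal_sum, Complex.norm_real] at hmem
  set E := ∑ i, ‖condE y c i‖ ^ 2 with hE
  have hE0 : 0 ≤ E := Finset.sum_nonneg fun i _ => sq_nonneg _
  rw [Real.norm_eq_abs, abs_of_nonneg hE0] at hmem
  rcases hE0.eq_or_lt with h | h
  · rw [← h]; exact hlam.le
  · have h2 : Real.sqrt E ≤ Real.sqrt lam := by
      have hpos : 0 < Real.sqrt E := Real.sqrt_pos.mpr h
      nlinarith [Real.mul_self_sqrt hE0]
    exact (Real.sqrt_le_sqrt_iff hlam.le).mp h2

end Vale.Agent.P087.Cumulant
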