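import Mathlib
import Vale.Agent.P087.Defs
import Vale.Agent.P087.Fock

/-!
In the Fock model the operators `semi (i, true)` are semicircular, free among themselves and free
from the operators `lmul (y i) + r_i • semi (i, false)`.
-/

noncomputable section

namespace Vale.Agent.P087.Free

open Fock
open scoped InnerProductSpace Classical

variable {G : Type*} [Group G] {J : Type*}

lemma vecState_vac (T : FH G J →L[ℂ] FH G J) : vecState (vac : FH G J) T = T vac (1, []) := by
  simp [vecState, vac, inner_bv_left]

lemma semi_isSemicircular [Fintype J] (j : J) :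
    IsSemicircular (vac : FH G J) (semi j : FH G J →L[ℂ] FH G J) := by
  set al : Unit → ℂ := fun _ => 0
  set y : Unit → G := fun _ => 1
  set cf : Unit → J → ℂ := fun _ k => if k = j then 1 else 0
  have hl : letter al y cf () = (semi j : FH G J →L[ℂ] FH G J) := by
    simp [letter, al, cf]
  have hw : ∀ p, (semi j ^ p : FH G J →L[ℂ] FH G J) vac = wordVec al y cf (List.replicate p ()) := by
    intro p; simp [wordVec, hl, List.prod_replicate]
  have hrec : ∀ p, wordVec al y cf (List.replicate (p + 1) ()) ((1, []) : Bas G J) =
      ∑ l : Fin p, wordVec al y cf (List.replicate l.val ()) ((1, []) : Bas G J) *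
        wordVec al y cf (List.replicate (p - 1 - l.val) ()) ((1, []) : Bas G J) := by
    intro p
    rw [List.replicate_succ, wordVec_cons, hl, semi_apply_nil,
      show (((1 : G), [(j, (1 : G))]) : Bas G J) = snoc (1, []) (j, 1) from rfl, wordVec_snoc]
    refine Fintype.sum_equiv (finCongr (by simp)) _ _ fun l => ?_
    simp only [cf, if_true, one_mul, List.take_replicate, List.drop_replicate, finCongr_apply,
      Fin.val_cast]
    have := l.isLt
    simp only [List.length_replicate] at this
    rw [min_eq_left (le_of_lt this), Nat.sub_sub, Nat.add_comm 1 l.val]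
  intro p
  rw [vecState_vac, hw]
  induction p using Nat.strong_induction_on with
  | h p ih =>
    cases p with
    | zero => simp [wordVec, vac, bv_apply]
    | succ p =>
        rw [hrec]
        have hterm : ∀ l : Fin p, wordVec al y cf (List.replicate l.val ()) ((1, []) : Bas G J) *
            wordVec al y cf (List.replicate (p - 1 - l.val) ()) ((1, []) : Bas G J) =
            (if Even l.val then (catalan (l.val / 2) : ℂ) else 0) *
              (if Even (p - 1 - l.val) then (catalan ((p - 1 - l.val) / 2) : ℂ) else 0) := by
          intro l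
          rw [ih _ (by omega), ih _ (by omega)]
        simp only [hterm]
        by_cases hp : Even (p + 1)
        · rw [if_pos hp]
          obtain ⟨q, hq⟩ := hp
          obtain ⟨q, rfl⟩ : ∃ r, q = r + 1 := ⟨q - 1, by omega⟩
          obtain rfl : p = 2 * q + 1 := by omega
          rw [show (2 * q + 1 + 1) / 2 = q + 1 by omega, catalan_succ, Nat.cast_sum,
            Fin.sum_univ_eq_sum_range (fun l => (if Even l then (catalan (l / 2) : ℂ) else 0) *
              (if Even (2 * q + 1 - 1 - l) then (catalan ((2 * q + 1 - 1 - l) / 2) : ℂ) else 0)),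
            Fin.sum_univ_eq_sum_range (fun i => ((catalan i * catalan (q - i) : ℕ) : ℂ))]
          symm
          refine Finset.sum_bij_ne_zero (fun i _ _ => 2 * i) ?_ ?_ ?_ ?_
          · intro i hi _; simp at hi ⊢; omega
          · intro a _ _ b _ _ h; omega
          · intro b hb hne
            rw [Finset.mem_range] at hb
            have he : Even b := by
              by_contra he; simp [he] at hne
            obtain ⟨r, rfl⟩ := he
            refine ⟨r, Finset.mem_range.mpr (by omega), ?_, by omega⟩
            intro h0
            apply hne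
            rw [if_pos ⟨r, rfl⟩, show (r + r) / 2 = r by omega,
              show 2 * q + 1 - 1 - (r + r) = 2 * (q - r) by omega, if_pos (even_two_mul _),
              show 2 * (q - r) / 2 = q - r by omega]
            exact_mod_cast h0
          · intro i hi _
            rw [Finset.mem_range] at hi
            rw [if_pos (even_two_mul _), show 2 * q + 1 - 1 - 2 * i = 2 * (q - i) by omega,
              if_pos (even_two_mul _), show 2 * i / 2 = i by omega,
              show 2 * (q - i) / 2 = q - i by omega]
            push_cast; ring
        · rw [if_neg hp]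
          refine Finset.sum_eq_zero fun l _ => ?_
          by_cases h1 : Even l.val
          · rw [if_neg (show ¬ Even (p - 1 - l.val) from fun h2 => hp ?_), mul_zero]
            have := l.isLt
            obtain ⟨a, ha⟩ := h1
            obtain ⟨b, hb⟩ := h2
            exact ⟨a + b + 1, by omega⟩
          · rw [if_neg h1, zero_mul]

/-! ### Concatenation -/

def catL : G → List (J × G) → Bas G J → Bas G J
  | g, [], b => (g * b.1, b.2)
  | g, (k, h) :: L, b => (g, (k, (catL h L b).1) :: (catL h L b).2)

def cat (c b : Bas G J) : Bas G J := catL c.1 c.2 b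

@[simp] lemma cat_nil (g : G) (b : Bas G J) : cat (g, []) b = (g * b.1, b.2) := rfl

@[simp] lemma cat_cons (g : G) (k : J) (h : G) (L : List (J × G)) (b : Bas G J) :
    cat (g, (k, h) :: L) b = (g, (k, (cat (h, L) b).1) :: (cat (h, L) b).2) := rfl

@[simp] lemma cat_vac (c : Bas G J) : cat c (1, []) = c := by
  obtain ⟨g, L⟩ := c
  induction L generalizing g with
  | nil => simp
  | cons p L ih => obtain ⟨k, h⟩ := p; simp [ih]

variable {ι : Type*}

/-- Basis vectors of the subspace generated by one of the algebras from the vacuum. -/
def Supp : Option ι → Bas G (ι × Bool) → Prop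
  | none, c => ∀ p ∈ c.2, p.1.2 = false
  | some i, c => c.1 = 1 ∧ ∀ p ∈ c.2, p.1 = (i, true) ∧ p.2 = 1

/-- Admissible tails. -/
def TK : Option ι → Bas G (ι × Bool) → Prop
  | none, b => b.1 = 1 ∧ ∀ i, b.2.head?.map Prod.fst ≠ some (i, false)
  | some i, b => ¬(b.1 = 1 ∧ b.2.head?.map Prod.fst = some (i, true))

lemma TK_vac (k : Option ι) : TK k ((1, []) : Bas G (ι × Bool)) := by
  cases k <;> simp [TK]

lemma Supp_vac (k : Option ι) : Supp k ((1, []) : Bas G (ι × Bool)) := by
  cases k <;> simp [Supp]

lemma TK_of_not {k k' : Option ι} (hk : k ≠ k') {b : Bas G (ι × Bool)} (h : ¬ TK k' b) :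
    TK k b := by
  cases k with
  | none =>
      cases k' with
      | none => exact absurd rfl hk
      | some i =>
          simp only [TK, not_not] at h ⊢
          exact ⟨h.1, fun j => by rw [h.2]; simp⟩
  | some i =>
      cases k' with
      | none =>
          simp only [TK] at h ⊢
          intro hb
          exact h ⟨hb.1, fun j => by rw [hb.2]; simp⟩
      | some i' =>
          simp only [TK, not_not] at h ⊢
          intro hb
          exact hk (by simpa using hb.2.symm.trans h.2)

lemma not_TK_cat {k : Option ι} {d b : Bas G (ι × Bool)} (hd : Supp k d) (hne : d ≠ (1, []))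
    (hb : TK k b) : ¬ TK k (cat d b) := by
  obtain ⟨g, L⟩ := d
  cases k with
  | none =>
      cases L with
      | nil =>
          have hg : g ≠ 1 := fun h => hne (by simp [h])
          simp [TK, hb.1, hg]
      | cons p L =>
          obtain ⟨⟨i, σ⟩, h⟩ := p
          have : σ = false := hd ((i, σ), h) List.mem_cons_self
          subst this
          simp only [TK, cat_cons, not_and]
          intro _ hall
          exact hall i rfl
  | some i =>
      obtain ⟨hg, hL⟩ := hd
      simp only at hg
      subst hg
      cases L with
      | nil => exact absurd rfl hne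
      | cons p L =>
          obtain ⟨j, h⟩ := p
          have hj := (hL (j, h) List.mem_cons_self).1
          simp only at hj
          subst hj
          simp [TK]

/-- The intertwining property. -/
def Intertwine (k : Option ι) (a : FH G (ι × Bool) →L[ℂ] FH G (ι × Bool)) : Prop :=
  ∀ c : Bas G (ι × Bool), Supp k c → ∃ x : Bas G (ι × Bool) →₀ ℂ, (∀ d ∈ x.support, Supp k d) ∧
    ∀ b, TK k b → a (bv (cat c b)) = Finsupp.linearCombination ℂ (fun d => bv (cat d b)) x

lemma intertwine_algebraMap (k : Option ι) (r : ℂ) :
    Intertwine (G := G) k (algebraMap ℂ (FH G (ι × Bool) →L[ℂ] FH G (ι × Bool)) r) := by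
  intro c hc
  refine ⟨Finsupp.single c r, fun d hd => ?_, fun b _ => ?_⟩
  · have := Finsupp.support_single_subset hd
    simp only [Finset.mem_singleton] at this
    exact this ▸ hc
  · simp [Algebra.algebraMap_eq_smul_one]

lemma intertwine_add {k : Option ι} {a a' : FH G (ι × Bool) →L[ℂ] FH G (ι × Bool)}
    (ha : Intertwine k a) (ha' : Intertwine k a') : Intertwine k (a + a') := by
  intro c hc
  obtain ⟨x, hx, hxa⟩ := ha c hc
  obtain ⟨x', hx', hxa'⟩ := ha' c hc
  refine ⟨x + x', fun d hd => ?_, fun b hb => by simp [map_add, hxa b hb, hxa' b hb]⟩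
  rcases Finset.mem_union.mp (Finsupp.support_add hd) with h | h
  · exact hx d h
  · exact hx' d h

lemma intertwine_smul {k : Option ι} {a : FH G (ι × Bool) →L[ℂ] FH G (ι × Bool)} (r : ℂ)
    (ha : Intertwine k a) : Intertwine k (r • a) := by
  intro c hc
  obtain ⟨x, hx, hxa⟩ := ha c hc
  exact ⟨r • x, fun d hd => hx d (Finsupp.support_smul hd), fun b hb => by
    simp [hxa b hb]⟩

lemma intertwine_mul {k : Option ι} {a a' : FH G (ι × Bool) →L[ℂ] FH G (ι × Bool)}
    (ha : Intertwine k a) (ha' : Intertwine k a') : Intertwine k (a * a') := by
  intro c hc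
  obtain ⟨x, hx, hxa⟩ := ha' c hc
  choose! z hz hza using ha
  refine ⟨Finsupp.linearCombination ℂ z x, fun d hd => ?_, fun b hb => ?_⟩
  · rw [Finsupp.linearCombination_apply] at hd
    obtain ⟨e, he, hde⟩ := Finset.mem_biUnion.mp (Finsupp.support_sum hd)
    exact hz e (hx e he) d (Finsupp.support_smul hde)
  · rw [mul_apply_eq_comp, hxa b hb, Finsupp.linearCombination_apply,
      Finsupp.linearCombination_apply ℂ (v := z) x, Finsupp.sum, Finsupp.sum, map_sum, map_sum]
    refine Finset.sum_congr rfl fun e he => ?_
    rw [map_smul, map_smul, hza e (hx e he) b hb]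

lemma intertwine_lmul (g : G) : Intertwine (G := G) (none : Option ι) (lmul g) := by
  intro c hc
  refine ⟨Finsupp.single (g * c.1, c.2) 1, fun d hd => ?_, fun b _ => ?_⟩
  · have := Finsupp.support_single_subset hd
    simp only [Finset.mem_singleton] at this
    subst this; exact hc
  · obtain ⟨c1, L⟩ := c
    cases L with
    | nil => simp [lmul_bv, mul_assoc]
    | cons p L => obtain ⟨k, h⟩ := p; simp [lmul_bv]

lemma intertwine_semi (k : Option ι) (j : ι × Bool)
    (hj : ∀ c : Bas G (ι × Bool), Supp k c →
      Supp k ((1 : G), (j, c.1) :: c.2) ∧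
      (∀ d, dnFun j c = some d → Supp k d) ∧
      (c.2 = [] → ∀ b, TK k b → dnFun j (cat c b) = none)) :
    Intertwine (G := G) k (semi j) := by
  intro c hc
  obtain ⟨h1, h2, h3⟩ := hj c hc
  refine ⟨Finsupp.single ((1 : G), (j, c.1) :: c.2) 1 +
    (dnFun j c).elim 0 (fun d => Finsupp.single d 1), fun d hd => ?_, fun b hb => ?_⟩
  · rcases Finset.mem_union.mp (Finsupp.support_add hd) with h | h
    · have := Finsupp.support_single_subset h
      simp only [Finset.mem_singleton] at this
      exact this ▸ h1
    · cases hdn : dnFun j c with
      | none => simp [hdn] at h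
      | some e =>
          rw [hdn] at h
          have := Finsupp.support_single_subset h
          simp only [Finset.mem_singleton] at this
          exact this ▸ h2 e hdn
  · obtain ⟨c1, L⟩ := c
    rw [semi_bv, map_add, Finsupp.linearCombination_single, one_smul, cat_cons]
    congr 1
    cases L with
    | nil => rw [h3 rfl b hb]; simp [dnFun]
    | cons p L =>
        obtain ⟨l, h⟩ := p
        simp only [cat_cons, dnFun]
        split_ifs <;> simp

lemma intertwine_semi_false (i : ι) :
    Intertwine (G := G) (none : Option ι) (semi (i, false)) := by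
  refine intertwine_semi none _ fun c hc => ⟨?_, ?_, ?_⟩
  · intro p hp
    simp only [List.mem_cons] at hp
    rcases hp with rfl | hp
    · rfl
    · exact hc p hp
  · intro d hd
    obtain ⟨c1, L⟩ := c
    cases L with
    | nil => simp [dnFun] at hd
    | cons p L =>
        obtain ⟨l, h⟩ := p
        simp only [dnFun] at hd
        split_ifs at hd
        simp only [Option.some.injEq] at hd
        subst hd
        exact fun q hq => hc q (List.mem_cons_of_mem _ hq)
  · intro hL b hb
    obtain ⟨c1, L⟩ := c
    simp only at hL
    subst hL
    obtain ⟨b1, M⟩ := b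
    cases M with
    | nil => simp [dnFun]
    | cons q M =>
        obtain ⟨m, e⟩ := q
        simp only [cat_nil, dnFun]
        rw [if_neg]
        rintro ⟨-, rfl⟩
        exact hb.2 i rfl

lemma intertwine_semi_true (i : ι) : Intertwine (G := G) (some i) (semi (i, true)) := by
  refine intertwine_semi (some i) _ fun c hc => ⟨⟨rfl, ?_⟩, ?_, ?_⟩
  · intro p hp
    simp only [List.mem_cons] at hp
    rcases hp with rfl | hp
    · exact ⟨rfl, hc.1⟩
    · exact hc.2 p hp
  · intro d hd
    obtain ⟨c1, L⟩ := c
    cases L with
    | nil => simp [dnFun] at hd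
    | cons p L =>
        obtain ⟨l, h⟩ := p
        simp only [dnFun] at hd
        split_ifs at hd
        simp only [Option.some.injEq] at hd
        subst hd
        exact ⟨(hc.2 _ List.mem_cons_self).2, fun q hq => hc.2 q (List.mem_cons_of_mem _ hq)⟩
  · intro hL b hb
    obtain ⟨c1, L⟩ := c
    simp only at hL
    subst hL
    obtain ⟨b1, M⟩ := b
    cases M with
    | nil => simp [dnFun]
    | cons q M =>
        obtain ⟨m, e⟩ := q
        have hc1 : c1 = 1 := hc.1
        simp only [cat_nil, dnFun]
        rw [if_neg]
        rintro ⟨hb1, rfl⟩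
        exact hb ⟨by simpa [hc1] using hb1, rfl⟩

variable {N : ℕ}

/-- `u(y_i) + r_i S'_i`. -/
def Xop (y : Fin N → G) (r : Fin N → ℂ) (i : Fin N) :
    FH G (Fin N × Bool) →L[ℂ] FH G (Fin N × Bool) := lmul (y i) + r i • semi (i, false)

/-- The free semicircular operators. -/
def Sop (i : Fin N) : FH G (Fin N × Bool) →L[ℂ] FH G (Fin N × Bool) := semi (i, true)

lemma intertwine_algebrasOf (y : Fin N → G) (r : Fin N → ℂ) (k : Option (Fin N))
    {a : FH G (Fin N × Bool) →L[ℂ] FH G (Fin N × Bool)}
    (ha : a ∈ algebrasOf (Xop y r) Sop k) : Intertwine k a := by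
  cases k with
  | none =>
      induction ha using Algebra.adjoin_induction with
      | mem x hx =>
          obtain ⟨i, rfl⟩ := hx
          exact intertwine_add (intertwine_lmul _) (intertwine_smul _ (intertwine_semi_false i))
      | algebraMap r => exact intertwine_algebraMap _ r
      | add x y _ _ hx hy => exact intertwine_add hx hy
      | mul x y _ _ hx hy => exact intertwine_mul hx hy
  | some i =>
      induction ha using Algebra.adjoin_induction with
      | mem x hx =>
          simp only [Set.mem_singleton_iff] at hx
          subst hx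
          exact intertwine_semi_true i
      | algebraMap r => exact intertwine_algebraMap _ r
      | add x y _ _ hx hy => exact intertwine_add hx hy
      | mul x y _ _ hx hy => exact intertwine_mul hx hy

lemma centred_mem_span {k : Option ι} {a : FH G (ι × Bool) →L[ℂ] FH G (ι × Bool)}
    (ha : Intertwine k a) (h0 : vecState (vac : FH G (ι × Bool)) a = 0)
    {b : Bas G (ι × Bool)} (hb : TK k b) :
    a (bv b) ∈ Submodule.span ℂ
      ((bv : _ → FH G (ι × Bool)) '' {d | ¬ TK k d}) := by
  obtain ⟨x, hx, hxa⟩ := ha (1, []) (Supp_vac k)
  have h1 : x (1, []) = 0 := by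
    have h := hxa (1, []) (TK_vac k)
    simp only [cat_vac] at h
    rw [vecState_vac, show (vac : FH G (ι × Bool)) = bv (1, []) from rfl, h,
      ← inner_bv_left, Finsupp.linearCombination_apply, Finsupp.sum, inner_sum] at h0
    simpa [inner_smul_right, inner_bv_bv, Finsupp.mem_support_iff] using h0
  have h := hxa b hb
  rw [cat_nil, one_mul] at h
  rw [h, Finsupp.linearCombination_apply]
  refine Submodule.sum_mem _ fun d hd => Submodule.smul_mem _ _ (Submodule.subset_span
    ⟨cat d b, not_TK_cat (hx d hd) ?_ hb, rfl⟩)
  intro he
  subst he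
  exact (Finsupp.mem_support_iff.mp hd) h1

theorem isFree (y : Fin N → G) (r : Fin N → ℂ) :
    IsFreeFamily (vac : FH G (Fin N × Bool)) (algebrasOf (Xop y r) Sop) := by
  have key : ∀ l : List (Option (Fin N) × (FH G (Fin N × Bool) →L[ℂ] FH G (Fin N × Bool))),
      (∀ p ∈ l, p.2 ∈ algebrasOf (Xop y r) Sop p.1 ∧ vecState vac p.2 = 0) →
      (l.map Prod.fst).IsChain (· ≠ ·) → ∀ k, l.head?.map Prod.fst = some k →
      (l.map Prod.snd).prod vac ∈ Submodule.span ℂ
        ((bv : _ → FH G (Fin N × Bool)) '' {d | ¬ TK k d}) := by
    intro l
    induction l with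
    | nil => intro _ _ k hk; simp at hk
    | cons p l ih =>
        intro hl hch k hk
        simp only [List.head?_cons, Option.map_some, Option.some.injEq] at hk
        subst hk
        obtain ⟨hp, hp0⟩ := hl p List.mem_cons_self
        have hint := intertwine_algebrasOf y r p.1 hp
        simp only [List.map_cons, List.prod_cons, mul_apply_eq_comp]
        cases l with
        | nil =>
            simp only [List.map_nil, List.prod_nil, one_apply_eq_self]
            exact centred_mem_span hint hp0 (TK_vac _)
        | cons q l' =>
            simp only [List.map_cons, List.isChain_cons_cons] at hch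
            have hrec := ih (fun s hs => hl s (List.mem_cons_of_mem _ hs)) hch.2 q.1 rfl
            revert hrec
            generalize ((q :: l').map Prod.snd).prod vac = v
            intro hrec
            induction hrec using Submodule.span_induction with
            | mem x hx =>
                obtain ⟨b, hb, rfl⟩ := hx
                exact centred_mem_span hint hp0 (TK_of_not hch.1 hb)
            | zero => simp
            | add a b _ _ h1 h2 => rw [map_add]; exact Submodule.add_mem _ h1 h2
            | smul c a _ h1 => rw [map_smul]; exact Submodule.smul_mem _ c h1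
  intro l hne hl hch
  obtain ⟨p, l', rfl⟩ := List.exists_cons_of_ne_nil hne
  have h := key _ hl hch p.1 rfl
  rw [vecState_vac, ← inner_bv_left]
  revert h
  generalize ((p :: l').map Prod.snd).prod vac = v
  intro h
  induction h using Submodule.span_induction with
  | mem x hx =>
      obtain ⟨b, hb, rfl⟩ := hx
      rw [inner_bv_bv, if_neg]
      intro he
      exact hb (he ▸ TK_vac p.1)
  | zero => simp
  | add a b _ _ h1 h2 => rw [inner_add_right, h1, h2, add_zero]
  | smul c a _ h1 => rw [inner_smul_right, h1, mul_zero]

end Vale.Agent.P087.Free
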