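import Mathlib

/-!
The group generated by three involutions acting freely on reduced words, its finite quotients,
the elements `(ab)^i c (ba)^i`, and the weight given by the number of letters `c`.
-/

noncomputable section

namespace Vale.Agent.P087

/-- Prepend a letter, cancelling an equal head. -/
def stepList (i : Fin 3) : List (Fin 3) → List (Fin 3)
  | [] => [i]
  | h :: t => if h = i then t else i :: h :: t

lemma stepList_cons (i h : Fin 3) (t : List (Fin 3)) :
    stepList i (h :: t) = if h = i then t else i :: h :: t := rfl

lemma stepList_chain (i : Fin 3) :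
    ∀ l : List (Fin 3), l.IsChain (· ≠ ·) → (stepList i l).IsChain (· ≠ ·)
  | [], _ => by simp [stepList]
  | h :: t, hl => by
      rw [stepList_cons]
      split_ifs with hh
      · exact hl.tail
      · exact List.isChain_cons_cons.mpr ⟨Ne.symm hh, hl⟩

lemma stepList_stepList (i : Fin 3) :
    ∀ l : List (Fin 3), l.IsChain (· ≠ ·) → stepList i (stepList i l) = l
  | [], _ => by simp [stepList]
  | [h], _ => by
      by_cases hh : h = i <;> simp [stepList, hh]
  | h :: h' :: t, hl => by
      have hne : h ≠ h' := (List.isChain_cons_cons.mp hl).1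
      by_cases hh : h = i
      · subst hh; simp [stepList, Ne.symm hne]
      · simp [stepList, hh]

lemma stepList_length (i : Fin 3) (l : List (Fin 3)) :
    (stepList i l).length ≤ l.length + 1 := by
  cases l with
  | nil => simp [stepList]
  | cons h t => rw [stepList_cons]; split_ifs <;> simp <;> omega

/-- Reduced words. -/
abbrev RW := {l : List (Fin 3) // l.IsChain (· ≠ ·)}

def rwNil : RW := ⟨[], List.IsChain.nil⟩

def sigmaPerm (i : Fin 3) : Equiv.Perm RW :=
  Function.Involutive.toPerm (fun l => ⟨stepList i l.1, stepList_chain i l.1 l.2⟩)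
    (fun l => Subtype.ext (stepList_stepList i l.1 l.2))

@[simp] lemma sigmaPerm_val (i : Fin 3) (l : RW) : (sigmaPerm i l).1 = stepList i l.1 := rfl

/-- The free product of three groups of order two, as a permutation group. -/
abbrev GW : Type := ↥(Subgroup.closure (Set.range sigmaPerm))

def gen (i : Fin 3) : GW := ⟨sigmaPerm i, Subgroup.subset_closure ⟨i, rfl⟩⟩

lemma gen_mul_self (i : Fin 3) : gen i * gen i = 1 := by
  apply Subtype.ext
  apply Equiv.ext
  intro l
  exact Subtype.ext (by simpa [gen] using stepList_stepList i l.1 l.2)

def evalW (w : List (Fin 3)) : GW := (w.map gen).prod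

def root (g : GW) : List (Fin 3) := ((g : Equiv.Perm RW) rwNil).1

lemma root_chain (g : GW) : (root g).IsChain (· ≠ ·) := ((g : Equiv.Perm RW) rwNil).2

@[simp] lemma root_one : root 1 = [] := rfl

lemma root_gen_mul (i : Fin 3) (g : GW) : root (gen i * g) = stepList i (root g) := by
  simp [root, gen]

@[simp] lemma evalW_nil : evalW [] = 1 := rfl

@[simp] lemma evalW_cons (i : Fin 3) (w : List (Fin 3)) : evalW (i :: w) = gen i * evalW w := by
  simp [evalW]

lemma evalW_append (u w : List (Fin 3)) : evalW (u ++ w) = evalW u * evalW w := by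
  simp [evalW]

lemma root_evalW_mul (w : List (Fin 3)) (g : GW) :
    root (evalW w * g) = w.foldr stepList (root g) := by
  induction w with
  | nil => simp
  | cons i w ih => rw [evalW_cons, mul_assoc, root_gen_mul, ih, List.foldr_cons]

lemma root_evalW (w : List (Fin 3)) : root (evalW w) = w.foldr stepList [] := by
  simpa using root_evalW_mul w 1

lemma map_prod_reduce {M : Type*} [Monoid M] (h : Fin 3 → M) (hh : ∀ i, h i * h i = 1) :
    ∀ w : List (Fin 3), (w.map h).prod = ((w.foldr stepList []).map h).prod
  | [] => rfl
  | i :: w => by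
      rw [List.map_cons, List.prod_cons, map_prod_reduce h hh w, List.foldr_cons]
      cases w.foldr stepList [] with
      | nil => simp [stepList]
      | cons x t =>
          rw [stepList_cons]
          split_ifs with hx
          · subst hx; simp [← mul_assoc, hh]
          · simp

lemma evalW_mul_reverse (w : List (Fin 3)) : evalW w * evalW w.reverse = 1 := by
  induction w with
  | nil => simp
  | cons i w ih =>
      rw [List.reverse_cons, evalW_cons, evalW_append, mul_assoc,
        ← mul_assoc (evalW w), ih, one_mul]
      simp [evalW, gen_mul_self]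

lemma exists_evalW (g : GW) : ∃ w, evalW w = g := by
  obtain ⟨g, hg⟩ := g
  induction hg using Subgroup.closure_induction with
  | mem x hx =>
      obtain ⟨i, rfl⟩ := hx
      exact ⟨[i], by simp [evalW, gen]⟩
  | one => exact ⟨[], rfl⟩
  | mul x y hx hy ihx ihy =>
      obtain ⟨u, hu⟩ := ihx
      obtain ⟨v, hv⟩ := ihy
      exact ⟨u ++ v, by rw [evalW_append, hu, hv]; rfl⟩
  | inv x hx ih =>
      obtain ⟨u, hu⟩ := ih
      exact ⟨u.reverse, by
        rw [eq_inv_of_mul_eq_one_right (evalW_mul_reverse u), hu]; rfl⟩

lemma eq_one_of_root (g : GW) (h : root g = []) : g = 1 := by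
  obtain ⟨w, rfl⟩ := exists_evalW g
  rw [root_evalW] at h
  rw [evalW, map_prod_reduce gen gen_mul_self, h]
  rfl

/-! ### The special elements -/

/-- `(ba)^d`. -/
def altR : ℕ → List (Fin 3)
  | 0 => []
  | d + 1 => 1 :: 0 :: altR d

lemma altR_length (d : ℕ) : (altR d).length = 2 * d := by
  induction d with
  | zero => rfl
  | succ d ih => simp [altR, ih]; ring

lemma altR_add (i j : ℕ) : altR (i + j) = altR i ++ altR j := by
  induction i with
  | zero => simp [altR]
  | succ i ih => rw [Nat.succ_add]; simp [altR, ih]

lemma altR_ne_two (d : ℕ) : ∀ a ∈ altR d, a ≠ (2 : Fin 3) := by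
  induction d with
  | zero => simp [altR]
  | succ d ih =>
      intro a ha
      simp only [altR, List.mem_cons] at ha
      rcases ha with rfl | rfl | ha
      · decide
      · decide
      · exact ih a ha

lemma foldr_altR (d : ℕ) (y : List (Fin 3)) (hy : y.head? ≠ some 0) :
    (altR d).foldr stepList y = altR d ++ y := by
  induction d with
  | zero => simp [altR]
  | succ d ih =>
      simp only [altR, List.foldr_cons, ih, List.cons_append]
      have h0 : stepList 0 (altR d ++ y) = 0 :: (altR d ++ y) := by
        cases d with
        | zero =>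
            cases y with
            | nil => simp [altR, stepList]
            | cons a t =>
                have ha : a ≠ 0 := by simpa using hy
                simp [altR, stepList, ha]
        | succ e => simp [altR, stepList]
      rw [h0]
      simp [stepList]

lemma count_two_stepList (a : Fin 3) (ha : a ≠ 2) (l : List (Fin 3)) :
    (stepList a l).count 2 = l.count 2 := by
  cases l with
  | nil => simp [stepList, ha]
  | cons h t =>
      rw [stepList_cons]
      split_ifs with hh
      · subst hh; simp [ha]
      · simp [List.count_cons, ha]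

lemma count_two_foldr (w : List (Fin 3)) (hw : ∀ a ∈ w, a ≠ (2 : Fin 3)) (l : List (Fin 3)) :
    (w.foldr stepList l).count 2 = l.count 2 := by
  induction w with
  | nil => rfl
  | cons a w ih =>
      rw [List.foldr_cons, count_two_stepList a (hw a List.mem_cons_self),
        ih fun b hb => hw b (List.mem_cons_of_mem a hb)]

lemma count_two_step_two (l : List (Fin 3)) :
    (l.head? ≠ some 2 → (stepList 2 l).count 2 = l.count 2 + 1) ∧
      l.count 2 ≤ (stepList 2 l).count 2 + 1 := by
  cases l with
  | nil => simp [stepList]
  | cons h t =>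
      rw [stepList_cons]
      split_ifs with hh
      · subst hh; simp
      · constructor
        · intro _; simp [List.count_cons]
        · simp [List.count_cons]; omega

/-- The word `(ab)^d c (ba)^d`. -/
def conjWord (d : ℕ) : List (Fin 3) := (altR d).reverse ++ 2 :: altR d

lemma conjWord_reverse (d : ℕ) : (conjWord d).reverse = conjWord d := by simp [conjWord]

lemma conjWord_length (d : ℕ) : (conjWord d).length = 4 * d + 1 := by
  simp [conjWord, altR_length]; ring

variable (n : ℕ)

/-- The `3 + n` words. -/
def yWord : Fin (3 + n) → List (Fin 3) :=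
  Fin.addCases (fun a => [a]) (fun i => conjWord (i.val + 1))

/-- The `3 + n` group elements. -/
def yG (j : Fin (3 + n)) : GW := evalW (yWord n j)

@[simp] lemma yWord_left (a : Fin 3) : yWord n (Fin.castAdd n a) = [a] := by simp [yWord]

@[simp] lemma yWord_right (i : Fin n) :
    yWord n (Fin.natAdd 3 i) = conjWord (i.val + 1) := by simp [yWord]

lemma yWord_reverse (j : Fin (3 + n)) : (yWord n j).reverse = yWord n j := by
  induction j using Fin.addCases with
  | left a => simp
  | right i => simp [conjWord_reverse]

lemma yWord_length (j : Fin (3 + n)) : (yWord n j).length ≤ 4 * n + 1 := by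
  induction j using Fin.addCases with
  | left a => simp
  | right i => simp [conjWord_length]

lemma yG_mul_self (j : Fin (3 + n)) : yG n j * yG n j = 1 := by
  have := evalW_mul_reverse (yWord n j)
  rwa [yWord_reverse] at this

/-- The number of letters `c`. -/
def cnt (g : GW) : ℕ := (root g).count 2

lemma cnt_gen_mul (a : Fin 3) (ha : a ≠ 2) (g : GW) : cnt (gen a * g) = cnt g := by
  simp [cnt, root_gen_mul, count_two_stepList a ha]

lemma cnt_gen_two_mul (g : GW) : cnt g ≤ cnt (gen 2 * g) + 1 := by
  simpa [cnt, root_gen_mul] using (count_two_step_two (root g)).2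

lemma cnt_conj_mul (d : ℕ) (g : GW) :
    (((altR d).foldr stepList (root g)).head? ≠ some 2 →
      cnt (evalW (conjWord d) * g) = cnt g + 1) ∧
    cnt g ≤ cnt (evalW (conjWord d) * g) + 1 := by
  have hfold : (conjWord d).foldr stepList (root g) =
      (altR d).reverse.foldr stepList (stepList 2 ((altR d).foldr stepList (root g))) := by
    simp only [conjWord, List.foldr_append, List.foldr_cons]
  have h1 := count_two_foldr (altR d).reverse
    (fun a ha => altR_ne_two d a (List.mem_reverse.mp ha))
    (stepList 2 ((altR d).foldr stepList (root g)))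
  have h2 := count_two_foldr (altR d) (altR_ne_two d) (root g)
  have h3 := count_two_step_two ((altR d).foldr stepList (root g))
  simp only [cnt, root_evalW_mul, hfold, h1]
  rw [h2] at h3
  exact h3

lemma descent_unique (d e : ℕ) (h : d < e) (r : List (Fin 3))
    (hd : ((altR d).foldr stepList r).head? = some 2) :
    ((altR e).foldr stepList r).head? ≠ some 2 := by
  obtain ⟨f, rfl⟩ : ∃ f, e = (f + 1) + d := ⟨e - d - 1, by omega⟩
  rw [altR_add, List.foldr_append, foldr_altR _ _ (by rw [hd]; decide)]
  simp [altR]

/-- The Schur weight `n^{-cnt/2}`. -/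
def wt (g : GW) : ℝ := (1 / Real.sqrt n) ^ cnt g

lemma wt_nonneg (g : GW) : 0 ≤ wt n g := by unfold wt; positivity

@[simp] lemma wt_one : wt n 1 = 1 := by simp [wt, cnt]

lemma wt_le_of_cnt (hn : 1 ≤ n) {g h : GW} (hc : cnt g ≤ cnt h + 1) :
    wt n h ≤ Real.sqrt n * wt n g := by
  have hs : (1 : ℝ) ≤ Real.sqrt n := by
    rw [Real.one_le_sqrt]; exact_mod_cast hn
  have hq0 : 0 ≤ 1 / Real.sqrt n := by positivity
  have hq1 : 1 / Real.sqrt n ≤ 1 := by
    rw [div_le_one (by linarith)]; exact hs
  have h1 : (1 / Real.sqrt n) ^ (cnt h + 1) ≤ (1 / Real.sqrt n) ^ cnt g :=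
    pow_le_pow_of_le_one hq0 hq1 hc
  unfold wt
  calc (1 / Real.sqrt n) ^ cnt h = Real.sqrt n * (1 / Real.sqrt n) ^ (cnt h + 1) := by
        rw [pow_succ]; field_simp
    _ ≤ _ := mul_le_mul_of_nonneg_left h1 (by linarith)

lemma wt_schur (hn : 1 ≤ n) (g : GW) :
    ∑ j, wt n (yG n j * g) ≤ 5 * Real.sqrt n * wt n g := by
  classical
  have hs : (1 : ℝ) ≤ Real.sqrt n := by
    rw [Real.one_le_sqrt]; exact_mod_cast hn
  have hw := wt_nonneg n g
  set s : Finset (Fin n) := Finset.univ.filter fun i =>
    ((altR (i.val + 1)).foldr stepList (root g)).head? = some 2 with hsdef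
  have hcard : s.card ≤ 1 := by
    rw [Finset.card_le_one]
    intro i hi j hj
    simp only [hsdef, Finset.mem_filter, Finset.mem_univ, true_and] at hi hj
    by_contra hne
    rcases lt_or_gt_of_ne (fun h => hne (Fin.ext h) : i.val ≠ j.val) with h | h
    · exact descent_unique _ _ (by omega) _ hi hj
    · exact descent_unique _ _ (by omega) _ hj hi
  have hgen : ∑ a : Fin 3, wt n (yG n (Fin.castAdd n a) * g) ≤ 3 * Real.sqrt n * wt n g := by
    have hh : ∀ a : Fin 3, wt n (yG n (Fin.castAdd n a) * g) ≤ Real.sqrt n * wt n g := by
      intro a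
      apply wt_le_of_cnt n hn
      simp only [yG, yWord_left, evalW_cons, evalW_nil, mul_one]
      by_cases ha : a = 2
      · subst ha; exact cnt_gen_two_mul g
      · rw [cnt_gen_mul a ha]; omega
    calc _ ≤ ∑ _a : Fin 3, Real.sqrt n * wt n g := Finset.sum_le_sum fun a _ => hh a
      _ = _ := by simp; ring
  have hconj : ∑ i : Fin n, wt n (yG n (Fin.natAdd 3 i) * g) ≤ 2 * Real.sqrt n * wt n g := by
    have hb : ∀ i : Fin n, wt n (yG n (Fin.natAdd 3 i) * g) ≤
        1 / Real.sqrt n * wt n g + if i ∈ s then Real.sqrt n * wt n g else 0 := by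
      intro i
      simp only [yG, yWord_right]
      by_cases hi : i ∈ s
      · rw [if_pos hi]
        have := wt_le_of_cnt n hn (cnt_conj_mul (i.val + 1) g).2
        have : 0 ≤ 1 / Real.sqrt n * wt n g := by positivity
        linarith
      · rw [if_neg hi, add_zero]
        simp only [hsdef, Finset.mem_filter, Finset.mem_univ, true_and] at hi
        rw [wt, wt, (cnt_conj_mul (i.val + 1) g).1 hi, pow_succ, mul_comm]
    calc _ ≤ ∑ i : Fin n, (1 / Real.sqrt n * wt n g +
          if i ∈ s then Real.sqrt n * wt n g else 0) := Finset.sum_le_sum fun i _ => hb i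
      _ = (n : ℝ) * (1 / Real.sqrt n * wt n g) + s.card * (Real.sqrt n * wt n g) := by
          rw [Finset.sum_add_distrib]; simp
      _ ≤ Real.sqrt n * wt n g + 1 * (Real.sqrt n * wt n g) := by
          apply add_le_add
          · apply le_of_eq
            have hsq : Real.sqrt n * Real.sqrt n = (n : ℝ) :=
              Real.mul_self_sqrt (Nat.cast_nonneg n)
            field_simp
            rw [sq, hsq]
          · apply mul_le_mul_of_nonneg_right _ (by positivity)
            exact_mod_cast hcard
      _ = _ := by ring
  rw [Fin.sum_univ_add]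
  linarith

lemma yG_ne_one (j : Fin (3 + n)) : yG n j ≠ 1 := by
  intro h
  induction j using Fin.addCases with
  | left a =>
      have : root (yG n (Fin.castAdd n a)) = [a] := by
        rw [yG, root_evalW, yWord_left]; rfl
      rw [h] at this; simp at this
  | right i =>
      have hh : ((altR (i.val + 1)).foldr stepList (root (1 : GW))).head? ≠ some 2 := by
        rw [root_one, foldr_altR _ _ (by simp)]
        simp [altR]
      have := (cnt_conj_mul (i.val + 1) 1).1 hh
      simp only [yG, yWord_right] at h
      rw [mul_one, h] at this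
      omega

/-! ### Finite quotients -/

variable (L : ℕ)

/-- Reduced words of length at most `L`. -/
abbrev RWL := {l : List (Fin 3) // l.IsChain (· ≠ ·) ∧ l.length ≤ L}

instance : Finite (RWL L) :=
  Set.Finite.to_subtype (Set.Finite.subset (List.finite_length_le (Fin 3) L) fun _ h => h.2)

def stepL (i : Fin 3) (l : RWL L) : RWL L :=
  if h : (stepList i l.1).length ≤ L then ⟨stepList i l.1, stepList_chain i l.1 l.2.1, h⟩ else l

lemma stepL_stepL (i : Fin 3) (l : RWL L) : stepL L i (stepL L i l) = l := by
  by_cases h : (stepList i l.1).length ≤ L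
  · apply Subtype.ext
    have h' : (stepList i (stepList i l.1)).length ≤ L := by
      rw [stepList_stepList i l.1 l.2.1]; exact l.2.2
    simp only [stepL, dif_pos h, dif_pos h']
    exact stepList_stepList i l.1 l.2.1
  · simp [stepL, h]

def sigmaL (i : Fin 3) : Equiv.Perm (RWL L) :=
  Function.Involutive.toPerm (stepL L i) (stepL_stepL L i)

lemma sigmaL_mul_self (i : Fin 3) : sigmaL L i * sigmaL L i = 1 :=
  Equiv.ext fun l => stepL_stepL L i l

def evalL (w : List (Fin 3)) : Equiv.Perm (RWL L) := (w.map (sigmaL L)).prod

lemma evalL_eq_one_iff (w : List (Fin 3)) (hw : w.length ≤ L) :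
    evalL L w = 1 ↔ evalW w = 1 := by
  constructor
  · intro h
    have key : ∀ u : List (Fin 3), u.length ≤ L →
        (evalL L u ⟨[], List.IsChain.nil, by simp⟩).1 = u.foldr stepList [] ∧
        (u.foldr stepList []).length ≤ u.length := by
      intro u
      induction u with
      | nil => intro _; simp [evalL]
      | cons i u ih =>
          intro hu
          simp only [List.length_cons] at hu
          obtain ⟨h1, h2⟩ := ih (by omega)
          have hlen : (stepList i (u.foldr stepList [])).length ≤ u.length + 1 :=
            (stepList_length i _).trans (by omega)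
          constructor
          · simp only [evalL, List.map_cons, List.prod_cons, Equiv.Perm.mul_apply,
              List.foldr_cons]
            change (stepL L i (evalL L u _)).1 = _
            unfold stepL
            rw [dif_pos (by rw [h1]; omega)]
            exact congrArg (stepList i) h1
          · simpa using hlen
    have := (key w hw).1
    rw [h] at this
    apply eq_one_of_root
    rw [root_evalW]
    simpa using this.symm
  · intro h
    have : w.foldr stepList [] = [] := by rw [← root_evalW, h]; rfl
    rw [evalL, map_prod_reduce (sigmaL L) (sigmaL_mul_self L), this]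
    rfl

end Vale.Agent.P087
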