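import Mathlib
import Vale.Agent.P087.Defs
import Vale.Agent.P087.Words
import Vale.Agent.P087.Fock
import Vale.Agent.P087.Free
import Vale.Agent.P087.Cumulant

/-!
The counterexample: the translations by `a, b, c, (ab)^i c (ba)^i` in the Fock bimodule of
`ℤ/2 * ℤ/2 * ℤ/2`, perturbed by semicircular noise of very different sizes.
-/

noncomputable section

namespace Vale.Agent.P087.Model

open Fock
open scoped InnerProductSpace Classical

variable (n : ℕ)

/-- The Hilbert space. -/
abbrev HM : Type := FH GW (Fin (3 + n) × Bool)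

/-- The noise on the three generators. -/
def rGen : ℝ := 1 / (400 * ((n : ℝ) + 1) ^ 2)

lemma rGen_pos : 0 < rGen n := by unfold rGen; positivity

lemma rGen_le_one : rGen n ≤ 1 := by
  unfold rGen
  rw [div_le_one (by positivity)]
  nlinarith [Nat.cast_nonneg (α := ℝ) n]

/-- The size of the noise in each coordinate. -/
def noise : Fin (3 + n) → ℝ := Fin.addCases (fun _ => rGen n) (fun _ => 1)

@[simp] lemma noise_left (a : Fin 3) : noise n (Fin.castAdd n a) = rGen n := by simp [noise]

@[simp] lemma noise_right (i : Fin n) : noise n (Fin.natAdd 3 i) = 1 := by simp [noise]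

lemma noise_pos (j : Fin (3 + n)) : 0 < noise n j := by
  induction j using Fin.addCases with
  | left a => simpa using rGen_pos n
  | right i => simp

lemma noise_le_one (j : Fin (3 + n)) : noise n j ≤ 1 := by
  induction j using Fin.addCases with
  | left a => simpa using rGen_le_one n
  | right i => simp

/-- The vacuum. -/
def om : HM n := vac

/-- The tuple `X`. -/
def xt : Fin (3 + n) → HM n →L[ℂ] HM n := Free.Xop (yG n) fun j => (noise n j : ℂ)

/-- The semicircular family. -/
def st : Fin (3 + n) → HM n →L[ℂ] HM n := Free.Sop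

lemma semi_mem_vna (k : Fin (3 + n) × Bool) :
    (semi k : HM n →L[ℂ] HM n) ∈ (vna : VonNeumannAlgebra (HM n)) :=
  leftGens_mem_vna (Or.inr ⟨k, rfl⟩)

lemma lmul_mem_vna (g : GW) :
    (lmul g : HM n →L[ℂ] HM n) ∈ (vna : VonNeumannAlgebra (HM n)) :=
  leftGens_mem_vna (Or.inl ⟨g, rfl⟩)

lemma xt_mem (j : Fin (3 + n)) : xt n j ∈ (vna : VonNeumannAlgebra (HM n)) :=
  add_mem (lmul_mem_vna n _)
    ((vna : VonNeumannAlgebra (HM n)).toStarSubalgebra.toSubalgebra.smul_mem (semi_mem_vna n _) _)

lemma st_mem (j : Fin (3 + n)) : st n j ∈ (vna : VonNeumannAlgebra (HM n)) := semi_mem_vna n _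

lemma xt_selfAdjoint (j : Fin (3 + n)) : IsSelfAdjoint (xt n j) := by
  rw [IsSelfAdjoint]
  simp only [xt, Free.Xop, star_add, star_smul, star_semi, star_lmul,
    inv_eq_of_mul_eq_one_right (yG_mul_self n j)]
  simp

lemma st_selfAdjoint (j : Fin (3 + n)) : IsSelfAdjoint (st n j) := star_semi _

lemma norm_om : ‖om n‖ = 1 := norm_bv _

theorem isFaithfulTrace : IsFaithfulTrace (vna : VonNeumannAlgebra (HM n)) (om n) :=
  ⟨norm_om n, fun _ ha _ hb => vac_trace ha hb, fun _ ha h => eq_zero_of_apply_vac ha h⟩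

theorem st_semicircular (j : Fin (3 + n)) : IsSemicircular (om n) (st n j) :=
  Free.semi_isSemicircular _

theorem free : IsFreeFamily (om n) (algebrasOf (xt n) (st n)) := Free.isFree _ _

/-- The coefficients of the semicircular parts of `X + √t S`. -/
def cc (t : ℝ) (j : Fin (3 + n)) : Bool → ℝ
  | false => noise n j
  | true => Real.sqrt t

lemma vv_cc {t : ℝ} (ht : 0 ≤ t) (j : Fin (3 + n)) :
    Cumulant.vv (cc n t) j = noise n j ^ 2 + t := by
  simp [Cumulant.vv, cc, Real.sq_sqrt ht, add_comm]

lemma perturb_eq_letter (t : ℝ) (j : Fin (3 + n)) :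
    perturb (xt n) (st n) t j =
      letter (fun _ => (1 : ℂ)) (yG n) (Cumulant.coefC (cc n t)) j := by
  simp only [perturb, xt, Free.Xop, st, Free.Sop, letter, one_smul]
  rw [Fintype.sum_prod_type, Finset.sum_eq_single j]
  · simp [Cumulant.coefC, cc]; abel
  · intro i _ hi; simp [Cumulant.coefC, hi]
  · simp

lemma monomialOp_perturb_vac (t : ℝ) (w : List (Fin (3 + n))) :
    monomialOp (perturb (xt n) (st n) t) w (om n) = Cumulant.wv (yG n) (cc n t) w := by
  simp only [monomialOp, Cumulant.wv, wordVec, om]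
  rw [funext (perturb_eq_letter n t)]

lemma polyClosure_perturb (t : ℝ) :
    polyClosure (om n) (perturb (xt n) (st n) t) = Cumulant.KX (yG n) (cc n t) := by
  simp only [polyClosure, Cumulant.KX, monomialOp_perturb_vac]

lemma isConjugate_xi {t : ℝ} (ht : 0 ≤ t) (j : Fin (3 + n)) :
    IsConjugate (om n) (perturb (xt n) (st n) t) j (Cumulant.xi (yG n) (cc n t) j) := by
  have hv : 0 < Cumulant.vv (cc n t) j := by
    rw [vv_cc n ht]; have := noise_pos n j; positivity
  have hval : ∀ u, vecState (om n) (monomialOp (perturb (xt n) (st n) t) u) =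
      Cumulant.wv (yG n) (cc n t) u (1, []) := by
    intro u
    rw [vecState, monomialOp_perturb_vac, om, vac, inner_bv_left]
  constructor
  · rw [polyClosure_perturb]
    exact (Cumulant.KX (yG n) (cc n t)).starProjection_apply_mem _
  · intro w
    rw [monomialOp_perturb_vac, Cumulant.inner_xi_of_mem _ _ _
      (Submodule.le_topologicalClosure _ (Submodule.subset_span ⟨w, rfl⟩)),
      Cumulant.inner_Zv_wv _ _ _ hv]
    simp only [splitSum, hval]

lemma lmul_evalW (w : List (Fin 3)) :
    (lmul (evalW w) : HM n →L[ℂ] HM n) = (w.map fun a => lmul (gen a)).prod := by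
  induction w with
  | nil => simp [lmul_one]
  | cons a w ih => rw [evalW_cons, lmul_mul, ih]; simp

end Vale.Agent.P087.Model
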