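import Mathlib
import Vale.Agent.P087.Gauss

/-!
An operator norm bound for GUE matrices by a net argument.
-/

noncomputable section

namespace Vale.Agent.P087.Norm

open MeasureTheory ProbabilityTheory Filter Gauss
open scoped NNReal Topology InnerProductSpace

variable {N k : ℕ}

/-- A half-net of the unit ball with at most `5^(2k)` points. -/
lemma exists_net (k : ℕ) :
    ∃ s : Finset (EuclideanSpace ℂ (Fin k)), s.card ≤ 5 ^ (2 * k) ∧ (∀ c ∈ s, ‖c‖ ≤ 1) ∧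
      ∀ y : EuclideanSpace ℂ (Fin k), ‖y‖ ≤ 1 → ∃ c ∈ s, ‖y - c‖ ≤ 1 / 2 := by
  classical
  set E := EuclideanSpace ℂ (Fin k)
  have hrank : Module.finrank ℝ E = 2 * k := by
    rw [← Module.finrank_mul_finrank ℝ ℂ E, Complex.finrank_real_complex,
      finrank_euclideanSpace_fin]
  let Good : Finset E → Prop := fun s =>
    (∀ c ∈ s, ‖c‖ ≤ 1) ∧ ∀ c ∈ s, ∀ d ∈ s, c ≠ d → 1 / 2 ≤ ‖c - d‖
  have hcard : ∀ s : Finset E, Good s → s.card ≤ 5 ^ (2 * k) := by
    intro s hs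
    have hinj : Set.InjOn (fun c : E => (2 : ℝ) • c) ↑s :=
      fun a _ b _ h => smul_right_injective E (two_ne_zero) h
    rw [← Finset.card_image_of_injOn hinj, ← hrank]
    refine Besicovitch.card_le_of_separated _ ?_ ?_
    · intro c hc
      obtain ⟨d, hd, rfl⟩ := Finset.mem_image.mp hc
      rw [norm_smul, Real.norm_eq_abs, abs_two]
      linarith [hs.1 d hd]
    · intro c hc d hd hne
      obtain ⟨c', hc', rfl⟩ := Finset.mem_image.mp hc
      obtain ⟨d', hd', rfl⟩ := Finset.mem_image.mp hd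
      rw [← smul_sub, norm_smul, Real.norm_eq_abs, abs_two]
      have := hs.2 c' hc' d' hd' (fun h => hne (by rw [h]))
      linarith
  let P : ℕ → Prop := fun n => ∃ s : Finset E, Good s ∧ s.card = n
  have h0 : P 0 := ⟨∅, ⟨by simp, by simp⟩, rfl⟩
  obtain ⟨s, hs, hsc⟩ : P (Nat.findGreatest P (5 ^ (2 * k))) :=
    Nat.findGreatest_spec (Nat.zero_le _) h0
  refine ⟨s, hcard s hs, hs.1, fun y hy => ?_⟩
  by_contra hno
  push Not at hno
  have hy' : y ∉ s := fun h => by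
    have := hno y h
    simp at this
    linarith
  have hgood : Good (insert y s) := by
    constructor
    · intro c hc
      rcases Finset.mem_insert.mp hc with rfl | hc
      · exact hy
      · exact hs.1 c hc
    · intro c hc d hd hne
      rcases Finset.mem_insert.mp hc with h1 | h1 <;>
        rcases Finset.mem_insert.mp hd with h2 | h2
      · exact absurd (h1.trans h2.symm) hne
      · rw [h1]; exact (hno d h2).le
      · rw [h2, norm_sub_rev]; exact (hno c h1).le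
      · exact hs.2 c h1 d h2 hne
  have hle := hcard _ hgood
  rw [Finset.card_insert_of_notMem hy', hsc] at hle
  have : P (Nat.findGreatest P (5 ^ (2 * k)) + 1) :=
    ⟨insert y s, hgood, by rw [Finset.card_insert_of_notMem hy', hsc]⟩
  have := Nat.le_findGreatest hle this
  omega

/-- The operator of the `i`-th matrix. -/
def opT (x : Coord N k → ℝ) (i : Fin N) :
    EuclideanSpace ℂ (Fin k) →L[ℂ] EuclideanSpace ℂ (Fin k) :=
  Matrix.toEuclideanCLM (𝕜 := ℂ) (hermMat fun a b => x (i, a, b))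

/-- The coefficient of the coordinate `e` in `Re ⟪u, H y⟫`. -/
def cf (u y : EuclideanSpace ℂ (Fin k)) (e : Fin k × Fin k) : ℝ :=
  (∑ a, ∑ b, (starRingEnd ℂ) (u a) * entryCoef a b e * y b).re

lemma re_inner_opT (x : Coord N k → ℝ) (i : Fin N) (u y : EuclideanSpace ℂ (Fin k)) :
    (⟪u, opT x i y⟫_ℂ).re = ∑ e : Fin k × Fin k, x (i, e) * cf u y e := by
  have h : ⟪u, opT x i y⟫_ℂ =
      ∑ e : Fin k × Fin k, (x (i, e) : ℂ) * ∑ a, ∑ b,
        (starRingEnd ℂ) (u a) * entryCoef a b e * y b := by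
    rw [PiLp.inner_apply]
    simp only [opT, RCLike.inner_apply, Matrix.ofLp_toEuclideanCLM, Matrix.mulVec, dotProduct,
      hermMat_eq_sum, Finset.sum_mul, Finset.mul_sum]
    conv_lhs => enter [2, a]; rw [Finset.sum_comm]
    rw [Finset.sum_comm]
    refine Finset.sum_congr rfl fun e _ => Finset.sum_congr rfl fun a _ =>
      Finset.sum_congr rfl fun b _ => ?_
    ring
  rw [h, Complex.re_sum]
  exact Finset.sum_congr rfl fun e _ => by rw [Complex.re_ofReal_mul]; rfl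

lemma norm_branch (a b : Fin k) (e : Fin k × Fin k) :
    ‖entryCoef a b e‖ ≤ (if e = (a, b) then 1 else 0) + (if e = (b, a) then 1 else 0) := by
  have hs : ‖(Real.sqrt 2 : ℂ)‖ = Real.sqrt 2 := by
    simp [abs_of_nonneg (Real.sqrt_nonneg 2)]
  have h1 : (1 : ℝ) / Real.sqrt 2 ≤ 1 := by
    rw [div_le_one (by positivity)]
    exact Real.one_le_sqrt.mpr (by norm_num)
  unfold entryCoef
  refine (norm_add_le _ _).trans (add_le_add ?_ ?_) <;> split_ifs <;>
    simp [abs_of_nonneg (Real.sqrt_nonneg 2)] <;> simpa using h1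

lemma abs_cf_le (u y : EuclideanSpace ℂ (Fin k)) (e : Fin k × Fin k) :
    |cf u y e| ≤ ‖u e.1‖ * ‖y e.2‖ + ‖u e.2‖ * ‖y e.1‖ := by
  refine (Complex.abs_re_le_norm _).trans ((norm_sum_le _ _).trans ?_)
  calc ∑ a, ‖∑ b, (starRingEnd ℂ) (u a) * entryCoef a b e * y b‖
      ≤ ∑ a, ∑ b, ((if e = (a, b) then ‖u a‖ * ‖y b‖ else 0) +
          (if e = (b, a) then ‖u a‖ * ‖y b‖ else 0)) := by
        refine Finset.sum_le_sum fun a _ => (norm_sum_le _ _).trans
          (Finset.sum_le_sum fun b _ => ?_)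
        rw [norm_mul, norm_mul, Complex.norm_conj]
        have h := norm_branch a b e
        have hn : 0 ≤ ‖u a‖ * ‖y b‖ := by positivity
        calc ‖u a‖ * ‖entryCoef a b e‖ * ‖y b‖
            = ‖entryCoef a b e‖ * (‖u a‖ * ‖y b‖) := by ring
          _ ≤ ((if e = (a, b) then (1 : ℝ) else 0) + (if e = (b, a) then 1 else 0)) *
              (‖u a‖ * ‖y b‖) := mul_le_mul_of_nonneg_right h hn
          _ = _ := by split_ifs <;> ring
    _ = _ := by
        obtain ⟨p, q⟩ := e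
        simp only [Finset.sum_add_distrib, Prod.mk.injEq, ite_and, Finset.sum_ite_eq,
          Finset.mem_univ, if_true]
        congr 1
        rw [Finset.sum_comm]
        simp

lemma sum_cf_sq_le (u y : EuclideanSpace ℂ (Fin k)) (hu : ‖u‖ ≤ 1) (hy : ‖y‖ ≤ 1) :
    ∑ e, cf u y e ^ 2 ≤ 4 := by
  have h1 : ∀ e, cf u y e ^ 2 ≤
      2 * (‖u e.1‖ ^ 2 * ‖y e.2‖ ^ 2) + 2 * (‖u e.2‖ ^ 2 * ‖y e.1‖ ^ 2) := by
    intro e
    have h := pow_le_pow_left₀ (abs_nonneg _) (abs_cf_le u y e) 2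
    rw [sq_abs] at h
    nlinarith [sq_nonneg (‖u e.1‖ * ‖y e.2‖ - ‖u e.2‖ * ‖y e.1‖)]
  refine (Finset.sum_le_sum fun e _ => h1 e).trans ?_
  simp only [Finset.sum_add_distrib, Fintype.sum_prod_type, ← Finset.mul_sum, ← Finset.sum_mul,
    ← EuclideanSpace.norm_sq_eq]
  have hu2 : ‖u‖ ^ 2 ≤ 1 := pow_le_one₀ (norm_nonneg _) hu
  have hy2 : ‖y‖ ^ 2 ≤ 1 := pow_le_one₀ (norm_nonneg _) hy
  nlinarith [sq_nonneg ‖u‖, sq_nonneg ‖y‖]

lemma integral_exp_linear (v : ℝ≥0) {σ : Type*} [Fintype σ] (d : σ → ℝ) :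
    ∫ x, Real.exp (∑ j, d j * x j) ∂gaussPi σ v = Real.exp ((v : ℝ) * (∑ j, d j ^ 2) / 2) := by
  simp only [Real.exp_sum]
  rw [gaussPi, integral_fintype_prod_eq_prod (fun j (t : ℝ) => Real.exp (d j * t)),
    Finset.mul_sum, Finset.sum_div, Real.exp_sum]
  refine Finset.prod_congr rfl fun j _ => ?_
  have h := congrFun (mgf_id_gaussianReal (μ := 0) (v := v)) (d j)
  simp only [mgf, id_eq] at h
  rw [h]
  ring_nf

lemma integrable_exp_linear (v : ℝ≥0) {σ : Type*} [Fintype σ] (d : σ → ℝ) :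
    Integrable (fun x => Real.exp (∑ j, d j * x j)) (gaussPi σ v) := by
  simp only [Real.exp_sum]
  exact Integrable.fintype_prod (f := fun j (t : ℝ) => Real.exp (d j * t))
    fun j => integrable_exp_mul_gaussianReal (d j)

lemma prob_inner_ge (hk : k ≠ 0) (i : Fin N) (u y : EuclideanSpace ℂ (Fin k)) (hu : ‖u‖ ≤ 1)
    (hy : ‖y‖ ≤ 1) :
    (gaussPi (Coord N k) ((k : ℝ≥0)⁻¹)).real {x | 8 ≤ (⟪u, opT x i y⟫_ℂ).re} ≤
      Real.exp (-(8 * k)) := by
  set d : Coord N k → ℝ := fun j => if j.1 = i then 2 * k * cf u y j.2 else 0 with hd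
  have hsum : ∀ x : Coord N k → ℝ, ∑ j, d j * x j = 2 * k * (⟪u, opT x i y⟫_ℂ).re := by
    intro x
    rw [re_inner_opT, Finset.mul_sum, Fintype.sum_prod_type, Finset.sum_eq_single i]
    · exact Finset.sum_congr rfl fun e _ => by simp [hd]; ring
    · intro j _ hj; simp [hd, hj]
    · simp
  have hd2 : ∑ j, d j ^ 2 ≤ (2 * k) ^ 2 * 4 := by
    rw [Fintype.sum_prod_type, Finset.sum_eq_single i]
    · simp only [hd, if_true, mul_pow, ← Finset.mul_sum]
      exact mul_le_mul_of_nonneg_left (sum_cf_sq_le u y hu hy) (by positivity)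
    · intro j _ hj; simp [hd, hj]
    · simp
  have hk' : (0 : ℝ) < k := by positivity
  have h := mul_meas_ge_le_integral_of_nonneg (μ := gaussPi (Coord N k) ((k : ℝ≥0)⁻¹))
    (ae_of_all _ fun x => (Real.exp_pos (∑ j, d j * x j)).le)
    (integrable_exp_linear _ d) (Real.exp (2 * k * 8))
  rw [integral_exp_linear] at h
  have hset : {x : Coord N k → ℝ | 8 ≤ (⟪u, opT x i y⟫_ℂ).re} =
      {x | Real.exp (2 * k * 8) ≤ Real.exp (∑ j, d j * x j)} := by
    ext x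
    simp only [Set.mem_ofPred_eq, Real.exp_le_exp, hsum]
    constructor <;> intro hx <;> nlinarith
  rw [hset]
  have hb : Real.exp ((((k : ℝ≥0)⁻¹ : ℝ≥0) : ℝ) * (∑ j, d j ^ 2) / 2) ≤ Real.exp (8 * k) := by
    apply Real.exp_le_exp.mpr
    push_cast
    calc (k : ℝ)⁻¹ * (∑ j, d j ^ 2) / 2 ≤ (k : ℝ)⁻¹ * ((2 * k) ^ 2 * 4) / 2 := by gcongr
      _ = 8 * k := by field_simp; ring
  have h2 := h.trans hb
  have he : Real.exp (8 * (k : ℝ)) = Real.exp (2 * k * 8) * Real.exp (-(8 * k)) := by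
    rw [← Real.exp_add]; ring_nf
  rw [he] at h2
  exact le_of_mul_le_mul_left h2 (Real.exp_pos _)

lemma norm_le_of_net {T : EuclideanSpace ℂ (Fin k) →L[ℂ] EuclideanSpace ℂ (Fin k)}
    {s : Finset (EuclideanSpace ℂ (Fin k))}
    (hs : ∀ y : EuclideanSpace ℂ (Fin k), ‖y‖ ≤ 1 → ∃ c ∈ s, ‖y - c‖ ≤ 1 / 2)
    (h : ∀ u ∈ s, ∀ y ∈ s, (⟪u, T y⟫_ℂ).re ≤ 8) : ‖T‖ ≤ 32 := by
  have h16 : ∀ y ∈ s, ‖T y‖ ≤ 16 := by
    intro y hy
    rcases eq_or_ne (T y) 0 with h0 | h0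
    · simp [h0]
    set w := T y
    set u : EuclideanSpace ℂ (Fin k) := ((‖w‖⁻¹ : ℝ) : ℂ) • w with hu
    have hwn : 0 < ‖w‖ := norm_pos_iff.mpr h0
    have hun : ‖u‖ = 1 := by
      rw [hu, norm_smul, Complex.norm_real, Real.norm_eq_abs, abs_of_pos (inv_pos.mpr hwn),
        inv_mul_cancel₀ hwn.ne']
    have huw : (⟪u, w⟫_ℂ).re = ‖w‖ := by
      rw [hu, inner_smul_left, Complex.conj_ofReal, Complex.re_ofReal_mul,
        show (⟪w, w⟫_ℂ).re = ‖w‖ ^ 2 from (norm_sq_eq_re_inner (𝕜 := ℂ) w).symm]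
      field_simp
    obtain ⟨c, hc, hcd⟩ := hs u hun.le
    have h1 : (⟪u, w⟫_ℂ).re = (⟪c, w⟫_ℂ).re + (⟪u - c, w⟫_ℂ).re := by
      rw [inner_sub_left, Complex.sub_re]; ring
    have h2 : (⟪u - c, w⟫_ℂ).re ≤ 1 / 2 * ‖w‖ :=
      ((Complex.re_le_norm _).trans (norm_inner_le_norm _ _)).trans
        (mul_le_mul_of_nonneg_right hcd hwn.le)
    linarith [h c hc y hy]
  have hb : ‖T‖ ≤ 16 + ‖T‖ / 2 := by
    refine ContinuousLinearMap.opNorm_le_bound _ (by positivity) fun y => ?_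
    rcases eq_or_ne y 0 with rfl | hy
    · simp
    have hyn : 0 < ‖y‖ := norm_pos_iff.mpr hy
    set z : EuclideanSpace ℂ (Fin k) := ((‖y‖⁻¹ : ℝ) : ℂ) • y with hz
    have hzn : ‖z‖ = 1 := by
      rw [hz, norm_smul, Complex.norm_real, Real.norm_eq_abs, abs_of_pos (inv_pos.mpr hyn),
        inv_mul_cancel₀ hyn.ne']
    obtain ⟨c, hc, hcd⟩ := hs z hzn.le
    have h1 : ‖T z‖ ≤ 16 + ‖T‖ / 2 :=
      calc ‖T z‖ = ‖T c + T (z - c)‖ := by rw [← map_add]; simp
        _ ≤ ‖T c‖ + ‖T (z - c)‖ := norm_add_le _ _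
        _ ≤ 16 + ‖T‖ * (1 / 2) := add_le_add (h16 c hc)
            ((T.le_opNorm _).trans (mul_le_mul_of_nonneg_left hcd (norm_nonneg _)))
        _ = _ := by ring
    rw [hz, map_smul, norm_smul, Complex.norm_real, Real.norm_eq_abs,
      abs_of_pos (inv_pos.mpr hyn), inv_mul_le_iff₀ hyn] at h1
    linarith
  linarith

theorem eventually_norm_le (N : ℕ) :
    ∀ᶠ k : ℕ in atTop, (gaussPi (Coord N k) ((k : ℝ≥0)⁻¹)).real
      {x | ∃ i, 32 < ‖opT x i‖} ≤ 1 / 4 := by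
  have hr : Real.exp (-8) * 625 < 1 := by
    have he : (2.7 : ℝ) ≤ Real.exp 1 := by
      have := Real.exp_one_gt_d9; linarith
    have h8 : Real.exp 8 = Real.exp 1 ^ 8 := by rw [← Real.exp_nat_mul]; norm_num
    have h2 : (625 : ℝ) < Real.exp 8 := by
      rw [h8]; exact lt_of_lt_of_le (by norm_num) (pow_le_pow_left₀ (by norm_num) he 8)
    rw [Real.exp_neg, inv_mul_eq_div, div_lt_one (Real.exp_pos _)]
    exact h2
  have hlim : Tendsto (fun k : ℕ => (N : ℝ) * (Real.exp (-8) * 625) ^ k) atTop (𝓝 0) := by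
    simpa using (tendsto_pow_atTop_nhds_zero_of_lt_one (by positivity) hr).const_mul (N : ℝ)
  filter_upwards [hlim.eventually (eventually_le_nhds (show (0 : ℝ) < 1 / 4 by norm_num)),
    eventually_ne_atTop 0] with k hk hk0
  obtain ⟨s, hcard, hs1, hs⟩ := exists_net k
  have hsub : {x : Coord N k → ℝ | ∃ i, 32 < ‖opT x i‖} ⊆
      ⋃ q ∈ (Finset.univ : Finset (Fin N)) ×ˢ (s ×ˢ s),
        {x | 8 ≤ (⟪q.2.1, opT x q.1 q.2.2⟫_ℂ).re} := by
    intro x hx
    obtain ⟨i, hi⟩ := hx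
    obtain ⟨u, hu, y, hy, h8⟩ : ∃ u ∈ s, ∃ y ∈ s, 8 < (⟪u, opT x i y⟫_ℂ).re := by
      by_contra hno
      push Not at hno
      exact absurd (norm_le_of_net hs hno) (not_le.mpr hi)
    exact Set.mem_biUnion (x := (i, u, y))
      (Finset.mem_product.mpr ⟨Finset.mem_univ _, Finset.mem_product.mpr ⟨hu, hy⟩⟩) h8.le
  refine (measureReal_mono hsub (measure_ne_top _ _)).trans
    ((measureReal_biUnion_finset_le _ _).trans ?_)
  refine le_trans ?_ hk
  refine le_trans (Finset.sum_le_card_nsmul _ _ (Real.exp (-(8 * k))) fun q hq => ?_) ?_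
  · obtain ⟨-, hq'⟩ := Finset.mem_product.mp hq
    obtain ⟨hq1, hq2⟩ := Finset.mem_product.mp hq'
    exact prob_inner_ge hk0 q.1 q.2.1 q.2.2 (hs1 _ hq1) (hs1 _ hq2)
  · rw [nsmul_eq_mul, Finset.card_product, Finset.card_product, Finset.card_univ,
      Fintype.card_fin, Nat.cast_mul, Nat.cast_mul]
    have h5 : (s.card : ℝ) ≤ (5 : ℝ) ^ (2 * k) := by exact_mod_cast hcard
    have e : (5 : ℝ) ^ (2 * k) * 5 ^ (2 * k) * Real.exp (-(8 * k)) =
        (Real.exp (-8) * 625) ^ k := by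
      rw [show -(8 * (k : ℝ)) = (k : ℝ) * (-8) by ring, Real.exp_nat_mul, ← pow_add,
        show 2 * k + 2 * k = 4 * k by ring, pow_mul, mul_pow]
      norm_num
      ring
    rw [← e]
    calc (N : ℝ) * (s.card * s.card) * Real.exp (-(8 * k))
        ≤ N * ((5 : ℝ) ^ (2 * k) * 5 ^ (2 * k)) * Real.exp (-(8 * k)) := by gcongr
      _ = _ := by ring

end Vale.Agent.P087.Norm
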