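import Mathlib
import Vale.Agent.P087.Model
import Vale.Agent.P087.Limit
import Vale.Agent.P087.Norm

/-!
Microstates for the example: regular representations of finite quotients plus GUE noise, and the
resulting lower bound `χ > -∞`.
-/

noncomputable section

namespace Vale.Agent.P087.Micro

open MeasureTheory ProbabilityTheory Filter Gauss Fock
open scoped NNReal ENNReal Topology InnerProductSpace Classical

variable (n : ℕ)

abbrev Letter := Fin 3 ⊕ Fin (3 + n)

/-- The operator of a letter. -/
def lop : Letter n → Model.HM n →L[ℂ] Model.HM n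
  | Sum.inl a => lmul (gen a)
  | Sum.inr i => semi (i, false)

/-- The limiting trace. -/
def tauM (w : List (Letter n)) : ℂ := vecState (Model.om n) (w.map (lop n)).prod

lemma lop_mem (l : Letter n) : lop n l ∈ (vna : VonNeumannAlgebra (Model.HM n)) := by
  cases l with
  | inl a => exact Model.lmul_mem_vna n _
  | inr i => exact Model.semi_mem_vna n _

lemma prod_lop_mem (w : List (Letter n)) :
    (w.map (lop n)).prod ∈ (vna : VonNeumannAlgebra (Model.HM n)) :=
  list_prod_mem fun x hx => by
    obtain ⟨l, -, rfl⟩ := List.mem_map.mp hx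
    exact lop_mem n l

lemma tauM_cyclic (u w : List (Letter n)) : tauM n (u ++ w) = tauM n (w ++ u) := by
  simp only [tauM, List.map_append, List.prod_append]
  exact vac_trace (prod_lop_mem n u) (prod_lop_mem n w)

/-- Data for `Fock.letter`. -/
def lal : Letter n → ℂ := Sum.elim (fun _ => 1) (fun _ => 0)

/-- Data for `Fock.letter`. -/
def ly : Letter n → GW := Sum.elim gen (fun _ => 1)

/-- Data for `Fock.letter`. -/
def lcoef : Letter n → Fin (3 + n) × Bool → ℂ :=
  Sum.elim (fun _ _ => 0) (fun i k => if k = (i, false) then 1 else 0)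

lemma lop_eq_letter (l : Letter n) : lop n l = letter (lal n) (ly n) (lcoef n) l := by
  classical
  cases l with
  | inl a => simp [lop, letter, lal, ly, lcoef]
  | inr i => simp [lop, letter, lal, lcoef]

lemma tauM_eq (w : List (Letter n)) :
    tauM n w = wordVec (lal n) (ly n) (lcoef n) w (1, []) := by
  rw [tauM, Model.om, Free.vecState_vac, wordVec, funext (lop_eq_letter n)]

lemma tauM_sd (i : Fin (3 + n)) (w : List (Letter n)) :
    tauM n (Sum.inr i :: w) = ∑ l : Fin w.length,
      if w.get l = Sum.inr i then tauM n (w.take l.val) * tauM n (w.drop (l.val + 1)) else 0 := by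
  classical
  rw [tauM_eq, wordVec_cons, ← lop_eq_letter]
  simp only [lop, semi_apply_nil]
  rw [show (((1 : GW), [((i, false), (1 : GW))]) : Bas GW (Fin (3 + n) × Bool)) =
    snoc (1, []) ((i, false), 1) from rfl, wordVec_snoc]
  refine Finset.sum_congr rfl fun l _ => ?_
  cases h : w.get l with
  | inl a => simp [lcoef]
  | inr j =>
      by_cases hj : j = i
      · subst hj
        simp [lcoef, tauM_eq]
      · simp [lcoef, hj, Ne.symm hj]

lemma tauM_inl (u : List (Fin 3)) :
    tauM n (u.map Sum.inl) = if evalW u = 1 then 1 else 0 := by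
  classical
  have : (u.map Sum.inl).map (lop n) = u.map fun a => lmul (gen a) := by
    rw [List.map_map]; rfl
  rw [tauM, this, ← Model.lmul_evalW, Model.om, Free.vecState_vac, vac, lmul_bv, bv_apply]
  by_cases h : evalW u = 1
  · simp [h]
  · simp [h, Ne.symm h]

/-! ### Expanding words in `X` -/

/-- The expansion of a word in the variables `u(y_j) + r_j G_j`. -/
def expand : List (Fin (3 + n)) → List (ℝ × List (Letter n))
  | [] => [(1, [])]
  | j :: w =>
      (expand w).map (fun p => (p.1, (yWord n j).map Sum.inl ++ p.2)) ++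
        (expand w).map (fun p => (Model.noise n j * p.1, Sum.inr j :: p.2))

lemma expand_length (w : List (Fin (3 + n))) :
    ∀ p ∈ expand n w, p.2.length ≤ (4 * n + 1) * w.length := by
  induction w with
  | nil => simp [expand]
  | cons j w ih =>
      intro p hp
      simp only [expand, List.mem_append, List.mem_map] at hp
      have hy := yWord_length n j
      rcases hp with ⟨q, hq, rfl⟩ | ⟨q, hq, rfl⟩
      · have := ih q hq
        simp only [List.length_append, List.length_map, List.length_cons, Nat.mul_succ]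
        omega
      · have := ih q hq
        simp only [List.length_cons, Nat.mul_succ]
        omega

lemma expand_prod {A : Type*} [Ring A] [Algebra ℂ A] (ev : Letter n → A) (w : List (Fin (3 + n))) :
    (w.map fun j => ((yWord n j).map fun a => ev (Sum.inl a)).prod +
        (Model.noise n j : ℂ) • ev (Sum.inr j)).prod =
      ((expand n w).map fun p => (p.1 : ℂ) • (p.2.map ev).prod).sum := by
  induction w with
  | nil => simp [expand]
  | cons j w ih =>
      simp only [List.map_cons, List.prod_cons, ih, expand, List.map_append, List.sum_append,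
        List.map_map]
      rw [add_mul, ← List.sum_map_mul_left, ← List.sum_map_mul_left]
      congr 1
      · refine congrArg List.sum (List.map_congr_left fun p _ => ?_)
        simp [List.map_map, Function.comp_def, mul_smul_comm]
      · refine congrArg List.sum (List.map_congr_left fun p _ => ?_)
        simp [mul_smul_comm, smul_mul_assoc, smul_smul, mul_comm]

lemma vecState_monomial (w : List (Fin (3 + n))) :
    vecState (Model.om n) (monomialOp (Model.xt n) w) =
      ((expand n w).map fun p => (p.1 : ℂ) * tauM n p.2).sum := by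
  have hx : ∀ j, Model.xt n j = ((yWord n j).map fun a => lop n (Sum.inl a)).prod +
      (Model.noise n j : ℂ) • lop n (Sum.inr j) := by
    intro j
    simp only [lop, Model.xt, Free.Xop, yG, Model.lmul_evalW]
  rw [monomialOp, funext hx, expand_prod n (lop n) w]
  generalize expand n w = l
  induction l with
  | nil => simp [vecState]
  | cons q l ih =>
      rw [List.map_cons, List.sum_cons, List.map_cons, List.sum_cons, ← ih]
      simp only [vecState, tauM, add_apply, smul_apply, inner_add_right, inner_smul_right]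

/-! ### Permutation matrices -/

/-- The matrix of a permutation. -/
def pm {k : ℕ} (σ : Equiv.Perm (Fin k)) : Matrix (Fin k) (Fin k) ℂ :=
  Matrix.of fun a b => if σ b = a then 1 else 0

lemma pm_one {k : ℕ} : pm (1 : Equiv.Perm (Fin k)) = 1 := by
  ext a b; simp [pm, Matrix.one_apply, eq_comm]

lemma pm_mul {k : ℕ} (σ τ : Equiv.Perm (Fin k)) : pm (σ * τ) = pm σ * pm τ := by
  ext a b; simp [pm, Matrix.mul_apply]; split_ifs <;> simp_all

lemma pm_isHermitian {k : ℕ} {σ : Equiv.Perm (Fin k)} (h : σ * σ = 1) : (pm σ).IsHermitian := by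
  refine Matrix.IsHermitian.ext fun a b => ?_
  have h' : ∀ c, σ (σ c) = c := fun c => by
    simpa using congrArg (fun f : Equiv.Perm (Fin k) => f c) h
  have : σ b = a ↔ σ a = b := ⟨fun e => by rw [← e, h'], fun e => by rw [← e, h']⟩
  by_cases e : σ b = a
  · simp [pm, e, this.mp e]
  · simp [pm, e]
    exact fun e' => e (this.mpr e')

lemma norm_pm_le {k : ℕ} (σ : Equiv.Perm (Fin k)) :
    ‖Matrix.toEuclideanCLM (𝕜 := ℂ) (pm σ)‖ ≤ 1 := by
  refine ContinuousLinearMap.opNorm_le_bound _ zero_le_one fun v => ?_
  rw [one_mul]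
  apply le_of_eq
  have h : ∀ a, (Matrix.toEuclideanCLM (𝕜 := ℂ) (pm σ) v) a = v (σ⁻¹ a) := by
    intro a
    rw [Matrix.ofLp_toEuclideanCLM]
    simp [Matrix.mulVec, dotProduct, pm, ← Equiv.Perm.eq_inv_iff_eq]
  rw [EuclideanSpace.norm_eq, EuclideanSpace.norm_eq]
  congr 1
  simp only [h]
  exact Equiv.sum_comp σ⁻¹ (fun a => ‖v a‖ ^ 2)

variable (L : ℕ)

/-- The finite group. -/
abbrev Q := Equiv.Perm (RWL L)

instance : Fintype (Q L) := Fintype.ofFinite _

/-- The dimension. -/
def kk (q : ℕ) : ℕ := Fintype.card (Q L) * (q + 1)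

lemma kk_ne (q : ℕ) : kk L q ≠ 0 := by
  unfold kk
  exact Nat.mul_ne_zero Fintype.card_ne_zero (Nat.succ_ne_zero q)

lemma kk_tendsto : Tendsto (kk L) atTop atTop := by
  refine tendsto_atTop_mono (fun q => ?_) tendsto_id
  have h : 0 < Fintype.card (Q L) := Fintype.card_pos
  simp only [id, kk]
  nlinarith

/-- An enumeration. -/
def cod (q : ℕ) : Q L × Fin (q + 1) ≃ Fin (kk L q) :=
  ((Fintype.equivFin (Q L)).prodCongr (Equiv.refl _)).trans finProdFinEquiv

/-- The regular representation with multiplicity. -/
def rho (q : ℕ) : Q L →* Equiv.Perm (Fin (kk L q)) where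
  toFun g :=
    (cod L q).permCongr ((Equiv.mulLeft g).prodCongr (Equiv.refl (Fin (q + 1))))
  map_one' := Equiv.ext fun x => by simp [Equiv.permCongr_apply]
  map_mul' g h := Equiv.ext fun x => by simp [Equiv.permCongr_apply, mul_assoc]; rfl

/-- The deterministic matrices. -/
def Umat (q : ℕ) (a : Fin 3) : Matrix (Fin (kk L q)) (Fin (kk L q)) ℂ :=
  pm (rho L q (sigmaL L a))

lemma Umat_isHermitian (q : ℕ) (a : Fin 3) : (Umat L q a).IsHermitian :=
  pm_isHermitian (by rw [← map_mul, sigmaL_mul_self, map_one])

lemma prod_Umat (q : ℕ) (u : List (Fin 3)) :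
    (u.map (Umat L q)).prod = pm (rho L q (evalL L u)) := by
  induction u with
  | nil => simp [evalL, pm_one]
  | cons a u ih =>
      rw [List.map_cons, List.prod_cons, ih, Umat, ← pm_mul, ← map_mul]
      simp [evalL]

lemma trace_Umat (q : ℕ) (u : List (Fin 3)) (hu : u.length ≤ L) :
    (kk L q : ℂ)⁻¹ * ((u.map (Umat L q)).prod).trace = tauM n (u.map Sum.inl) := by
  rw [prod_Umat, tauM_inl]
  by_cases h : evalW u = 1
  · rw [if_pos h, (evalL_eq_one_iff L u hu).mpr h, map_one, pm_one]
    simp [kk_ne L q]
  · rw [if_neg h]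
    have hne : evalL L u ≠ 1 := fun e => h ((evalL_eq_one_iff L u hu).mp e)
    have : ∀ x, rho L q (evalL L u) x ≠ x := by
      intro x hx
      simp only [rho, MonoidHom.coe_mk, OneHom.coe_mk, Equiv.permCongr_apply] at hx
      have h1 := (cod L q).eq_symm_apply.mpr hx
      have h2 := congrArg Prod.fst h1
      simp at h2
      exact hne h2
    rw [Matrix.trace, Finset.sum_eq_zero fun x _ => ?_, mul_zero]
    rw [Matrix.diag_apply, pm, Matrix.of_apply, if_neg (this x)]

/-! ### Volume of a Gaussian event -/

lemma pi_le_smul {ι : Type*} [Fintype ι] {X : ι → Type*} [∀ i, MeasurableSpace (X i)]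
    (μ ν : ∀ i, Measure (X i)) [∀ i, SigmaFinite (μ i)] [∀ i, SigmaFinite (ν i)] (c : ι → ℝ≥0)
    (h : ∀ i, μ i ≤ c i • ν i) : Measure.pi μ ≤ (∏ i, c i) • Measure.pi ν := by
  have hpi : Measure.pi (fun i => c i • ν i) = (∏ i, c i) • Measure.pi ν := by
    refine Measure.pi_eq fun s _ => ?_
    rw [Measure.smul_apply, Measure.pi_pi]
    simp only [Measure.smul_apply, ENNReal.smul_def, smul_eq_mul, Finset.prod_mul_distrib,
      ENNReal.coe_finsetProd]
  rw [← hpi]
  have hle : (Measure.pi μ).toOuterMeasure ≤
      OuterMeasure.pi fun i => (c i • ν i).toOuterMeasure := by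
    rw [OuterMeasure.le_pi]
    intro s _
    rw [Measure.coe_toOuterMeasure, Measure.pi_pi]
    exact Finset.prod_le_prod' fun i _ => h i (s i)
  refine Measure.le_intro fun s hs _ => ?_
  rw [Measure.pi_def (fun i => c i • ν i), toMeasure_apply _ _ hs]
  exact hle s

lemma gaussianReal_le (m : ℝ) {v : ℝ≥0} (hv : v ≠ 0) :
    gaussianReal m v ≤ (Real.toNNReal (Real.sqrt (2 * Real.pi * v))⁻¹) • (volume : Measure ℝ) := by
  rw [gaussianReal_of_var_ne_zero m hv]
  refine (withDensity_mono (ae_of_all _ fun x => ?_)).trans_eq (withDensity_const _)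
  simp only [gaussianPDF, gaussianPDFReal]
  refine ENNReal.ofReal_le_ofReal (mul_le_of_le_one_right (by positivity) ?_)
  rw [Real.exp_le_one_iff]
  exact div_nonpos_of_nonpos_of_nonneg (neg_nonpos.mpr (sq_nonneg _)) (by positivity)

variable {N k : ℕ}

/-- The coordinates of a self-adjoint matrix. -/
def coordOf (H : Matrix (Fin k) (Fin k) ℂ) : Fin k → Fin k → ℝ := fun a b =>
  if a = b then (H a a).re else if a < b then Real.sqrt 2 * (H a b).re
  else Real.sqrt 2 * (H b a).im

lemma hermMat_affine {H : Matrix (Fin k) (Fin k) ℂ} (hH : H.IsHermitian) (r : ℝ)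
    (x : Fin k → Fin k → ℝ) :
    hermMat (fun a b => coordOf H a b + r * x a b) = H + (r : ℂ) • hermMat x := by
  have hs : (Real.sqrt 2 : ℂ) ≠ 0 := by simp
  ext a b
  simp only [hermMat, coordOf, Matrix.add_apply, Matrix.smul_apply, Matrix.of_apply, smul_eq_mul]
  rcases lt_trichotomy a b with h | h | h
  · simp only [h.ne, h.ne', not_lt.mpr h.le, h, if_false, if_true]
    push_cast
    field_simp
    linear_combination (Real.sqrt 2 : ℂ) * Complex.re_add_im (H a b)
  · subst h
    simp only [if_true]
    push_cast
    have := hH.coe_re_apply_self a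
    linear_combination this
  · simp only [h.ne, h.ne', not_lt.mpr h.le, h, if_false, if_true]
    push_cast
    field_simp
    have hc : H a b = (starRingEnd ℂ) (H b a) := (hH.apply a b).symm
    rw [hc]
    apply Complex.ext <;> simp <;> ring

end Vale.Agent.P087.Micro
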