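import Mathlib
import Vale.Agent.P087.Micro

/-!
The microstates free entropy of the example is not `-∞`.
-/

noncomputable section

namespace Vale.Agent.P087.ChiFinite

open MeasureTheory ProbabilityTheory Filter Gauss Fock Micro
open scoped NNReal ENNReal Topology InnerProductSpace

variable {N k : ℕ}

/-- The affine change of coordinates. -/
def affT (c : Fin N → Fin k → Fin k → ℝ) (r : Fin N → ℝ) (x : Coord N k → ℝ) :
    Fin N → Fin k → Fin k → ℝ := fun i a b => c i a b + r i * x (i, a, b)

/-- The nested product of Gaussians. -/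
def nested (c : Fin N → Fin k → Fin k → ℝ) (w : Fin N → ℝ≥0) :
    Measure (Fin N → Fin k → Fin k → ℝ) :=
  Measure.pi fun i => Measure.pi fun a => Measure.pi fun b => gaussianReal (c i a b) (w i)

lemma map_affT (c : Fin N → Fin k → Fin k → ℝ) (r : Fin N → ℝ) (v : ℝ≥0) :
    (gaussPi (Coord N k) v).map (affT c r) =
      nested c (fun i => ⟨r i ^ 2, sq_nonneg _⟩ * v) := by
  set w : Fin N → ℝ≥0 := fun i => ⟨r i ^ 2, sq_nonneg _⟩ * v with hw
  set flat : Measure (Coord N k → ℝ) :=
    Measure.pi fun e => gaussianReal (c e.1 e.2.1 e.2.2) (w e.1) with hflat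
  set unc : (Fin N → Fin k → Fin k → ℝ) → Coord N k → ℝ := fun z e => z e.1 e.2.1 e.2.2 with hunc
  set cur : (Coord N k → ℝ) → Fin N → Fin k → Fin k → ℝ := fun x i a b => x (i, a, b) with hcur
  have hm1 : Measurable unc := measurable_pi_lambda _ fun e => by fun_prop
  have hm2 : Measurable cur :=
    measurable_pi_lambda _ fun i => measurable_pi_lambda _ fun a => measurable_pi_lambda _ fun b =>
      measurable_pi_apply _
  have h1 : (nested c w).map unc = flat := by
    refine (Measure.pi_eq fun s hs => ?_).symm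
    rw [Measure.map_apply hm1 (MeasurableSet.univ_pi hs)]
    have : unc ⁻¹' Set.univ.pi s =
        Set.univ.pi fun i => Set.univ.pi fun a => Set.univ.pi fun b => s (i, a, b) := by
      ext z; simp [hunc]
    rw [this, nested]
    simp only [Measure.pi_pi, Fintype.prod_prod_type]
  have h2 : flat.map cur = nested c w := by
    rw [← h1, Measure.map_map hm2 hm1]
    exact Measure.map_id
  set A : (Coord N k → ℝ) → Coord N k → ℝ :=
    fun x e => c e.1 e.2.1 e.2.2 + r e.1 * x e with hA
  have hmA : Measurable A := measurable_pi_lambda _ fun e => by fun_prop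
  have h3 : (gaussPi (Coord N k) v).map A = flat := by
    have haff : ∀ e : Coord N k, (gaussianReal 0 v).map
        (fun t => c e.1 e.2.1 e.2.2 + r e.1 * t) = gaussianReal (c e.1 e.2.1 e.2.2) (w e.1) := by
      intro e
      have hc : (fun t : ℝ => c e.1 e.2.1 e.2.2 + r e.1 * t) =
          (fun t => c e.1 e.2.1 e.2.2 + t) ∘ fun t => r e.1 * t := rfl
      rw [hc, ← Measure.map_map (by fun_prop) (by fun_prop), gaussianReal_map_const_mul,
        gaussianReal_map_const_add]
      simp [hw]
      rfl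
    haveI : ∀ e : Coord N k, SigmaFinite ((gaussianReal 0 v).map
        (fun t => c e.1 e.2.1 e.2.2 + r e.1 * t)) := fun e => by rw [haff e]; infer_instance
    rw [gaussPi, hA, Measure.pi_map_pi (μ := fun _ => gaussianReal 0 v)
      (f := fun (e : Coord N k) t => c e.1 e.2.1 e.2.2 + r e.1 * t)
      (fun e => (measurable_const.add (measurable_const.mul measurable_id')).aemeasurable), hflat]
    exact congrArg Measure.pi (funext haff)
  have : affT c r = cur ∘ A := rfl
  rw [this, ← Measure.map_map hm2 hmA, h3, h2]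

lemma nested_le (c : Fin N → Fin k → Fin k → ℝ) {w : Fin N → ℝ≥0} (hw : ∀ i, w i ≠ 0) :
    nested c w ≤ (∏ i, (∏ _a : Fin k, ∏ _b : Fin k,
      Real.toNNReal (Real.sqrt (2 * Real.pi * w i))⁻¹)) • volume := by
  simp only [volume_pi]
  refine pi_le_smul _ _ _ fun i => ?_
  refine pi_le_smul _ _ _ fun a => ?_
  exact pi_le_smul _ _ _ fun b => gaussianReal_le _ (hw i)

variable (n : ℕ)

/-- The deterministic part. -/
def Pmat (L q : ℕ) (j : Fin (3 + n)) : Matrix (Fin (kk L q)) (Fin (kk L q)) ℂ :=
  ((yWord n j).map (Umat L q)).prod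

lemma Pmat_isHermitian (L q : ℕ) (j : Fin (3 + n)) : (Pmat n L q j).IsHermitian := by
  have h : ((yWord n j).map (Umat L q)).map Matrix.conjTranspose = (yWord n j).map (Umat L q) := by
    rw [List.map_map]
    exact List.map_congr_left fun a _ => Umat_isHermitian L q a
  rw [Matrix.IsHermitian, Pmat, Matrix.conjTranspose_list_prod, h, ← List.map_reverse,
    yWord_reverse]

lemma norm_sum_terms_le {β : Type*} (l : List (ℝ × β)) (f g : β → ℂ) (δ : ℝ)
    (h : ∀ p ∈ l, ‖f p.2 - g p.2‖ ≤ δ) :
    ‖(l.map fun p => (p.1 : ℂ) * f p.2).sum - (l.map fun p => (p.1 : ℂ) * g p.2).sum‖ ≤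
      (l.map fun p => |p.1|).sum * δ := by
  induction l with
  | nil => simp
  | cons q l ih =>
      simp only [List.map_cons, List.sum_cons]
      rw [add_sub_add_comm, ← mul_sub, add_mul]
      refine (norm_add_le _ _).trans (add_le_add ?_ (ih fun p hp => h p (List.mem_cons_of_mem _ hp)))
      rw [norm_mul, Complex.norm_real, Real.norm_eq_abs]
      exact mul_le_mul_of_nonneg_left (h q List.mem_cons_self) (abs_nonneg _)

lemma moment_eval (L q : ℕ) (x : Coord (3 + n) (kk L q) → ℝ) (w : List (Fin (3 + n))) :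
    ((w.map fun j => Pmat n L q j +
        (Model.noise n j : ℂ) • hermMat fun a b => x (j, a, b)).prod).trace / (kk L q : ℂ) =
      ((expand n w).map fun p => (p.1 : ℂ) * polyEval x (trN (Umat L q) p.2)).sum := by
  set ev : Letter n → Matrix (Fin (kk L q)) (Fin (kk L q)) ℂ :=
    Sum.elim (Umat L q) (fun i => hermMat fun a b => x (i, a, b)) with hev
  have h : (w.map fun j => Pmat n L q j +
      (Model.noise n j : ℂ) • hermMat fun a b => x (j, a, b)).prod =
      ((expand n w).map fun p => (p.1 : ℂ) • (p.2.map ev).prod).sum := by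
    rw [← expand_prod n ev w]
    rfl
  rw [h]
  generalize expand n w = l
  induction l with
  | nil => simp
  | cons p l ih =>
      rw [List.map_cons, List.sum_cons, List.map_cons, List.sum_cons, Matrix.trace_add, add_div,
        ih, Matrix.trace_smul, Limit.polyEval_trN, smul_eq_mul]
      ring

lemma mem_micro (L q m : ℕ) (x : Coord (3 + n) (kk L q) → ℝ) (δ ε : ℝ) (hδ : 0 ≤ δ)
    {z : Fin (3 + n) → Fin (kk L q) → Fin (kk L q) → ℝ}
    (hmat : ∀ j, hermMat (z j) =
        Pmat n L q j + (Model.noise n j : ℂ) • hermMat fun a b => x (j, a, b))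
    (hn : ∀ j, ‖Norm.opT x j‖ ≤ 32)
    (hmom : ∀ u : List (Letter n), u.length ≤ (4 * n + 1) * m →
      ‖polyEval x (trN (Umat L q) u) - tauM n u‖ ≤ δ)
    (hsum : ∀ w : List (Fin (3 + n)), w.length ≤ m →
      ((expand n w).map fun p => |p.1|).sum * δ < ε) :
    z ∈ microstates (Model.om n) (Model.xt n) 33 m (kk L q) ε := by
  refine ⟨fun j => ?_, fun w _ hwm => ?_⟩
  · rw [hmat, map_add, map_smul]
    refine (norm_add_le _ _).trans ?_
    have h1 : ‖Matrix.toEuclideanCLM (𝕜 := ℂ) (Pmat n L q j)‖ ≤ 1 := by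
      rw [Pmat, prod_Umat]; exact norm_pm_le _
    have h2 : ‖(Model.noise n j : ℂ) • Norm.opT x j‖ ≤ 32 := by
      rw [norm_smul, Complex.norm_real, Real.norm_eq_abs, abs_of_pos (Model.noise_pos n j)]
      calc Model.noise n j * ‖Norm.opT x j‖ ≤ 1 * 32 :=
            mul_le_mul (Model.noise_le_one n j) (hn j) (norm_nonneg _) zero_le_one
        _ = 32 := one_mul _
    simp only [Norm.opT] at h2
    linarith
  · simp only [hmat]
    rw [moment_eval, vecState_monomial]
    exact lt_of_le_of_lt (norm_sum_terms_le (expand n w) (fun u => polyEval x (trN (Umat L q) u))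
      (tauM n) δ fun p hp => hmom p.2
        ((expand_length n w p hp).trans (Nat.mul_le_mul_left _ hwm))) (hsum w hwm)

/-- A lower bound for the entropy. -/
def lowConst : ℝ := ∑ j : Fin (3 + n), (Real.log (2 * Real.pi) / 2 + Real.log (Model.noise n j)) - 1

lemma eventually_good (m : ℕ) {ε : ℝ} (hε : 0 < ε) :
    ∀ᶠ q in atTop, (1 / 2 : ℝ) ≤ (gaussPi (Coord (3 + n) (kk (2 * ((4 * n + 1) * m)) q))
      ((kk (2 * ((4 * n + 1) * m)) q : ℝ≥0)⁻¹)).real
      (affT (fun j => coordOf (Pmat n (2 * ((4 * n + 1) * m)) q j)) (Model.noise n) ⁻¹'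
        microstates (Model.om n) (Model.xt n) 33 m (kk (2 * ((4 * n + 1) * m)) q) ε) := by
  classical
  set L := 2 * ((4 * n + 1) * m) with hL
  set Wd : Finset (List (Fin (3 + n))) := (List.finite_length_le (Fin (3 + n)) m).toFinset with hWd
  set Lt : Finset (List (Letter n)) :=
    (List.finite_length_le (Letter n) ((4 * n + 1) * m)).toFinset with hLt
  set B := ∑ w ∈ Wd, ((expand n w).map fun p => |p.1|).sum with hB
  have hB0 : ∀ w ∈ Wd, 0 ≤ ((expand n w).map fun p => |p.1|).sum := fun w _ =>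
    List.sum_nonneg fun a ha => by
      obtain ⟨p, -, rfl⟩ := List.mem_map.mp ha; exact abs_nonneg _
  have hBnn : 0 ≤ B := Finset.sum_nonneg hB0
  set δ := ε / (B + 1) with hδ
  have hδ0 : 0 < δ := by positivity
  have hmom : Tendsto (fun q => ∑ u ∈ Lt,
      (gaussPi (Coord (3 + n) (kk L q)) (Limit.var (kk L q))).real
        {x | δ ≤ ‖polyEval x (trN (Umat L q) u) - tauM n u‖}) atTop (𝓝 0) := by
    have := tendsto_finsetSum Lt fun u hu =>
      Limit.tendsto_prob (tauM n) (tauM_cyclic n) (fun i w => tauM_sd n i w) (kk L)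
        (kk_ne L) (kk_tendsto L) (Umat L) L (fun q u hu => trace_Umat n L q u hu)
        (Umat_isHermitian L) u (by
          simp only [hLt, Set.Finite.mem_toFinset, Set.mem_ofPred_eq] at hu
          omega) hδ0
    simpa using this
  filter_upwards [hmom.eventually (eventually_le_nhds (show (0 : ℝ) < 1 / 4 by norm_num)),
    (kk_tendsto L).eventually (Norm.eventually_norm_le (3 + n))] with q hq hnorm
  set μ := gaussPi (Coord (3 + n) (kk L q)) ((kk L q : ℝ≥0)⁻¹) with hμ
  set G := affT (fun j => coordOf (Pmat n L q j)) (Model.noise n) ⁻¹'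
    microstates (Model.om n) (Model.xt n) 33 m (kk L q) ε with hG
  set Bn := {x : Coord (3 + n) (kk L q) → ℝ | ∃ i, 32 < ‖Norm.opT x i‖} with hBn
  set Bm := ⋃ u ∈ Lt, {x : Coord (3 + n) (kk L q) → ℝ |
    δ ≤ ‖polyEval x (trN (Umat L q) u) - tauM n u‖} with hBm
  have hcover : (Set.univ : Set (Coord (3 + n) (kk L q) → ℝ)) ⊆ G ∪ (Bn ∪ Bm) := by
    intro x _
    by_cases hx : x ∈ Bn ∪ Bm
    · exact Or.inr hx
    refine Or.inl ?_
    simp only [hBn, hBm, Set.mem_union, Set.mem_iUnion, Set.mem_ofPred_eq, not_or, not_exists,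
      not_lt, not_le] at hx
    obtain ⟨hx1, hx2⟩ := hx
    have hmat : ∀ j, hermMat (affT (fun j => coordOf (Pmat n L q j)) (Model.noise n) x j) =
        Pmat n L q j + (Model.noise n j : ℂ) • hermMat fun a b => x (j, a, b) :=
      fun j => hermMat_affine (Pmat_isHermitian n L q j) _ _
    exact mem_micro n L q m x δ ε hδ0.le hmat (fun j => hx1 j)
      (fun u hu => (hx2 u ((List.finite_length_le _ _).mem_toFinset.mpr hu)).le)
      (fun w hwm => by
        have hle : ((expand n w).map fun p => |p.1|).sum ≤ B :=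
          Finset.single_le_sum hB0 ((List.finite_length_le _ _).mem_toFinset.mpr hwm)
        calc _ ≤ B * δ := mul_le_mul_of_nonneg_right hle hδ0.le
          _ < (B + 1) * δ := by linarith
          _ = ε := by rw [hδ]; field_simp)
  have h1 : μ.real Set.univ ≤ μ.real G + (μ.real Bn + μ.real Bm) :=
    (measureReal_mono hcover (measure_ne_top _ _)).trans ((measureReal_union_le _ _).trans
      (add_le_add le_rfl (measureReal_union_le _ _)))
  rw [probReal_univ] at h1
  have h2 : μ.real Bm ≤ 1 / 4 := (measureReal_biUnion_finset_le _ _).trans hq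
  linarith

lemma volume_lower (m : ℕ) {ε : ℝ} (hε : 0 < ε) :
    ∃ᶠ k : ℕ in atTop, ((lowConst n : ℝ) : EReal) ≤
      ((((k : ℝ) ^ 2)⁻¹ : ℝ) : EReal) *
          ENNReal.log (volume (microstates (Model.om n) (Model.xt n) 33 m k ε)) +
        (((((3 + n : ℕ) : ℝ)) / 2 * Real.log k : ℝ) : EReal) := by
  set L := 2 * ((4 * n + 1) * m)
  rw [frequently_atTop]
  intro a
  obtain ⟨q, hq, hqa⟩ := ((eventually_good n m hε).and
    ((kk_tendsto L).eventually (eventually_ge_atTop a))).exists
  refine ⟨kk L q, hqa, ?_⟩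
  set k := kk L q with hk
  have hk0 : (0 : ℝ) < k := by
    have := kk_ne L q; positivity
  set Γ := microstates (Model.om n) (Model.xt n) 33 m k ε with hΓ
  set c : Fin (3 + n) → Fin k → Fin k → ℝ := fun j => coordOf (Pmat n L q j) with hc
  set v : ℝ≥0 := (k : ℝ≥0)⁻¹ with hv
  set w : Fin (3 + n) → ℝ≥0 := fun i => ⟨Model.noise n i ^ 2, sq_nonneg _⟩ * v with hw
  have hwR : ∀ i, (w i : ℝ) = Model.noise n i ^ 2 / k := by
    intro i; simp [hw, hv, div_eq_mul_inv]; rfl
  have hw0 : ∀ i, w i ≠ 0 := by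
    intro i h
    have := hwR i
    rw [h] at this
    have := Model.noise_pos n i
    have : (0 : ℝ) < Model.noise n i ^ 2 / k := by positivity
    simp at *
    linarith
  set C : ℝ≥0 := ∏ i, (∏ _a : Fin k, ∏ _b : Fin k,
    Real.toNNReal (Real.sqrt (2 * Real.pi * w i))⁻¹) with hC
  set Cr : ℝ := ∏ i : Fin (3 + n), ∏ _a : Fin k, ∏ _b : Fin k,
    (Real.sqrt (2 * Real.pi * w i))⁻¹ with hCr
  have hwpos : ∀ i, (0 : ℝ) < w i := fun i => by
    rw [hwR]; have := Model.noise_pos n i; positivity
  have hCr0 : 0 < Cr := Finset.prod_pos fun i _ => Finset.prod_pos fun _ _ =>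
    Finset.prod_pos fun _ _ => by have := hwpos i; positivity
  have hCC : (C : ℝ≥0∞) = ENNReal.ofReal Cr := by
    rw [ENNReal.ofReal, ENNReal.coe_inj, hC, hCr]
    apply NNReal.eq
    rw [Real.coe_toNNReal _ hCr0.le]
    push_cast
    refine Finset.prod_congr rfl fun i _ => Finset.prod_congr rfl fun _ _ =>
      Finset.prod_congr rfl fun _ _ => ?_
    rw [Real.coe_toNNReal _ (by positivity)]
  have hvol : ENNReal.ofReal (1 / 2) ≤ (C : ℝ≥0∞) * volume Γ := by
    calc ENNReal.ofReal (1 / 2) ≤ gaussPi (Coord (3 + n) k) v (affT c (Model.noise n) ⁻¹' Γ) := by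
          rw [← ofReal_measureReal (measure_ne_top _ _)]
          exact ENNReal.ofReal_le_ofReal hq
      _ ≤ (gaussPi (Coord (3 + n) k) v).map (affT c (Model.noise n)) Γ :=
          Measure.le_map_apply (measurable_pi_lambda _ fun i => measurable_pi_lambda _ fun a =>
            measurable_pi_lambda _ fun b => measurable_const.add
              (measurable_const.mul (measurable_pi_apply _))).aemeasurable _
      _ ≤ (C • (volume : Measure (Fin (3 + n) → Fin k → Fin k → ℝ))) Γ := by
          rw [map_affT]; exact nested_le c hw0 Γ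
      _ = _ := by rw [Measure.smul_apply, ENNReal.smul_def, smul_eq_mul]
  rw [hCC] at hvol
  have hvol' : ENNReal.ofReal (1 / 2 / Cr) ≤ volume Γ := by
    rw [ENNReal.ofReal_div_of_pos hCr0]
    exact ENNReal.div_le_of_le_mul' hvol
  have hlog : ((Real.log (1 / 2 / Cr) : ℝ) : EReal) ≤ ENNReal.log (volume Γ) := by
    rw [← ENNReal.log_ofReal_of_pos (by positivity)]
    exact ENNReal.log_monotone hvol'
  have hk2 : (0 : ℝ) ≤ ((k : ℝ) ^ 2)⁻¹ := by positivity
  refine le_trans ?_ (add_le_add (mul_le_mul_of_nonneg_left hlog (by exact_mod_cast hk2)) le_rfl)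
  rw [← EReal.coe_mul, ← EReal.coe_add, EReal.coe_le_coe_iff]
  have hlogC : Real.log Cr = -((k : ℝ) ^ 2) * ∑ i,
      (Real.log (2 * Real.pi) / 2 + Real.log (Model.noise n i) - Real.log k / 2) := by
    rw [hCr, Real.log_prod fun i _ => ne_of_gt ?_]
    · rw [Finset.mul_sum]
      refine Finset.sum_congr rfl fun i _ => ?_
      simp only [Finset.prod_const, Finset.card_univ, Fintype.card_fin, Real.log_pow,
        Real.log_inv]
      rw [Real.log_sqrt (by have := hwpos i; positivity), hwR,
        Real.log_mul (by positivity) (by have := Model.noise_pos n i; positivity),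
        Real.log_div (by have := Model.noise_pos n i; positivity) hk0.ne', Real.log_pow]
      push_cast
      ring
    · exact Finset.prod_pos fun _ _ => Finset.prod_pos fun _ _ => by have := hwpos i; positivity
  rw [Real.log_div (by norm_num) hCr0.ne', hlogC, lowConst, Finset.sum_sub_distrib,
    Finset.sum_const, Finset.card_univ, Fintype.card_fin, nsmul_eq_mul, one_div, Real.log_inv]
  have hl2 : Real.log 2 ≤ 1 := by
    have := Real.log_le_sub_one_of_pos (show (0 : ℝ) < 2 by norm_num); linarith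
  have hk1 : ((k : ℝ) ^ 2)⁻¹ ≤ 1 := inv_le_one_of_one_le₀ (one_le_pow₀ (by
    exact_mod_cast Nat.one_le_iff_ne_zero.mpr (kk_ne L q)))
  have hl2' : ((k : ℝ) ^ 2)⁻¹ * Real.log 2 ≤ 1 := by
    calc _ ≤ 1 * Real.log 2 := mul_le_mul_of_nonneg_right hk1 (Real.log_nonneg (by norm_num))
      _ ≤ 1 := by linarith
  field_simp at hl2' ⊢
  nlinarith

theorem chi_gt_bot : ⊥ < chi (Model.om n) (Model.xt n) := by
  refine lt_of_lt_of_le (EReal.bot_lt_coe (lowConst n)) ?_
  refine le_iSup_of_le ⟨33, show (0 : ℝ) < 33 by norm_num⟩ ?_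
  refine le_iInf fun m => le_iInf fun ε => ?_
  exact le_limsup_of_frequently_le (volume_lower n m ε.2)

end Vale.Agent.P087.ChiFinite
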