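import Mathlib
import Vale.Agent.P087.Model
import Vale.Agent.P087.Limit
import Vale.Agent.P087.Micro

/-!
The upper bound for the microstates free entropy of the example: the triangular change of
variables `A_i ↦ A_i - w_i(A_a, A_b, A_c)` preserves volume and makes all coordinates small.
-/

noncomputable section

namespace Vale.Agent.P087.Upper

open MeasureTheory Filter Fock Micro
open scoped ENNReal InnerProductSpace Topology

variable (n : ℕ)

/-- The word of the `i`-th special element in the three generator variables. -/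
def gword (i : Fin n) : List (Fin (3 + n)) :=
  (conjWord (i.val + 1)).map (Fin.castAdd n)

lemma gword_reverse (i : Fin n) : (gword n i).reverse = gword n i := by
  rw [gword, ← List.map_reverse, conjWord_reverse]

lemma gword_length (i : Fin n) : (gword n i).length ≤ 4 * n + 1 := by
  simp [gword, conjWord_length]

/-! ### Operator estimates -/

lemma norm_prod_perturb_le {A : Type*} [NormedRing A] [NormOneClass A] {β : Type*} (u e : β → A)
    {η : ℝ} (hη : 0 ≤ η) (hu : ∀ b, ‖u b‖ ≤ 1) (he : ∀ b, ‖e b‖ ≤ η) (w : List β) :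
    ‖(w.map fun b => u b + e b).prod - (w.map u).prod‖ ≤ (1 + η) ^ w.length - 1 ∧
      ‖(w.map u).prod‖ ≤ 1 := by
  induction w with
  | nil => simp
  | cons b w ih =>
      obtain ⟨h1, h2⟩ := ih
      simp only [List.map_cons, List.prod_cons, List.length_cons]
      set P := (w.map fun b => u b + e b).prod
      set Q := (w.map u).prod
      refine ⟨?_, (norm_mul_le _ _).trans
        ((mul_le_mul (hu b) h2 (norm_nonneg _) zero_le_one).trans (by simp))⟩
      have hP : ‖P‖ ≤ (1 + η) ^ w.length := by
        have := norm_le_insert' P Q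
        linarith
      rw [show (u b + e b) * P - u b * Q = u b * (P - Q) + e b * P by noncomm_ring]
      have a1 : ‖u b * (P - Q)‖ ≤ 1 * ((1 + η) ^ w.length - 1) :=
        (norm_mul_le _ _).trans (mul_le_mul (hu b) h1 (norm_nonneg _) zero_le_one)
      have a2 : ‖e b * P‖ ≤ η * (1 + η) ^ w.length :=
        (norm_mul_le _ _).trans (mul_le_mul (he b) hP (norm_nonneg _) hη)
      calc _ ≤ _ := (norm_add_le _ _).trans (add_le_add a1 a2)
        _ = _ := by rw [pow_succ]; ring

/-- The discrepancy `X_i - w_i(X_a, X_b, X_c)`. -/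
def Dop (i : Fin n) : Model.HM n →L[ℂ] Model.HM n :=
  Model.xt n (Fin.natAdd 3 i) - monomialOp (Model.xt n) (gword n i)

lemma star_monomialOp (w : List (Fin (3 + n))) :
    star (monomialOp (Model.xt n) w) = monomialOp (Model.xt n) w.reverse := by
  induction w with
  | nil => simp [monomialOp]
  | cons a w ih =>
      simp only [monomialOp, List.map_cons, List.prod_cons, star_mul,
        (Model.xt_selfAdjoint n a).star_eq, List.reverse_cons, List.map_append, List.map_nil,
        List.prod_append, List.prod_nil, mul_one] at ih ⊢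
      rw [ih]

lemma re_vecState_mul_self (T : Model.HM n →L[ℂ] Model.HM n) (hT : star T = T) :
    (vecState (Model.om n) (T * T)).re = ‖T (Model.om n)‖ ^ 2 := by
  rw [vecState, mul_apply_eq_comp, ← ContinuousLinearMap.adjoint_inner_left,
    ← ContinuousLinearMap.star_eq_adjoint, hT]
  exact (norm_sq_eq_re_inner (𝕜 := ℂ) _).symm

lemma norm_semi_vac (k : Fin (3 + n) × Bool) : ‖semi k (Model.om n)‖ = 1 := by
  rw [Model.om, vac, semi_bv]
  simp [dnFun, norm_bv]

lemma norm_Dop_vac (i : Fin n) :
    ‖Dop n i (Model.om n)‖ ≤ (1 + 2 * Model.rGen n) ^ (4 * n + 1) := by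
  set u : Fin 3 → Model.HM n →L[ℂ] Model.HM n := fun a => lmul (gen a)
  set e : Fin 3 → Model.HM n →L[ℂ] Model.HM n :=
    fun a => (Model.rGen n : ℂ) • semi (Fin.castAdd n a, false)
  have hr := Model.rGen_pos n
  have he : ∀ a, ‖e a‖ ≤ 2 * Model.rGen n := by
    intro a
    simp only [e, norm_smul, Complex.norm_real, Real.norm_eq_abs, abs_of_pos hr]
    calc Model.rGen n * ‖(semi (Fin.castAdd n a, false) : Model.HM n →L[ℂ] Model.HM n)‖
        ≤ Model.rGen n * 2 := mul_le_mul_of_nonneg_left (norm_semi_le _) hr.le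
      _ = 2 * Model.rGen n := mul_comm _ _
  have hx : ∀ a, Model.xt n (Fin.castAdd n a) = u a + e a := by
    intro a
    simp [Model.xt, Free.Xop, u, e, yG, evalW]
  haveI : Nontrivial (Model.HM n) :=
    ⟨⟨Model.om n, 0, fun h => by simpa [h] using Model.norm_om n⟩⟩
  have h := (norm_prod_perturb_le u e (by positivity : (0 : ℝ) ≤ 2 * Model.rGen n)
    (fun a => norm_lmul_le _) he (conjWord (i.val + 1))).1
  set P := ((conjWord (i.val + 1)).map fun b => u b + e b).prod
  set Q := ((conjWord (i.val + 1)).map u).prod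
  have hD : Dop n i = (semi (Fin.natAdd 3 i, false)) + (Q - P) := by
    have hW : monomialOp (Model.xt n) (gword n i) = P := by
      simp only [monomialOp, gword, List.map_map, Function.comp_def, hx, P]
    have hQ : (lmul (yG n (Fin.natAdd 3 i)) : Model.HM n →L[ℂ] Model.HM n) = Q := by
      rw [yG, Model.lmul_evalW, yWord_right]
    rw [Dop, hW]
    simp only [Model.xt, Free.Xop, Model.noise_right, hQ, Complex.ofReal_one, one_smul]
    abel
  rw [hD, add_apply]
  refine (norm_add_le _ _).trans ?_
  rw [norm_semi_vac]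
  have h2 : ‖(Q - P) (Model.om n)‖ ≤ ‖Q - P‖ := by
    simpa [Model.norm_om] using (Q - P).le_opNorm (Model.om n)
  rw [norm_sub_rev Q P] at h2
  have h3 : (1 + 2 * Model.rGen n) ^ (conjWord (i.val + 1)).length ≤
      (1 + 2 * Model.rGen n) ^ (4 * n + 1) :=
    pow_le_pow_right₀ (by linarith) (by rw [conjWord_length]; omega)
  linarith

/-- The bound on the second moment of the discrepancy. -/
def bsq : ℝ := 1 + 2 / ((n : ℝ) + 1)

lemma norm_Dop_vac_sq (i : Fin n) :
    ‖Dop n i (Model.om n)‖ ^ 2 + 4 * (1 / (4 * ((n : ℝ) + 1))) ≤ bsq n := by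
  have h := norm_Dop_vac n i
  set η := 2 * Model.rGen n with hη
  have hη0 : 0 ≤ η := by have := Model.rGen_pos n; positivity
  have hn : (0 : ℝ) ≤ n := Nat.cast_nonneg n
  set z := ((4 * n + 1 : ℕ) : ℝ) * η with hz
  have hz0 : 0 ≤ z := by positivity
  have hz1 : z ≤ 1 / (50 * ((n : ℝ) + 1)) := by
    rw [hz, hη, Model.rGen]
    push_cast
    rw [show (4 * (n : ℝ) + 1) * (2 * (1 / (400 * ((n : ℝ) + 1) ^ 2))) =
      (4 * (n : ℝ) + 1) / (200 * ((n : ℝ) + 1) ^ 2) by field_simp; ring]
    rw [div_le_div_iff₀ (by positivity) (by positivity)]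
    nlinarith
  have hz2 : z ≤ 1 / 50 := hz1.trans (by
    rw [div_le_div_iff₀ (by positivity) (by norm_num)]; nlinarith)
  have h1 : ((1 + η) ^ (4 * n + 1)) ^ 2 ≤ Real.exp (2 * z) := by
    rw [show Real.exp (2 * z) = (Real.exp η ^ (4 * n + 1)) ^ 2 by
      rw [← Real.exp_nat_mul, ← Real.exp_nat_mul, hz]; push_cast; ring_nf]
    gcongr
    linarith [Real.add_one_le_exp η]
  have h2 : Real.exp (2 * z) ≤ 1 + 4 * z := by
    have := Real.abs_exp_sub_one_le (x := 2 * z) (by rw [abs_of_nonneg (by positivity)]; linarith)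
    rw [abs_of_nonneg (show (0 : ℝ) ≤ 2 * z by positivity)] at this
    linarith [(abs_le.mp this).2]
  have h3 : ‖Dop n i (Model.om n)‖ ^ 2 ≤ ((1 + η) ^ (4 * n + 1)) ^ 2 :=
    pow_le_pow_left₀ (norm_nonneg _) h 2
  have h4 : 4 * z + 4 * (1 / (4 * ((n : ℝ) + 1))) ≤ 2 / ((n : ℝ) + 1) := by
    have e1 : 4 * (1 / (50 * ((n : ℝ) + 1))) + 4 * (1 / (4 * ((n : ℝ) + 1))) =
        (27 / 25) / ((n : ℝ) + 1) := by field_simp; ring
    have e2 : (27 / 25) / ((n : ℝ) + 1) ≤ 2 / ((n : ℝ) + 1) := by gcongr; norm_num
    linarith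
  rw [bsq]
  linarith

lemma norm_gen_vac_sq (a : Fin 3) :
    ‖Model.xt n (Fin.castAdd n a) (Model.om n)‖ ^ 2 + 1 / (4 * ((n : ℝ) + 1)) ≤ 5 := by
  have h : ‖Model.xt n (Fin.castAdd n a) (Model.om n)‖ ≤ 2 := by
    simp only [Model.xt, Free.Xop, add_apply, smul_apply]
    refine (norm_add_le _ _).trans ?_
    rw [norm_smul, norm_semi_vac, Complex.norm_real, Real.norm_eq_abs,
      abs_of_pos (Model.noise_pos n _)]
    have : ‖lmul (yG n (Fin.castAdd n a)) (Model.om n)‖ ≤ 1 := by
      rw [Model.om, vac, lmul_bv, norm_bv]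
    linarith [Model.noise_le_one n (Fin.castAdd n a)]
  have h4 : 1 / (4 * ((n : ℝ) + 1)) ≤ 1 := by
    rw [div_le_one (by positivity)]; linarith [Nat.cast_nonneg (α := ℝ) n]
  nlinarith [norm_nonneg (Model.xt n (Fin.castAdd n a) (Model.om n))]

/-! ### Coordinates -/

variable {k : ℕ}

/-- The squared Euclidean norm of coordinates. -/
def sq2 (x : Fin k → Fin k → ℝ) : ℝ := ∑ a, ∑ b, x a b ^ 2

lemma re_trace_hermMat_sq (x : Fin k → Fin k → ℝ) :
    ((hermMat x * hermMat x).trace).re = sq2 x := by
  have h : ∀ a b : Fin k, (hermMat x a b * hermMat x b a).re = (x a b ^ 2 + x b a ^ 2) / 2 := by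
    intro a b
    have hs : Real.sqrt 2 * Real.sqrt 2 = 2 := Real.mul_self_sqrt (by norm_num)
    rcases lt_trichotomy a b with h | h | h
    · simp [hermMat, h, h.ne, h.ne', not_lt.mpr h.le, Complex.mul_re, Complex.div_re,
        Complex.div_im, Complex.normSq_ofReal]
      field_simp
      rw [sq (Real.sqrt 2), hs]
      ring
    · subst h; simp [hermMat]; ring
    · simp [hermMat, h, h.ne, h.ne', not_lt.mpr h.le, Complex.mul_re, Complex.div_re,
        Complex.div_im, Complex.normSq_ofReal]
      field_simp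
      rw [sq (Real.sqrt 2), hs]
      ring
  simp only [Matrix.trace, Matrix.diag_apply, Matrix.mul_apply, Complex.re_sum, h]
  simp only [add_div, Finset.sum_add_distrib, sq2]
  rw [Finset.sum_comm (f := fun a b => x b a ^ 2 / 2)]
  simp only [← Finset.sum_add_distrib]
  exact Finset.sum_congr rfl fun a _ => Finset.sum_congr rfl fun b _ => by ring

lemma sq2_ball_le {ρ v : ℝ} (hv : 0 < v) :
    volume {x : Fin k → Fin k → ℝ | sq2 x ≤ ρ} ≤
      ENNReal.ofReal (Real.exp (ρ / (2 * v)) * Real.sqrt (2 * Real.pi * v) ^ (k * k)) := by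
  set g : ℝ → ℝ := fun t => Real.exp (-(1 / (2 * v)) * t ^ 2) with hg
  set F : (Fin k → Fin k → ℝ) → ℝ := fun x => Real.exp (ρ / (2 * v)) * ∏ a, ∏ b, g (x a b) with hF
  have hgi : Integrable g := integrable_exp_neg_mul_sq (by positivity)
  have hFi : Integrable F :=
    (Integrable.fintype_prod (f := fun (_ : Fin k) (r : Fin k → ℝ) => ∏ b, g (r b))
      fun _ => Integrable.fintype_prod (f := fun (_ : Fin k) (t : ℝ) => g t) fun _ => hgi).const_mul _
  have hF0 : ∀ x, 0 ≤ F x := fun x => by simp only [hF, hg]; positivity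
  have hmeas : MeasurableSet {x : Fin k → Fin k → ℝ | sq2 x ≤ ρ} :=
    (isClosed_le (by unfold sq2; fun_prop) continuous_const).measurableSet
  have hval : ∫ x, F x = Real.exp (ρ / (2 * v)) * Real.sqrt (2 * Real.pi * v) ^ (k * k) := by
    simp only [hF, integral_const_mul]
    rw [integral_fintype_prod_volume_eq_prod (fun (_ : Fin k) (r : Fin k → ℝ) => ∏ b, g (r b))]
    simp only [integral_fintype_prod_volume_eq_prod (fun (_ : Fin k) (t : ℝ) => g t)]
    simp only [hg, integral_gaussian, Finset.prod_const, Finset.card_univ, Fintype.card_fin]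
    rw [← pow_mul, show Real.pi / (1 / (2 * v)) = 2 * Real.pi * v by field_simp]
  rw [← hval, ofReal_integral_eq_lintegral_ofReal hFi (ae_of_all _ hF0),
    ← lintegral_indicator_one hmeas]
  refine lintegral_mono fun x => ?_
  by_cases hx : sq2 x ≤ ρ
  · rw [Set.indicator_of_mem (by exact hx)]
    rw [Pi.one_apply, ENNReal.one_le_ofReal]
    simp only [hF, hg, ← Real.exp_sum, ← Real.exp_add]
    rw [Real.one_le_exp_iff]
    have : ∑ a, ∑ b, -(1 / (2 * v)) * x a b ^ 2 = -(sq2 x / (2 * v)) := by
      simp only [sq2, ← Finset.mul_sum]; ring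
    rw [this]
    have : sq2 x / (2 * v) ≤ ρ / (2 * v) := by gcongr
    linarith
  · rw [Set.indicator_of_notMem (by exact hx)]; exact zero_le

/-- The value of the triangular map. -/
def shift (g : Fin 3 → Fin k → Fin k → ℝ) (i : Fin n) : Fin k → Fin k → ℝ :=
  coordOf ((conjWord (i.val + 1)).map fun a => hermMat (g a)).prod

lemma continuous_hermMat : Continuous (hermMat : (Fin k → Fin k → ℝ) → Matrix (Fin k) (Fin k) ℂ) := by
  refine continuous_matrix fun a b => ?_
  simp only [hermMat, Matrix.of_apply]
  split_ifs <;> fun_prop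

lemma continuous_shift (i : Fin n) :
    Continuous fun g : Fin 3 → Fin k → Fin k → ℝ => shift n g i := by
  have hc : Continuous (coordOf : Matrix (Fin k) (Fin k) ℂ → Fin k → Fin k → ℝ) := by
    refine continuous_pi fun a => continuous_pi fun b => ?_
    simp only [coordOf]
    have he : ∀ p q : Fin k, Continuous fun H : Matrix (Fin k) (Fin k) ℂ => H p q := fun p q =>
      continuous_id.matrix_elem p q
    split_ifs
    · exact Complex.continuous_re.comp (he a a)
    · exact continuous_const.mul (Complex.continuous_re.comp (he a b))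
    · exact continuous_const.mul (Complex.continuous_im.comp (he b a))
  exact hc.comp (continuous_list_prod _ fun a _ =>
    continuous_hermMat.comp (continuous_apply a))

lemma micro_subset (ε : ℝ) (hεdef : ε = 1 / (4 * ((n : ℝ) + 1))) (R : ℝ) (hk : k ≠ 0) :
    microstates (Model.om n) (Model.xt n) R (8 * n + 4) k ε ⊆
      {x | (∀ a : Fin 3, sq2 (x (Fin.castAdd n a)) ≤ 5 * k) ∧
        ∀ i : Fin n, sq2 (fun p q => shift n (fun a => x (Fin.castAdd n a)) i p q +
          (-1) * x (Fin.natAdd 3 i) p q) ≤ bsq n * k} := by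
  rintro x ⟨-, hx⟩
  set A : Fin (3 + n) → Matrix (Fin k) (Fin k) ℂ := fun j => hermMat (x j)
  have hk0 : (0 : ℝ) < k := by positivity
  have key : ∀ w : List (Fin (3 + n)), 1 ≤ w.length → w.length ≤ 8 * n + 4 →
      |((w.map A).prod.trace).re / k - (vecState (Model.om n) (monomialOp (Model.xt n) w)).re| ≤ ε := by
    intro w h1 h2
    have h := hx w h1 h2
    have h' := (Complex.abs_re_le_norm _).trans h.le
    rw [Complex.sub_re, Complex.div_natCast_re] at h'
    exact h'
  refine ⟨fun a => ?_, fun i => ?_⟩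
  · have h := key [Fin.castAdd n a, Fin.castAdd n a] (by simp) (by simp)
    have e1 : ((([Fin.castAdd n a, Fin.castAdd n a] : List (Fin (3 + n))).map A).prod.trace).re =
        sq2 (x (Fin.castAdd n a)) := by simp [A, re_trace_hermMat_sq]
    have e2 : monomialOp (Model.xt n) [Fin.castAdd n a, Fin.castAdd n a] =
        Model.xt n (Fin.castAdd n a) * Model.xt n (Fin.castAdd n a) := by simp [monomialOp]
    rw [e1, e2, re_vecState_mul_self n _ (Model.xt_selfAdjoint n _).star_eq, abs_le] at h
    have h5 := norm_gen_vac_sq n a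
    have hle : sq2 (x (Fin.castAdd n a)) / k ≤ 5 := by
      rw [hεdef] at h; linarith [h.2]
    rwa [div_le_iff₀ hk0] at hle
  · set j := Fin.natAdd 3 i
    set w := gword n i with hw
    have hwl := gword_length n i
    rw [← hw] at hwl
    have hWmat : ((conjWord (i.val + 1)).map fun a => hermMat (x (Fin.castAdd n a))).prod =
        (w.map A).prod := by
      simp [hw, gword, A, List.map_map, Function.comp_def]
    have hherm : ((w.map A).prod).IsHermitian := by
      have h : (w.map A).map Matrix.conjTranspose = w.map A := by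
        rw [List.map_map]
        exact List.map_congr_left fun a _ => Limit.hermMat_isHermitian _
      rw [Matrix.IsHermitian, Matrix.conjTranspose_list_prod, h, ← List.map_reverse, hw,
        gword_reverse]
    have hh : hermMat (fun p q => shift n (fun a => x (Fin.castAdd n a)) i p q +
        (-1) * x j p q) = (w.map A).prod - A j := by
      rw [show shift n (fun a => x (Fin.castAdd n a)) i = coordOf (w.map A).prod by
        rw [shift, hWmat], hermMat_affine hherm]
      simp [A, sub_eq_add_neg]
    rw [← re_trace_hermMat_sq, hh]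
    set W := (w.map A).prod with hWdef
    set Xw := monomialOp (Model.xt n) w with hXw
    have hwj : 1 ≤ (w ++ w).length := by simp [hw, gword, conjWord_length]; omega
    have k1 := key [j, j] (by simp) (by simp)
    have k2 := key (j :: w) (by simp) (by simp only [List.length_cons]; omega)
    have k3 := key (w ++ [j]) (by simp)
      (by simp only [List.length_append, List.length_cons, List.length_nil]; omega)
    have k4 := key (w ++ w) hwj (by simp only [List.length_append]; omega)
    simp only [List.map_cons, List.map_nil, List.map_append, List.prod_cons, List.prod_nil,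
      List.prod_append, mul_one, monomialOp] at k1 k2 k3 k4
    rw [show ((w.map (Model.xt n)).prod) = Xw from rfl] at k2 k3 k4
    rw [← hWdef] at k2 k3 k4
    have hD : star (Dop n i) = Dop n i := by
      rw [Dop, star_sub, (Model.xt_selfAdjoint n _).star_eq, star_monomialOp, gword_reverse]
    have hnorm := re_vecState_mul_self n _ hD
    have hexp : Dop n i * Dop n i =
        Model.xt n j * Model.xt n j - Model.xt n j * Xw - Xw * Model.xt n j + Xw * Xw := by
      rw [Dop, ← hw, ← hXw]; noncomm_ring
    rw [hexp] at hnorm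
    simp only [vecState, add_apply, sub_apply, inner_add_right, inner_sub_right, Complex.add_re,
      Complex.sub_re] at hnorm
    simp only [vecState] at k1 k2 k3 k4
    have htr : ((W - A j) * (W - A j)).trace.re = (A j * A j).trace.re - (A j * W).trace.re -
        (W * A j).trace.re + (W * W).trace.re := by
      rw [show (W - A j) * (W - A j) = A j * A j - A j * W - W * A j + W * W by noncomm_ring]
      simp [Matrix.trace_add, Matrix.trace_sub]
    rw [htr]
    have hb := norm_Dop_vac_sq n i
    rw [← hεdef] at hb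
    rw [abs_le] at k1 k2 k3 k4
    have hsum : ((A j * A j).trace.re - (A j * W).trace.re - (W * A j).trace.re +
        (W * W).trace.re) / k ≤ bsq n := by
      simp only [add_div, sub_div]
      linarith
    rwa [div_le_iff₀ hk0] at hsum

lemma volume_le (hk : k ≠ 0) (ε : ℝ) (hε : ε = 1 / (4 * ((n : ℝ) + 1))) (R : ℝ) :
    volume (microstates (Model.om n) (Model.xt n) R (8 * n + 4) k ε) ≤
      ENNReal.ofReal (Real.exp ((k : ℝ) ^ 2 / 2) * Real.sqrt (2 * Real.pi * (5 / k)) ^ (k * k)) ^ 3 *
      ENNReal.ofReal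
        (Real.exp ((k : ℝ) ^ 2 / 2) * Real.sqrt (2 * Real.pi * (bsq n / k)) ^ (k * k)) ^ n := by
  have hk0 : (0 : ℝ) < k := by positivity
  have hb : 0 < bsq n := by unfold bsq; positivity
  refine (measure_mono (micro_subset n ε hε R hk)).trans ?_
  set S : Set ((Fin 3 → Fin k → Fin k → ℝ) × (Fin n → Fin k → Fin k → ℝ)) :=
    {p | (∀ a, sq2 (p.1 a) ≤ 5 * k) ∧
      ∀ i, sq2 (fun r s => shift n p.1 i r s + (-1) * p.2 i r s) ≤ bsq n * k} with hS
  have hSm : MeasurableSet S := by
    rw [hS, Set.ofPred_and, Set.ofPred_forall, Set.ofPred_forall]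
    refine MeasurableSet.inter ?_ ?_
    · refine MeasurableSet.iInter fun a => (isClosed_le ?_ continuous_const).measurableSet
      unfold sq2; fun_prop
    · refine MeasurableSet.iInter fun i => (isClosed_le ?_ continuous_const).measurableSet
      have hc : Continuous fun p : (Fin 3 → Fin k → Fin k → ℝ) × (Fin n → Fin k → Fin k → ℝ) =>
          shift n p.1 i := (continuous_shift n i).comp continuous_fst
      unfold sq2
      refine continuous_finsetSum _ fun r _ => continuous_finsetSum _ fun s _ => ?_
      refine ((((continuous_apply s).comp ((continuous_apply r).comp hc))).add ?_).pow 2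
      fun_prop
  set app : (Fin (3 + n) → Fin k → Fin k → ℝ) →
      (Fin 3 → Fin k → Fin k → ℝ) × (Fin n → Fin k → Fin k → ℝ) :=
    fun x => (fun a => x (Fin.castAdd n a), fun i => x (Fin.natAdd 3 i))
  have happ : MeasurePreserving app volume volume := by
    have h1 := (volume_measurePreserving_piCongrLeft (fun _ : Fin (3 + n) => Fin k → Fin k → ℝ)
      (finSumFinEquiv (m := 3) (n := n))).symm
    have h2 := volume_measurePreserving_sumPiEquivProdPi
      (fun _ : Fin 3 ⊕ Fin n => Fin k → Fin k → ℝ)
    exact h2.comp h1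
  have : {x : Fin (3 + n) → Fin k → Fin k → ℝ | (∀ a : Fin 3, sq2 (x (Fin.castAdd n a)) ≤ 5 * k) ∧
      ∀ i : Fin n, sq2 (fun p q => shift n (fun a => x (Fin.castAdd n a)) i p q +
        (-1) * x (Fin.natAdd 3 i) p q) ≤ bsq n * k} = app ⁻¹' S := rfl
  rw [this, happ.measure_preimage hSm.nullMeasurableSet, Measure.volume_eq_prod,
    Measure.prod_apply hSm]
  set B1 : Set (Fin k → Fin k → ℝ) := {y | sq2 y ≤ 5 * k}
  set B2 : Set (Fin k → Fin k → ℝ) := {y | sq2 y ≤ bsq n * k}
  have hsec : ∀ g, volume (Prod.mk g ⁻¹' S) ≤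
      (Set.univ.pi fun _ : Fin 3 => B1).indicator (fun _ => volume B2 ^ n) g := by
    intro g
    by_cases hg : g ∈ Set.univ.pi fun _ : Fin 3 => B1
    · rw [Set.indicator_of_mem hg]
      refine (measure_mono (t := Set.univ.pi fun i : Fin n =>
        (fun y => y + -shift n g i) ⁻¹' B2) ?_).trans (le_of_eq ?_)
      · intro f hf i _
        have := hf.2 i
        simp only [Set.mem_preimage, B2, Set.mem_ofPred_eq]
        refine le_of_eq_of_le ?_ this
        simp only [sq2, Pi.add_apply, Pi.neg_apply]
        exact Finset.sum_congr rfl fun r _ => Finset.sum_congr rfl fun s _ => by ring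
      · rw [volume_pi_pi]
        simp only [measure_preimage_add_right, Finset.prod_const, Finset.card_univ,
          Fintype.card_fin]
    · rw [Set.indicator_of_notMem hg]
      apply le_of_eq
      have : Prod.mk g ⁻¹' S = ∅ := by
        ext f
        simp only [Set.mem_preimage, Set.mem_empty_iff_false, iff_false]
        intro hf
        exact hg fun a _ => hf.1 a
      rw [this, measure_empty]
  refine (lintegral_mono hsec).trans ?_
  have hB1m : MeasurableSet (Set.univ.pi fun _ : Fin 3 => B1) :=
    MeasurableSet.univ_pi fun _ =>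
      (isClosed_le (by unfold sq2; fun_prop) continuous_const).measurableSet
  rw [lintegral_indicator_const hB1m, volume_pi_pi, Finset.prod_const, Finset.card_univ,
    Fintype.card_fin, mul_comm]
  gcongr
  · refine (sq2_ball_le (v := 5 / k) (by positivity)).trans (le_of_eq ?_)
    congr 3
    field_simp
  · refine (sq2_ball_le (v := bsq n / k) (by positivity)).trans (le_of_eq ?_)
    congr 3
    field_simp

/-- The upper bound. -/
def upConst : ℝ :=
  ((3 + n : ℕ) : ℝ) / 2 * Real.log (2 * Real.pi * Real.exp 1) + 3 / 2 * Real.log 5 + 1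

theorem chi_le : chi (Model.om n) (Model.xt n) ≤ ((upConst n : ℝ) : EReal) := by
  refine iSup_le fun R => ?_
  set ε : ℝ := 1 / (4 * ((n : ℝ) + 1)) with hεdef
  refine iInf_le_of_le (8 * n + 4) (iInf_le_of_le ⟨ε, show (0 : ℝ) < ε by positivity⟩ ?_)
  refine limsup_le_of_le (by isBoundedDefault) ?_
  filter_upwards [eventually_ne_atTop 0] with k hk
  have hk0 : (0 : ℝ) < k := by positivity
  have hb : 0 < bsq n := by unfold bsq; positivity
  have hv := volume_le n hk ε hεdef R
  set a1 := Real.exp ((k : ℝ) ^ 2 / 2) * Real.sqrt (2 * Real.pi * (5 / k)) ^ (k * k) with ha1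
  set a2 := Real.exp ((k : ℝ) ^ 2 / 2) * Real.sqrt (2 * Real.pi * (bsq n / k)) ^ (k * k) with ha2
  have ha1p : 0 < a1 := by positivity
  have ha2p : 0 < a2 := by positivity
  rw [← ENNReal.ofReal_pow ha1p.le, ← ENNReal.ofReal_pow ha2p.le,
    ← ENNReal.ofReal_mul (by positivity)] at hv
  have hlog : ENNReal.log (volume (microstates (Model.om n) (Model.xt n) R (8 * n + 4) k ε)) ≤
      ((Real.log (a1 ^ 3 * a2 ^ n) : ℝ) : EReal) := by
    rw [← ENNReal.log_ofReal_of_pos (by positivity)]
    exact ENNReal.log_monotone hv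
  have hk2 : (0 : ℝ) ≤ ((k : ℝ) ^ 2)⁻¹ := by positivity
  refine le_trans (add_le_add (mul_le_mul_of_nonneg_left hlog (by exact_mod_cast hk2)) le_rfl) ?_
  rw [← EReal.coe_mul, ← EReal.coe_add, EReal.coe_le_coe_iff]
  have hsq : ∀ c : ℝ, 0 < c → Real.log (Real.exp ((k : ℝ) ^ 2 / 2) *
      Real.sqrt (2 * Real.pi * (c / k)) ^ (k * k)) = (k : ℝ) ^ 2 / 2 *
      (Real.log (2 * Real.pi * Real.exp 1) + Real.log c - Real.log k) := by
    intro c hc
    rw [Real.log_mul (Real.exp_pos _).ne' (by positivity), Real.log_exp, Real.log_pow,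
      Real.log_sqrt (by positivity),
      Real.log_mul (show (2 * Real.pi) ≠ 0 by positivity) (show c / (k : ℝ) ≠ 0 by positivity),
      Real.log_div hc.ne' hk0.ne',
      Real.log_mul (show (2 * Real.pi) ≠ 0 by positivity) (Real.exp_pos 1).ne', Real.log_exp]
    push_cast
    ring
  rw [Real.log_mul (by positivity) (by positivity), Real.log_pow, Real.log_pow, ha1, ha2,
    hsq 5 (by norm_num), hsq _ hb, upConst]
  push_cast
  have hlb : (n : ℝ) * Real.log (bsq n) ≤ 2 := by
    have h1 : Real.log (bsq n) ≤ 2 / ((n : ℝ) + 1) := by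
      have := Real.log_le_sub_one_of_pos hb
      rw [bsq] at this ⊢; linarith
    calc (n : ℝ) * Real.log (bsq n) ≤ n * (2 / ((n : ℝ) + 1)) :=
          mul_le_mul_of_nonneg_left h1 (Nat.cast_nonneg n)
      _ ≤ 2 := by
          rw [mul_div_assoc', div_le_iff₀ (by positivity)]
          nlinarith [Nat.cast_nonneg (α := ℝ) n]
  field_simp
  nlinarith

end Vale.Agent.P087.Upper
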