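import Mathlib
import Vale.Agent.P087.Model
import Vale.Agent.P087.Upper

/-!
The lower bound for the non-microstates free entropy of the example, and the comparison.
-/

noncomputable section

namespace Vale.Agent.P087.Lower

open MeasureTheory Filter Fock
open scoped ENNReal InnerProductSpace Topology

variable (n : ℕ)

/-- The threshold. -/
def thr : ℝ := 640 * Real.sqrt n

/-- The gain function. -/
def gain : ℝ → ℝ :=
  (Set.Ioc (thr n) (2 * thr n)).indicator fun _ => (n : ℝ) / 2 / (1 + 2 * thr n) ^ 2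

/-- The loss function coming from the three generators. -/
def loss (t : ℝ) : ℝ := 3 * (1 / (Model.rGen n ^ 2 + t) - 1 / (1 + t))

lemma loss_nonneg {t : ℝ} (ht : 0 ≤ t) : 0 ≤ loss n t := by
  have hr := Model.rGen_pos n
  have hr1 : Model.rGen n ^ 2 ≤ 1 := pow_le_one₀ hr.le (Model.rGen_le_one n)
  have : 1 / (1 + t) ≤ 1 / (Model.rGen n ^ 2 + t) :=
    one_div_le_one_div_of_le (by positivity) (by linarith)
  unfold loss; linarith

lemma gain_nonneg (t : ℝ) : 0 ≤ gain n t :=
  Set.indicator_nonneg (fun _ _ => by positivity) t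

lemma sum_xi_le (hn : 100 ≤ n) {t : ℝ} (ht : 0 < t) :
    ∑ j, ‖Cumulant.xi (yG n) (Model.cc n t) j‖ ^ 2 ≤
      ((3 + n : ℕ) : ℝ) / (1 + t) + loss n t - gain n t := by
  have hn1 : 1 ≤ n := by omega
  have hn0 : (0 : ℝ) < n := by exact_mod_cast hn1
  have hvv := Model.vv_cc n ht.le
  have hv : ∀ j, 0 < Cumulant.vv (Model.cc n t) j := fun j => by
    rw [hvv]; have := Model.noise_pos n j; positivity
  have hgen : ∑ a : Fin 3, ‖Cumulant.xi (yG n) (Model.cc n t) (Fin.castAdd n a)‖ ^ 2 ≤
      3 / (1 + t) + loss n t := by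
    calc _ ≤ ∑ _a : Fin 3, 1 / (Model.rGen n ^ 2 + t) := Finset.sum_le_sum fun a _ => by
          refine (Cumulant.norm_xi_sq_le _ _ _ (hv _)).trans (le_of_eq ?_)
          rw [hvv, Model.noise_left]
      _ = _ := by simp [loss]; ring
  have hspec : ∑ i : Fin n, ‖Cumulant.xi (yG n) (Model.cc n t) (Fin.natAdd 3 i)‖ ^ 2 ≤
      (n : ℝ) / (1 + t) - gain n t := by
    by_cases hI : t ∈ Set.Ioc (thr n) (2 * thr n)
    · have hs : 0 < Real.sqrt n := Real.sqrt_pos.mpr hn0
      have hE := Cumulant.sum_norm_condE_sq_le (y := yG n) (c := Model.cc n t) (w := wt n)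
        (lam := 5 * Real.sqrt n) (s := Real.sqrt t) (yG_mul_self n) (yG_ne_one n) (wt_nonneg n)
        (wt_one n) (by positivity) (wt_schur n hn1) (fun i => rfl) (Real.sqrt_pos.mpr ht).ne'
        (by rw [Real.sq_sqrt ht.le]; have := hI.1; unfold thr at this; linarith)
      rw [Fin.sum_univ_add] at hE
      have hpart : ∑ i : Fin n, ‖Cumulant.condE (yG n) (Model.cc n t) (Fin.natAdd 3 i)‖ ^ 2 ≤
          5 * Real.sqrt n := by
        have : 0 ≤ ∑ a : Fin 3,
            ‖Cumulant.condE (yG n) (Model.cc n t) (Fin.castAdd n a)‖ ^ 2 :=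
          Finset.sum_nonneg fun a _ => sq_nonneg _
        linarith
      have hval : ∀ i : Fin n, ‖Cumulant.xi (yG n) (Model.cc n t) (Fin.natAdd 3 i)‖ ^ 2 =
          (t + ‖Cumulant.condE (yG n) (Model.cc n t) (Fin.natAdd 3 i)‖ ^ 2) / (1 + t) ^ 2 := by
        intro i
        rw [Cumulant.norm_xi_sq _ _ _ (hv _), hvv, Model.noise_right, one_pow]
        ring
      simp only [hval, ← Finset.sum_div, Finset.sum_add_distrib, Finset.sum_const,
        Finset.card_univ, Fintype.card_fin, nsmul_eq_mul]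
      rw [gain, Set.indicator_of_mem hI]
      have hh : 5 * Real.sqrt n ≤ (n : ℝ) / 2 := by
        have h100 : (100 : ℝ) ≤ n := by exact_mod_cast hn
        have h10 : 10 ≤ Real.sqrt n := by
          rw [Real.le_sqrt (by norm_num) hn0.le]; linarith
        nlinarith [Real.mul_self_sqrt hn0.le]
      set Q := (n : ℝ) / 2 / (1 + 2 * thr n) ^ 2 with hQ
      have h2 : Q ≤ ((n : ℝ) - 5 * Real.sqrt n) / (1 + t) ^ 2 := by
        rw [hQ]
        refine div_le_div₀ (by linarith) (by linarith) (by positivity) ?_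
        gcongr
        linarith [hI.2]
      have e : (n : ℝ) / (1 + t) = (n * t + n) / (1 + t) ^ 2 := by field_simp; ring
      rw [e, le_sub_iff_add_le]
      calc _ ≤ ((n : ℝ) * t + 5 * Real.sqrt n) / (1 + t) ^ 2 +
            ((n : ℝ) - 5 * Real.sqrt n) / (1 + t) ^ 2 := by
            refine add_le_add ?_ h2
            gcongr
        _ = _ := by rw [← add_div]; ring_nf
    · rw [gain, Set.indicator_of_notMem hI, sub_zero]
      calc _ ≤ ∑ _i : Fin n, 1 / (1 + t) := Finset.sum_le_sum fun i _ => by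
            refine (Cumulant.norm_xi_sq_le _ _ _ (hv _)).trans (le_of_eq ?_)
            rw [hvv, Model.noise_right, one_pow]
        _ = _ := by simp [div_eq_mul_inv]
  rw [Fin.sum_univ_add]
  push_cast
  rw [add_div]
  linarith

lemma fisher_le (hn : 100 ≤ n) {t : ℝ} (ht : 0 < t) :
    fisher (Model.om n) (perturb (Model.xt n) (Model.st n) t) ≤
      ENNReal.ofReal (((3 + n : ℕ) : ℝ) / (1 + t) + loss n t - gain n t) := by
  refine iInf₂_le_of_le (fun j => Cumulant.xi (yG n) (Model.cc n t) j)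
    (fun j => Model.isConjugate_xi n ht.le j) ?_
  rw [← ENNReal.ofReal_sum_of_nonneg fun j _ => sq_nonneg _]
  exact ENNReal.ofReal_le_ofReal (sum_xi_le n hn ht)

lemma measurable_gain : Measurable (gain n) :=
  measurable_const.indicator measurableSet_Ioc

lemma lintegral_loss :
    ∫⁻ t in Set.Ioi (0 : ℝ), ENNReal.ofReal (loss n t) =
      ENNReal.ofReal (-(6 * Real.log (Model.rGen n))) := by
  have hr := Model.rGen_pos n
  set a := Model.rGen n ^ 2 with ha
  have ha0 : 0 < a := by positivity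
  set F : ℝ → ℝ := fun t => 3 * (Real.log (a + t) - Real.log (1 + t)) with hF
  have hderiv : ∀ x ∈ Set.Ici (0 : ℝ), HasDerivAt F (loss n x) x := by
    intro x hx
    have hx0 : (0 : ℝ) ≤ x := hx
    have h1 : HasDerivAt (fun t => Real.log (a + t)) (1 / (a + x)) x := by
      simpa using ((hasDerivAt_id x).const_add a).log (by simp; linarith)
    have h2 : HasDerivAt (fun t => Real.log (1 + t)) (1 / (1 + x)) x := by
      simpa using ((hasDerivAt_id x).const_add 1).log (by simp; linarith)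
    simpa [hF, loss, ha] using (h1.sub h2).const_mul 3
  have hlim : Tendsto F atTop (𝓝 0) := by
    have h2 : Tendsto (fun t : ℝ => (a - 1) / (1 + t)) atTop (𝓝 0) :=
      (tendsto_atTop_add_const_left _ 1 tendsto_id).const_div_atTop _
    have h3 : Tendsto (fun t : ℝ => 1 + (a - 1) / (1 + t)) atTop (𝓝 1) := by
      simpa using h2.const_add 1
    have h4 := (((Real.continuousAt_log (one_ne_zero)).tendsto).comp h3).const_mul 3
    simp only [Real.log_one, mul_zero] at h4
    refine h4.congr' ?_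
    filter_upwards [eventually_ge_atTop (0 : ℝ)] with t ht
    simp only [hF, Function.comp_apply]
    rw [← Real.log_div (by linarith) (by linarith)]
    congr 2
    field_simp
    ring
  have hpos : ∀ x ∈ Set.Ioi (0 : ℝ), 0 ≤ loss n x := fun x hx => loss_nonneg n (le_of_lt hx)
  have hint := integrableOn_Ioi_deriv_of_nonneg' hderiv hpos hlim
  rw [← ofReal_integral_eq_lintegral_ofReal hint
    ((ae_restrict_iff' measurableSet_Ioi).mpr (ae_of_all _ hpos))]
  congr 1
  rw [integral_Ioi_of_hasDerivAt_of_nonneg' hderiv hpos hlim]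
  simp only [hF, add_zero, Real.log_one, sub_zero, ha, Real.log_pow]
  push_cast
  ring

lemma lintegral_gain (hn : 100 ≤ n) :
    ENNReal.ofReal ((n : ℝ) / (18 * thr n)) ≤ ∫⁻ t in Set.Ioi (0 : ℝ), ENNReal.ofReal (gain n t) := by
  have hn0 : (0 : ℝ) < n := by exact_mod_cast (show 0 < n by omega)
  have hthr : 1 ≤ thr n := by
    have : 1 ≤ Real.sqrt n := Real.one_le_sqrt.mpr (by exact_mod_cast (show 1 ≤ n by omega))
    unfold thr; linarith
  set c := (n : ℝ) / 2 / (1 + 2 * thr n) ^ 2 with hc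
  have h1 : ∀ t, ENNReal.ofReal (gain n t) =
      (Set.Ioc (thr n) (2 * thr n)).indicator (fun _ => ENNReal.ofReal c) t := by
    intro t
    by_cases h : t ∈ Set.Ioc (thr n) (2 * thr n) <;> simp [gain, h, hc]
  simp only [h1]
  rw [lintegral_indicator_const measurableSet_Ioc, Measure.restrict_apply measurableSet_Ioc,
    (Set.inter_eq_left.mpr fun t ht => show t ∈ Set.Ioi (0 : ℝ) from lt_trans (by linarith) ht.1 :
      Set.Ioc (thr n) (2 * thr n) ∩ Set.Ioi (0 : ℝ) = Set.Ioc (thr n) (2 * thr n)), Real.volume_Ioc,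
    ← ENNReal.ofReal_mul (by positivity)]
  refine ENNReal.ofReal_le_ofReal ?_
  rw [hc, show (2 * thr n - thr n) = thr n by ring, div_mul_eq_mul_div,
    div_le_div_iff₀ (by positivity) (by positivity)]
  have h9 : (1 + 2 * thr n) ^ 2 ≤ 9 * thr n ^ 2 := by nlinarith
  nlinarith

lemma chiStar_ge (hn : 100 ≤ n) :
    ((1 / 2 * ((n : ℝ) / (18 * thr n) + 6 * Real.log (Model.rGen n)) +
      ((3 + n : ℕ) : ℝ) / 2 * Real.log (2 * Real.pi * Real.exp 1) : ℝ) : EReal) ≤
      chiStar (Model.om n) (Model.xt n) (Model.st n) := by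
  unfold chiStar
  set P := ∫⁻ t in Set.Ioi (0 : ℝ), (ENNReal.ofReal (((3 + n : ℕ) : ℝ) / (1 + t)) -
    fisher (Model.om n) (perturb (Model.xt n) (Model.st n) t)) with hP
  set M := ∫⁻ t in Set.Ioi (0 : ℝ), (fisher (Model.om n) (perturb (Model.xt n) (Model.st n) t) -
    ENNReal.ofReal (((3 + n : ℕ) : ℝ) / (1 + t))) with hM
  set Lr := -(6 * Real.log (Model.rGen n)) with hLr
  have hLr0 : 0 ≤ Lr := by
    have := Real.log_nonpos (Model.rGen_pos n).le (Model.rGen_le_one n)
    rw [hLr]; linarith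
  have hpt : ∀ t ∈ Set.Ioi (0 : ℝ), ENNReal.ofReal (gain n t) +
      (fisher (Model.om n) (perturb (Model.xt n) (Model.st n) t) -
        ENNReal.ofReal (((3 + n : ℕ) : ℝ) / (1 + t))) ≤
      (ENNReal.ofReal (((3 + n : ℕ) : ℝ) / (1 + t)) -
        fisher (Model.om n) (perturb (Model.xt n) (Model.st n) t)) + ENNReal.ofReal (loss n t) ∧
      (fisher (Model.om n) (perturb (Model.xt n) (Model.st n) t) -
        ENNReal.ofReal (((3 + n : ℕ) : ℝ) / (1 + t))) ≤ ENNReal.ofReal (loss n t) := by
    intro t ht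
    have ht' : (0 : ℝ) < t := ht
    have hle := fisher_le n hn ht'
    have hne := ne_top_of_le_ne_top ENNReal.ofReal_ne_top hle
    obtain ⟨φ, hφ0, hφ⟩ : ∃ φ : ℝ, 0 ≤ φ ∧
        fisher (Model.om n) (perturb (Model.xt n) (Model.st n) t) = ENNReal.ofReal φ :=
      ⟨_, ENNReal.toReal_nonneg, (ENNReal.ofReal_toReal hne).symm⟩
    rw [hφ] at hle ⊢
    have ha : 0 ≤ ((3 + n : ℕ) : ℝ) / (1 + t) := by positivity
    have hg := gain_nonneg n t
    have hl := loss_nonneg n ht'.le
    set a := ((3 + n : ℕ) : ℝ) / (1 + t)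
    have hφle : φ ≤ max (a + loss n t - gain n t) 0 := by
      rw [← ENNReal.ofReal_le_ofReal_iff (le_max_right _ _)]
      exact hle.trans (ENNReal.ofReal_le_ofReal (le_max_left _ _))
    have hφle' : φ ≤ a + loss n t - gain n t ∨ φ = 0 := by
      rcases le_max_iff.mp hφle with h | h
      · exact Or.inl h
      · exact Or.inr (le_antisymm h hφ0)
    rw [← ENNReal.ofReal_sub _ ha, ← ENNReal.ofReal_sub _ hφ0]
    refine ⟨?_, ENNReal.ofReal_le_ofReal ?_⟩
    · rcases le_total φ a with h | h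
      · rw [ENNReal.ofReal_of_nonpos (show φ - a ≤ 0 by linarith), add_zero,
          ← ENNReal.ofReal_add (by linarith) hl]
        refine ENNReal.ofReal_le_ofReal ?_
        rcases hφle' with h' | h'
        · linarith
        · subst h'
          have hs := sum_xi_le n hn ht'
          have : 0 ≤ ∑ j, ‖Cumulant.xi (yG n) (Model.cc n t) j‖ ^ 2 :=
            Finset.sum_nonneg fun j _ => sq_nonneg _
          linarith
      · rw [ENNReal.ofReal_of_nonpos (show a - φ ≤ 0 by linarith), zero_add,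
          ← ENNReal.ofReal_add hg (by linarith)]
        refine ENNReal.ofReal_le_ofReal ?_
        rcases hφle' with h' | h'
        · linarith
        · linarith [hl, hg, sum_xi_le n hn ht',
            Finset.sum_nonneg (s := Finset.univ) fun j (_ : j ∈ Finset.univ) =>
              sq_nonneg ‖Cumulant.xi (yG n) (Model.cc n t) j‖]
    · rcases hφle' with h' | h'
      · linarith
      · linarith
  have hmg : Measurable fun t => ENNReal.ofReal (gain n t) :=
    ENNReal.measurable_ofReal.comp (measurable_gain n)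
  have hml : Measurable fun t => ENNReal.ofReal (loss n t) := by
    unfold loss; fun_prop
  have hM' : M ≤ ENNReal.ofReal Lr := by
    rw [hLr, ← lintegral_loss]
    exact setLIntegral_mono' measurableSet_Ioi fun t ht => (hpt t ht).2
  have hsum : ENNReal.ofReal ((n : ℝ) / (18 * thr n)) + M ≤ P + ENNReal.ofReal Lr := by
    rw [hLr, ← lintegral_loss]
    calc _ ≤ (∫⁻ t in Set.Ioi (0 : ℝ), ENNReal.ofReal (gain n t)) + M :=
          add_le_add (lintegral_gain n hn) le_rfl
      _ = ∫⁻ t in Set.Ioi (0 : ℝ), (ENNReal.ofReal (gain n t) + _) :=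
          (lintegral_add_left hmg _).symm
      _ ≤ ∫⁻ t in Set.Ioi (0 : ℝ), (_ + ENNReal.ofReal (loss n t)) :=
          setLIntegral_mono' measurableSet_Ioi fun t ht => (hpt t ht).1
      _ = _ := lintegral_add_right _ hml
  have hM0 : M ≠ ∞ := ne_top_of_le_ne_top ENNReal.ofReal_ne_top hM'
  have hdiff : (((n : ℝ) / (18 * thr n) + 6 * Real.log (Model.rGen n) : ℝ) : EReal) ≤
      (P : EReal) - (M : EReal) := by
    by_cases hPt : P = ∞
    · rw [hPt, ← ENNReal.ofReal_toReal hM0, EReal.coe_ennreal_top, EReal.coe_ennreal_ofReal,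
        EReal.top_sub_coe]
      exact le_top
    · have h := ENNReal.toReal_mono (by simp [hPt]) hsum
      rw [ENNReal.toReal_add ENNReal.ofReal_ne_top hM0, ENNReal.toReal_add hPt
        ENNReal.ofReal_ne_top, ENNReal.toReal_ofReal hLr0,
        ENNReal.toReal_ofReal (div_nonneg (Nat.cast_nonneg n) (by unfold thr; positivity))] at h
      rw [← EReal.coe_ennreal_toReal hPt, ← EReal.coe_ennreal_toReal hM0, ← EReal.coe_sub,
        EReal.coe_le_coe_iff]
      rw [hLr] at h
      linarith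
  rw [EReal.coe_add, EReal.coe_mul]
  refine add_le_add (mul_le_mul_of_nonneg_left hdiff ?_) le_rfl
  exact_mod_cast (by norm_num : (0 : ℝ) ≤ 1 / 2)

theorem chi_lt_chiStar :
    chi (Model.om ((2 ^ 30) ^ 2)) (Model.xt ((2 ^ 30) ^ 2)) <
      chiStar (Model.om ((2 ^ 30) ^ 2)) (Model.xt ((2 ^ 30) ^ 2))
        (Model.st ((2 ^ 30) ^ 2)) := by
  have hb : 100 ≤ (2 ^ 30) ^ 2 := by norm_num
  generalize hm : (2 ^ 30) ^ 2 = m at hb
  refine lt_of_le_of_lt (Upper.chi_le m) (lt_of_lt_of_le (EReal.coe_lt_coe_iff.mpr ?_)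
    (chiStar_ge m hb))
  have hmR : (m : ℝ) = ((2 : ℝ) ^ 30) ^ 2 := by rw [← hm]; norm_num
  have hsq : Real.sqrt m = (2 : ℝ) ^ 30 := by rw [hmR, Real.sqrt_sq (by positivity)]
  have h2 : Real.log 2 ≤ 1 := by
    have := Real.log_le_sub_one_of_pos (show (0 : ℝ) < 2 by norm_num); linarith
  have hr : -140 ≤ Real.log (Model.rGen m) := by
    have hb : (400 : ℝ) * ((m : ℝ) + 1) ^ 2 ≤ (2 : ℝ) ^ 132 := by
      rw [hmR]; norm_num
    have h3 := Real.log_le_log (by positivity) hb
    rw [Real.log_pow] at h3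
    push_cast at h3
    rw [Model.rGen, one_div, Real.log_inv]
    linarith
  have hgain : (m : ℝ) / (18 * thr m) = (2 : ℝ) ^ 30 / 11520 := by
    rw [thr, hsq, hmR]; norm_num
  have hl5 : Real.log 5 ≤ 4 := by
    have := Real.log_le_sub_one_of_pos (show (0 : ℝ) < 5 by norm_num); linarith
  rw [Upper.upConst, hgain]
  norm_num
  linarith

end Vale.Agent.P087.Lower
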